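import Vale.Agent.P237.Sharp.SliceEquality
import Vale.Agent.P237.Asymp.Statement

/-!
P237: a convex body of zero isoperimetric excess up to linear maps of determinant one is an
ellipsoid.
-/

noncomputable section

open MeasureTheory Set Filter Topology Metric
open scoped RealInnerProductSpace Pointwise ENNReal

namespace Vale.Agent.P237.Sharp

open Asymp (FarFromEllipsoids thickened ballSurface)

variable {n : ℕ}

lemma kappa_pos' (n : ℕ) : 0 < kappa n :=
  ENNReal.toReal_pos (measure_ball_pos volume _ one_pos).ne' measure_ball_lt_top.ne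

lemma vol_closedBall (x : E n) {r : ℝ} (hr : 0 ≤ r) : vol (closedBall x r) = r ^ n * kappa n := by
  rw [vol, Measure.addHaar_closedBall volume x hr, finrank_euclideanSpace_fin, ENNReal.toReal_mul,
    ENNReal.toReal_ofReal (pow_nonneg hr n), kappa]

lemma vol_smul {c : ℝ} (hc : 0 ≤ c) (S : Set (E n)) : vol (c • S) = c ^ n * vol S := by
  rw [vol, Measure.addHaar_smul_of_nonneg volume hc, finrank_euclideanSpace_fin,
    ENNReal.toReal_mul, ENNReal.toReal_ofReal (pow_nonneg hc n), vol]

/-- Brunn-Minkowski in Euclidean space. -/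
lemma bm_euclid (hn : n ≠ 0) {A B C : Set (E n)} (hA : IsCompact A) (hB : IsCompact B)
    (hC : IsCompact C) (hAc : Convex ℝ A) (hBc : Convex ℝ B) (hA0 : 0 < vol A) (hB0 : 0 < vol B)
    {l μ : ℝ} (hl : 0 ≤ l) (hμ : 0 ≤ μ) (hlμ : l + μ = 1)
    (hsub : ∀ z ∈ A, ∀ w ∈ B, l • z + μ • w ∈ C) :
    (l * vol A ^ ((n : ℝ)⁻¹) + μ * vol B ^ ((n : ℝ)⁻¹)) ^ n ≤ vol C := by
  have hp : ∀ {S : Set (E n)}, IsCompact S →
      IsCompact (WithLp.toLp 2 ⁻¹' S : Set (Fin n → ℝ)) ∧
        (volume (WithLp.toLp 2 ⁻¹' S : Set (Fin n → ℝ))).toReal = vol S := fun {S} hS =>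
    ⟨(PiLp.homeomorph 2 _).symm.isCompact_preimage.2 hS, by
      rw [(PiLp.volume_preserving_toLp _).measure_preimage
        hS.measurableSet.nullMeasurableSet, vol]⟩
  have hlin : ∀ {S : Set (E n)}, Convex ℝ S →
      Convex ℝ (WithLp.toLp 2 ⁻¹' S : Set (Fin n → ℝ)) := fun {S} hS =>
    hS.linear_preimage (WithLp.linearEquiv 2 ℝ (Fin n → ℝ)).symm.toLinearMap
  have h := bm_root hn (hp hA).1 (hp hB).1 (hp hC).1 (hlin hAc) (hlin hBc)
    (by rw [(hp hA).2]; exact hA0) (by rw [(hp hB).2]; exact hB0) hl hμ hlμ fun z hz w hw => by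
      simpa using hsub _ hz _ hw
  rwa [(hp hA).2, (hp hB).2, (hp hC).2] at h

/-- Bernoulli, in the form used for roots of volumes. -/
lemma pow_tangent (n : ℕ) {a x : ℝ} (ha : 0 ≤ a) (hx : 0 ≤ x) :
    a ^ n + n * a ^ (n - 1) * x ≤ (a + x) ^ n := by
  induction n with
  | zero => simp
  | succ j ih =>
    rcases j.eq_zero_or_pos with rfl | hj
    · simp
    have h := mul_le_mul_of_nonneg_right ih (add_nonneg ha hx)
    have hj1 : a ^ j = a ^ (j - 1) * a := by rw [← pow_succ, Nat.sub_add_cancel hj]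
    have h' : 0 ≤ (j : ℝ) * a ^ (j - 1) * x * x := by positivity
    rw [← pow_succ] at h
    push_cast
    rw [pow_succ a j]
    linarith [show (a ^ j + j * a ^ (j - 1) * x) * (a + x) =
      a ^ j * a + (j + 1 : ℝ) * a ^ j * x + j * a ^ (j - 1) * x * x by rw [hj1]; ring]

/-- The quadratic term as well. -/
lemma pow_quad (n : ℕ) (hn : 2 ≤ n) {a x : ℝ} (ha : 0 ≤ a) (hx : 0 ≤ x) :
    a ^ n + n * a ^ (n - 1) * x + a ^ (n - 2) * x ^ 2 ≤ (a + x) ^ n := by
  obtain ⟨j, rfl⟩ : ∃ j, n = j + 2 := ⟨n - 2, by omega⟩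
  have h := mul_le_mul_of_nonneg_right (pow_tangent (j + 1) ha hx) (add_nonneg ha hx)
  have h' : 0 ≤ (j : ℝ) * a ^ j * x * x := by positivity
  rw [← pow_succ] at h
  simp only [Nat.add_sub_cancel, show j + 2 - 1 = j + 1 from rfl] at h ⊢
  push_cast at h ⊢
  have e1 : a ^ (j + 2) = a ^ (j + 1) * a := pow_succ _ _
  have e2 : a ^ (j + 1) = a ^ j * a := pow_succ _ _
  rw [e2] at e1
  simp only [show j + 1 + 1 = j + 2 from rfl] at h
  rw [e2] at h ⊢
  rw [e1]
  nlinarith

/-- The root of the volume of the enlargement of `S` by a ball. -/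
def grow (S : Set (E n)) (t : ℝ) : ℝ := vol (S + closedBall 0 t) ^ ((n : ℝ)⁻¹)

variable {S : Set (E n)}

lemma isCompact_add_ball (hS : IsCompact S) (t : ℝ) : IsCompact (S + closedBall (0 : E n) t) :=
  hS.add (isCompact_closedBall _ _)

lemma vol_add_ball_pos (hS : IsCompact S) (hi : (interior S).Nonempty) {t : ℝ} (ht : 0 ≤ t) :
    0 < vol (S + closedBall (0 : E n) t) :=
  ENNReal.toReal_pos ((isOpen_interior.measure_pos volume hi).trans_le (measure_mono
      (interior_subset.trans (subset_add_left _ (mem_closedBall_self ht))))).ne'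
    (isCompact_add_ball hS t).measure_lt_top.ne

lemma grow_zero : grow S 0 = vol S ^ ((n : ℝ)⁻¹) := by
  simp [grow, closedBall_zero]

lemma grow_ge (hn : n ≠ 0) (hS : IsCompact S) (hc : Convex ℝ S) (hi : (interior S).Nonempty)
    {t : ℝ} (ht : 0 ≤ t) : grow S 0 + t * kappa n ^ ((n : ℝ)⁻¹) ≤ grow S t := by
  rw [grow_zero]
  have hv : 0 < vol S := by simpa [closedBall_zero] using vol_add_ball_pos hS hi le_rfl
  have hb : vol (closedBall (0 : E n) 1) = kappa n := by simp [vol_closedBall]
  have h1t : 0 < 1 + t := by linarith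
  have h := bm_euclid hn hS (isCompact_closedBall (0 : E n) 1)
    ((isCompact_add_ball hS t).smul (1 + t)⁻¹) hc (convex_closedBall _ _) hv
    (hb ▸ kappa_pos' n) (l := (1 + t)⁻¹) (μ := (1 + t)⁻¹ * t) (by positivity) (by positivity)
    (by field_simp) fun z hz w hw => ⟨z + t • w, add_mem_add hz (by
      rw [mem_closedBall_zero_iff] at hw ⊢
      rw [norm_smul, Real.norm_of_nonneg ht]
      exact mul_le_of_le_one_right ht hw), by simp [smul_add, smul_smul]⟩
  rw [vol_smul (by positivity), hb, mul_assoc, ← mul_add, mul_pow,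
    mul_le_mul_iff_right₀ (by positivity)] at h
  have h0 : 0 ≤ vol S ^ ((n : ℝ)⁻¹) + t * kappa n ^ ((n : ℝ)⁻¹) := by
    have := kappa_pos' n; positivity
  have h' := Real.rpow_le_rpow (pow_nonneg h0 n) h (by positivity : (0 : ℝ) ≤ (n : ℝ)⁻¹)
  rwa [Real.pow_rpow_inv_natCast h0 hn] at h'

lemma grow_slope (hn : n ≠ 0) (hS : IsCompact S) (hc : Convex ℝ S) (hi : (interior S).Nonempty)
    {s t : ℝ} (hs : 0 < s) (hst : s ≤ t) :
    (grow S t - grow S 0) * s ≤ (grow S s - grow S 0) * t := by
  have ht : 0 < t := hs.trans_le hst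
  have h1 : s / t ≤ 1 := (div_le_one ht).2 hst
  have hv : 0 < vol S := by simpa [closedBall_zero] using vol_add_ball_pos hS hi le_rfl
  have h := bm_euclid hn hS (isCompact_add_ball hS t) (isCompact_add_ball hS s) hc
    (hc.add (convex_closedBall _ _)) hv (vol_add_ball_pos hS hi ht.le) (l := 1 - s / t)
    (μ := s / t) (by linarith) (by positivity) (by ring) fun z hz w hw => by
      obtain ⟨p, hp, q, hq, rfl⟩ := hw
      refine ⟨(1 - s / t) • z + (s / t) • p, hc hz hp (by linarith) (by positivity) (by ring),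
        (s / t) • q, ?_, by simp only [smul_add]; abel⟩
      rw [mem_closedBall_zero_iff] at hq ⊢
      rw [norm_smul, Real.norm_of_nonneg (by positivity)]
      calc s / t * ‖q‖ ≤ s / t * t := mul_le_mul_of_nonneg_left hq (by positivity)
        _ = s := by field_simp
  have hnn : 0 ≤ (1 - s / t) * vol S ^ ((n : ℝ)⁻¹) +
      s / t * vol (S + closedBall 0 t) ^ ((n : ℝ)⁻¹) := by
    have := vol_add_ball_pos hS hi ht.le
    have : 0 ≤ 1 - s / t := by linarith
    positivity
  have h' := Real.rpow_le_rpow (pow_nonneg hnn n) h (by positivity : (0 : ℝ) ≤ (n : ℝ)⁻¹)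
  rw [Real.pow_rpow_inv_natCast hnn hn] at h'
  rw [grow_zero]
  unfold grow
  have := mul_le_mul_of_nonneg_left h' ht.le
  rw [mul_add, ← mul_assoc, ← mul_assoc, mul_one_sub, mul_div_cancel₀ _ ht.ne'] at this
  linarith

/-- A body with a linear growth rate of the root volume at one scale has it at larger scales. -/
lemma grow_le_of_secant (hn : 2 ≤ n) (hS : IsCompact S) (hc : Convex ℝ S)
    (hi : (interior S).Nonempty) {ε t : ℝ} (ht : 0 < t)
    (h : vol (S + closedBall (0 : E n) t) < vol S + t * ((1 + ε) * ballSurface S)) {s : ℝ}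
    (hs : (n : ℝ) * ε * grow S 0 / kappa n ^ ((n : ℝ)⁻¹) ≤ s) :
    grow S s ≤ grow S 0 + s * ((1 + ε) * kappa n ^ ((n : ℝ)⁻¹)) := by
  have hn0 : n ≠ 0 := by omega
  set b := kappa n ^ ((n : ℝ)⁻¹)
  set f := grow S 0
  have hv : 0 < vol S := by simpa [closedBall_zero] using vol_add_ball_pos hS hi le_rfl
  have hb : 0 < b := Real.rpow_pos_of_pos (kappa_pos' n) _
  have hf : 0 < f := by simp only [f, grow_zero]; exact Real.rpow_pos_of_pos hv _
  have hfn : f ^ n = vol S := by simp only [f, grow_zero]; exact Real.rpow_inv_natCast_pow hv.le hn0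
  have hbs : ballSurface S = n * (b * f ^ (n - 1)) := by
    have h0 : (b * f ^ (n - 1)) ^ n = kappa n * vol S ^ (n - 1) := by
      rw [mul_pow, ← pow_mul, mul_comm (n - 1), pow_mul, hfn,
        Real.rpow_inv_natCast_pow (kappa_pos' n).le hn0]
    rw [ballSurface, ← h0, Real.pow_rpow_inv_natCast (by positivity) hn0]
  set g := grow S t
  have hgn : g ^ n = vol (S + closedBall (0 : E n) t) :=
    Real.rpow_inv_natCast_pow (vol_add_ball_pos hS hi ht.le).le hn0
  have hge : f + t * b ≤ g := grow_ge hn0 hS hc hi ht.le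
  rw [← hgn, ← hfn, hbs] at h
  have htlt : t ≤ n * ε * f / b := by
    have hq := (pow_quad n hn hf.le (mul_nonneg ht.le hb.le)).trans
      (pow_le_pow_left₀ (by positivity) hge n)
    have he : f ^ (n - 1) = f ^ (n - 2) * f := by
      rw [← pow_succ]; congr 1; omega
    rw [he] at h hq
    rw [le_div_iff₀ hb]
    have : f ^ (n - 2) * t * (t * b) * b < f ^ (n - 2) * t * (n * ε * f) * b := by nlinarith
    exact (lt_of_mul_lt_mul_left (lt_of_mul_lt_mul_right this hb.le) (by positivity)).le
  have hg1 : g - f < t * ((1 + ε) * b) := by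
    have hq := pow_tangent n hf.le (show 0 ≤ g - f by nlinarith)
    rw [add_sub_cancel] at hq
    have hpos : 0 < (n : ℝ) * f ^ (n - 1) := by positivity
    nlinarith
  have hsl := grow_slope hn0 hS hc hi ht (htlt.trans hs)
  have hs0 : 0 < s := ht.trans_le (htlt.trans hs)
  nlinarith [mul_lt_mul_of_pos_right hg1 hs0]

/-- Positions keeping an enlargement bounded in volume are bounded. -/
lemma bounded_positions {K : Set (E n)} (hK : IsCompact K) {x₀ : E n} {r : ℝ} (hr : 0 < r)
    (hball : closedBall x₀ r ⊆ K) {s V : ℝ} (hs : 0 < s) :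
    ∃ C : ℝ, ∀ T : E n →L[ℝ] E n, vol (T '' K + closedBall (0 : E n) s) ≤ V → ‖T‖ ≤ C := by
  classical
  obtain ⟨N, hN⟩ := exists_nat_gt (V / (s ^ n * kappa n))
  have hk := kappa_pos' n
  rw [div_lt_iff₀ (by positivity)] at hN
  refine ⟨3 * s * (N + 1) / r, fun T hT => ContinuousLinearMap.opNorm_le_bound _ (by positivity)
    fun v => ?_⟩
  by_contra hcon
  push Not at hcon
  have hv : v ≠ 0 := fun h => by simp [h] at hcon
  have hv0 : 0 < ‖v‖ := norm_pos_iff.2 hv
  set w := (r / ‖v‖) • v with hw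
  have hTw : 3 * s * (N + 1) < ‖T w‖ := by
    rw [hw, map_smul, norm_smul, Real.norm_of_nonneg (by positivity), div_mul_eq_mul_div,
      lt_div_iff₀ hv0]
    rw [div_mul_eq_mul_div, div_lt_iff₀ hr] at hcon
    linarith
  set p : Fin (N + 1) → E n := fun i => T (x₀ + ((i : ℕ) / (N + 1) : ℝ) • w) with hp
  have hpK : ∀ i, closedBall (p i) s ⊆ T '' K + closedBall (0 : E n) s := by
    intro i y hy
    refine ⟨p i, ⟨_, hball ?_, rfl⟩, y - p i, ?_, by abel⟩
    · rw [mem_closedBall, dist_eq_norm, add_sub_cancel_left, norm_smul, hw, norm_smul,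
        Real.norm_of_nonneg (by positivity), Real.norm_of_nonneg (by positivity),
        div_mul_cancel₀ r hv0.ne']
      refine mul_le_of_le_one_left hr.le ((div_le_one (by positivity)).2 ?_)
      exact_mod_cast i.2.le
    · rw [mem_closedBall_zero_iff, ← dist_eq_norm]; exact hy
  have hd : Pairwise (Function.onFun Disjoint fun i => closedBall (p i) s) := by
    intro i j hij
    refine closedBall_disjoint_closedBall ?_
    have he : p i - p j = ((((i : ℕ) : ℝ) - (j : ℕ)) / (N + 1)) • T w := by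
      simp only [hp, map_add, map_smul, sub_div, sub_smul]; abel_nf
    have h1 : (1 : ℝ) ≤ |((i : ℕ) : ℝ) - (j : ℕ)| := by
      have h : (1 : ℤ) ≤ |((i : ℕ) : ℤ) - (j : ℕ)| :=
        Int.one_le_abs (sub_ne_zero.2 (by exact_mod_cast Fin.val_ne_iff.2 hij))
      exact_mod_cast h
    rw [dist_eq_norm, he, norm_smul, Real.norm_eq_abs, abs_div,
      abs_of_pos (show (0 : ℝ) < N + 1 by positivity), div_mul_eq_mul_div,
      lt_div_iff₀ (by positivity)]
    nlinarith [norm_nonneg (T w), mul_pos hs (show (0 : ℝ) < N + 1 by positivity)]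
  have hsum : ((N : ℝ) + 1) * (s ^ n * kappa n) ≤ V := by
    refine le_trans ?_ hT
    have hfin : volume (T '' K + closedBall (0 : E n) s) ≠ ⊤ :=
      (isCompact_add_ball (hK.image T.continuous) s).measure_lt_top.ne
    have h := ENNReal.toReal_mono hfin (measure_mono (iUnion_subset hpK))
    rw [measure_iUnion hd fun i => measurableSet_closedBall, tsum_fintype,
      ENNReal.toReal_sum fun i _ => measure_closedBall_lt_top.ne] at h
    simp only [← vol.eq_def, vol_closedBall _ hs.le, Finset.sum_const, Finset.card_univ,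
      Fintype.card_fin, nsmul_eq_mul] at h
    exact_mod_cast h
  linarith [mul_pos (pow_pos hs n) hk]

/-- Some position attains the isoperimetric bound. -/
lemma exists_extremal_position (hn : 2 ≤ n) {K : Set (E n)} (hK : IsCompact K) (hc : Convex ℝ K)
    (hi : (interior K).Nonempty) (h : ∀ ε : ℝ, 0 < ε → ¬ FarFromEllipsoids ε K) :
    ∃ T : E n ≃ₗ[ℝ] E n, |LinearMap.det (T : E n →ₗ[ℝ] E n)| = 1 ∧ ∀ s, 0 < s →
      grow (T '' K) s ≤ grow K 0 + s * kappa n ^ ((n : ℝ)⁻¹) := by
  classical
  set b := kappa n ^ ((n : ℝ)⁻¹)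
  set f := grow K 0
  have hb : 0 < b := Real.rpow_pos_of_pos (kappa_pos' n) _
  have hv : 0 < vol K := by simpa [closedBall_zero] using vol_add_ball_pos hK hi le_rfl
  have hf : 0 < f := by simp only [f, grow_zero]; exact Real.rpow_pos_of_pos hv _
  have himg : ∀ T : E n →ₗ[ℝ] E n, |LinearMap.det T| = 1 →
      vol (T '' K) = vol K ∧ (interior (T '' K)).Nonempty := by
    intro T hT
    have hvol : vol (T '' K) = vol K := by
      rw [vol, Measure.addHaar_image_linearMap, hT, ENNReal.ofReal_one, one_mul, vol]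
    refine ⟨hvol, ?_⟩
    have hd : LinearMap.det T ≠ 0 := fun h0 => by simp [h0] at hT
    have ho : IsOpenMap T :=
      T.isOpenMap_of_finiteDimensional
        ((Module.End.isUnit_iff T).1 ((LinearMap.isUnit_iff_isUnit_det T).2 hd.isUnit)).2
    exact (hi.image T).mono (ho.image_interior_subset K)
  have hex : ∀ j : ℕ, ∃ T : E n →L[ℝ] E n, |LinearMap.det (T : E n →ₗ[ℝ] E n)| = 1 ∧
      ∀ s : ℝ, (n : ℝ) * (1 / (j + 1 : ℝ)) * f / b ≤ s →
        grow (T '' K) s ≤ f + s * ((1 + 1 / (j + 1 : ℝ)) * b) := by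
    intro j
    have hnf := h (1 / (j + 1 : ℝ)) (by positivity)
    simp only [FarFromEllipsoids, not_forall, not_le] at hnf
    obtain ⟨T, hT, t, ht, hlt⟩ := hnf
    refine ⟨LinearMap.toContinuousLinearMap T, by simpa using hT, fun s hs => ?_⟩
    obtain ⟨hvol, hTi⟩ := himg T hT
    have hbs : ballSurface (T '' K) = ballSurface K := by rw [ballSurface, ballSurface, hvol]
    have hg : grow (T '' K) 0 = f := by simp only [f, grow_zero, hvol]
    have hres := grow_le_of_secant hn (hK.image (T.continuous_of_finiteDimensional))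
      (hc.linear_image T) hTi (ε := 1 / (j + 1 : ℝ)) ht
      (by rw [hvol, hbs]; exact hlt) (s := s) (by rw [hg]; exact hs)
    rw [hg] at hres
    exact hres
  choose T hT hTs using hex
  obtain ⟨x₀, hx₀⟩ := hi
  obtain ⟨r, hr, hball⟩ := nhds_basis_closedBall.mem_iff.1 (mem_interior_iff_mem_nhds.1 hx₀)
  set s₁ := (n : ℝ) * f / b with hs₁
  have hs₁0 : 0 < s₁ := by positivity
  obtain ⟨C, hC⟩ := bounded_positions hK hr hball (V := (f + s₁ * (2 * b)) ^ n) hs₁0
  have hj1 : ∀ j : ℕ, 1 / (j + 1 : ℝ) ≤ 1 := fun j => by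
    rw [div_le_one (by positivity)]; linarith [(Nat.cast_nonneg j : (0 : ℝ) ≤ j)]
  have hbd : ∀ j, T j ∈ closedBall (0 : E n →L[ℝ] E n) C := by
    intro j
    rw [mem_closedBall_zero_iff]
    refine hC _ ?_
    have hle := hTs j s₁ (by
      rw [hs₁]
      gcongr
      exact mul_le_of_le_one_right (Nat.cast_nonneg n) (hj1 j))
    have hnn : 0 ≤ vol (T j '' K + closedBall (0 : E n) s₁) := ENNReal.toReal_nonneg
    calc vol (T j '' K + closedBall (0 : E n) s₁) = grow (T j '' K) s₁ ^ n :=
          (Real.rpow_inv_natCast_pow hnn (by omega)).symm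
      _ ≤ _ := by
          refine pow_le_pow_left₀ (Real.rpow_nonneg hnn _) (hle.trans ?_) n
          have := hj1 j
          gcongr
          linarith
  obtain ⟨T₀, -, φ, hφ, hlim⟩ := tendsto_subseq_of_bounded isBounded_closedBall hbd
  have hdet : |LinearMap.det (T₀ : E n →ₗ[ℝ] E n)| = 1 := by
    refine tendsto_nhds_unique ((ContinuousLinearMap.continuous_det.abs.tendsto T₀).comp hlim) ?_
    exact tendsto_const_nhds.congr fun j => (hT (φ j)).symm
  have hd : LinearMap.det (T₀ : E n →ₗ[ℝ] E n) ≠ 0 := fun h0 => by simp [h0] at hdet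
  refine ⟨LinearEquiv.ofBijective (T₀ : E n →ₗ[ℝ] E n) ((Module.End.isUnit_iff _).1
    ((LinearMap.isUnit_iff_isUnit_det _).2 hd.isUnit)), hdet, ?_⟩
  intro s hs
  change grow (T₀ '' K) s ≤ _
  obtain ⟨R, hR, hKR⟩ := hK.isBounded.subset_closedBall_lt 0 (0 : E n)
  refine le_of_forall_pos_le_add fun η hη => ?_
  set η' := η / (2 * b) with hη'
  have hη0 : 0 < η' := by positivity
  have e1 : ∀ᶠ j in atTop, ‖T (φ j) - T₀‖ * R ≤ η' := by
    have : Tendsto (fun j => ‖T (φ j) - T₀‖ * R) atTop (𝓝 0) := by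
      simpa using ((tendsto_iff_norm_sub_tendsto_zero.1 hlim).mul_const R)
    exact this.eventually (eventually_le_nhds hη0)
  have e0 : Tendsto (fun j => 1 / ((φ j : ℕ) + 1 : ℝ)) atTop (𝓝 0) :=
    tendsto_one_div_add_atTop_nhds_zero_nat.comp hφ.tendsto_atTop
  have e2 : ∀ᶠ j in atTop, (n : ℝ) * (1 / ((φ j : ℕ) + 1 : ℝ)) * f / b ≤ s := by
    have := ((e0.const_mul (n : ℝ)).mul_const f).div_const b
    simp only [mul_zero, zero_mul, zero_div] at this
    exact this.eventually (eventually_le_nhds hs)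
  have e3 : ∀ᶠ j in atTop, (s + η') * (1 / ((φ j : ℕ) + 1 : ℝ)) * b ≤ η / 2 := by
    have := (e0.const_mul (s + η')).mul_const b
    simp only [mul_zero, zero_mul] at this
    exact this.eventually (eventually_le_nhds (half_pos hη))
  obtain ⟨j, h1, h2, h3⟩ := (e1.and (e2.and e3)).exists
  have hsub : T₀ '' K + closedBall (0 : E n) s ⊆
      T (φ j) '' K + closedBall (0 : E n) (s + η') := by
    rintro _ ⟨_, ⟨x, hx, rfl⟩, z, hz, rfl⟩
    refine ⟨T (φ j) x, ⟨x, hx, rfl⟩, z + (T₀ - T (φ j)) x, ?_, by simp; abel_nf⟩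
    rw [mem_closedBall_zero_iff] at hz ⊢
    refine (norm_add_le _ _).trans (add_le_add hz ?_)
    refine ((T₀ - T (φ j)).le_opNorm x).trans (le_trans ?_ h1)
    rw [norm_sub_rev]
    exact mul_le_mul_of_nonneg_left (mem_closedBall_zero_iff.1 (hKR hx)) (norm_nonneg _)
  have hmono : grow (T₀ '' K) s ≤ grow (T (φ j) '' K) (s + η') :=
    Real.rpow_le_rpow ENNReal.toReal_nonneg (ENNReal.toReal_mono
      (isCompact_add_ball (hK.image (T (φ j)).continuous) _).measure_lt_top.ne
      (measure_mono hsub)) (by positivity)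
  refine (hmono.trans (hTs (φ j) (s + η') (h2.trans (by linarith)))).trans ?_
  have : η' * b = η / 2 := by rw [hη']; field_simp
  nlinarith

/-- The coordinates in an orthonormal basis starting with a given unit vector. -/
lemma exists_coord {m : ℕ} {e : E (m + 1)} (he : ‖e‖ = 1) :
    ∃ ψ : E (m + 1) ≃L[ℝ] (Fin (m + 1) → ℝ), (∀ x, ψ x 0 = ⟪e, x⟫) ∧
      ∀ S : Set (E (m + 1)), volume (ψ '' S) = volume S := by
  set v : Fin (m + 1) → E (m + 1) := fun _ => e
  have hv : Orthonormal ℝ (({0} : Set (Fin (m + 1))).domRestrict v) := by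
    rw [orthonormal_iff_ite]
    intro i j
    rw [if_pos (Subsingleton.elim i j)]
    simp [v, Set.domRestrict, he]
  obtain ⟨b, hb⟩ := hv.exists_orthonormalBasis_extension_of_card_eq (by simp)
  refine ⟨b.repr.toContinuousLinearEquiv.trans (PiLp.continuousLinearEquiv 2 ℝ _),
    fun x => ?_, fun S => ?_⟩
  · change b.repr x 0 = _
    rw [OrthonormalBasis.repr_apply_apply, hb 0 rfl]
  · have hmp : MeasurePreserving (fun x => WithLp.ofLp (b.repr x)) volume volume :=
      (PiLp.volume_preserving_ofLp _).comp b.repr.measurePreserving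
    have hme : MeasurableEmbedding (fun x => WithLp.ofLp (b.repr x)) :=
      ((PiLp.homeomorph 2 _).measurableEmbedding).comp
        b.repr.toHomeomorph.measurableEmbedding
    have hinj : Function.Injective (fun x => WithLp.ofLp (b.repr x)) := hme.injective
    have := hmp.measure_preimage_emb hme ((fun x => WithLp.ofLp (b.repr x)) '' S)
    rw [preimage_image_eq _ hinj] at this
    exact this.symm

/-- A body whose average with the ball of equal volume has no more volume is a translate of it. -/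
lemma eq_ball_of_mid {m : ℕ} (hm : m ≠ 0) {L : Set (E (m + 1))} (hL : IsCompact L)
    (hc : Convex ℝ L) (hi : (interior L).Nonempty) (hv : vol L = kappa (m + 1))
    (hmid : vol ((1 / 2 : ℝ) • (L + closedBall (0 : E (m + 1)) 1)) ≤ kappa (m + 1)) :
    ∃ g, L = closedBall g 1 := by
  set κ := kappa (m + 1) with hκ
  have hk : 0 < κ := kappa_pos' _
  set B := closedBall (0 : E (m + 1)) 1
  set M := (1 / 2 : ℝ) • (L + B)
  have hBv : vol B = κ := by simp [B, vol_closedBall, hκ]
  have hMc : IsCompact M := (isCompact_add_ball hL 1).smul _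
  have hMv : vol M = κ := by
    refine le_antisymm hmid ?_
    have h := bm_euclid (Nat.succ_ne_zero m) hL (isCompact_closedBall 0 1) hMc hc
      (convex_closedBall _ _) (hv ▸ hk) (hBv ▸ hk) (l := 1 / 2) (μ := 1 / 2) (by norm_num)
      (by norm_num) (by norm_num) fun z hz w hw =>
        ⟨z + w, add_mem_add hz hw, smul_add _ _ _⟩
    rwa [hv, hBv, ← add_mul, show (1 / 2 : ℝ) + 1 / 2 = 1 by norm_num, one_mul,
      Real.rpow_inv_natCast_pow hk.le (Nat.succ_ne_zero m)] at h
  have hMi : (interior M).Nonempty := by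
    have : vol L ≤ vol (L + B) := ENNReal.toReal_mono (isCompact_add_ball hL 1).measure_lt_top.ne
      (measure_mono (subset_add_left _ (mem_closedBall_self zero_le_one)))
    rw [interior_smul₀ (by norm_num)]
    exact (hi.mono (interior_mono (subset_add_left _ (mem_closedBall_self zero_le_one)))).smul_set
  have law : ∀ e : E (m + 1), ‖e‖ = 1 → ∃ c : ℝ, ∀ s : ℝ,
      volume (L ∩ {x | ⟪e, x⟫ ≤ s + c}) = volume (B ∩ {x | ⟪e, x⟫ ≤ s}) := by
    intro e he
    obtain ⟨ψ, hψ0, hψv⟩ := exists_coord he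
    have hbody : ∀ {S : Set (E (m + 1))}, IsCompact S → Convex ℝ S → (interior S).Nonempty →
        Body (ψ '' S) := fun {S} hS hSc hSi =>
      ⟨hS.image ψ.continuous, hSc.linear_image ψ.toLinearEquiv.toLinearMap,
        (hSi.image ψ).mono (ψ.toHomeomorph.isOpenMap.image_interior_subset S)⟩
    have hBi : (interior B).Nonempty := ⟨0, by simp [B, interior_closedBall]⟩
    obtain ⟨c, hc'⟩ := below_translate hm (hbody hL hc hi)
      (hbody (isCompact_closedBall 0 1) (convex_closedBall _ _) hBi)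
      (hbody hMc ((hc.add (convex_closedBall _ _)).smul _) hMi)
      (by rw [hψv, hψv]; exact hv.trans hMv.symm) (by rw [hψv, hψv]; exact hBv.trans hMv.symm)
      (by
        rintro _ ⟨x, hx, rfl⟩ _ ⟨y, hy, rfl⟩
        exact ⟨(1 / 2 : ℝ) • (x + y), ⟨_, add_mem_add hx hy, rfl⟩, by simp [smul_add]⟩)
    have hbl : ∀ (S : Set (E (m + 1))) (s : ℝ),
        below (ψ '' S) s = (volume (S ∩ {x | ⟪e, x⟫ ≤ s})).toReal := by
      intro S s
      rw [below, ← hψv (S ∩ _)]
      congr 2
      ext y
      constructor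
      · rintro ⟨⟨x, hx, rfl⟩, hxs⟩
        exact ⟨x, ⟨hx, by simpa [hψ0] using hxs⟩, rfl⟩
      · rintro ⟨x, ⟨hx, hxs⟩, rfl⟩
        exact ⟨⟨x, hx, rfl⟩, by simpa [hψ0] using hxs⟩
    refine ⟨c, fun s => ?_⟩
    have h := hc' s
    rw [hbl, hbl] at h
    exact (ENNReal.toReal_eq_toReal_iff'
      ((measure_mono inter_subset_left).trans_lt hL.measure_lt_top).ne
      ((measure_mono inter_subset_left).trans_lt measure_closedBall_lt_top).ne).1 h
  set g := κ⁻¹ • ∫ x in L, x with hg
  refine ⟨g, ?_⟩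
  have hle : ∀ e : E (m + 1), ‖e‖ = 1 → ∀ x ∈ L, ⟪e, x⟫ ≤ ⟪e, g⟫ + 1 := by
    intro e he
    obtain ⟨c, hc'⟩ := law e he
    have : IsFiniteMeasure (volume.restrict L) :=
      ⟨by rw [Measure.restrict_apply_univ]; exact hL.measure_lt_top⟩
    have : IsFiniteMeasure (volume.restrict B) :=
      ⟨by rw [Measure.restrict_apply_univ]; exact measure_closedBall_lt_top⟩
    have hmeq : (volume.restrict L).map (fun x => ⟪e, x⟫) =
        (volume.restrict B).map (fun x => ⟪e, x⟫ + c) := by
      refine Measure.ext_of_Iic _ _ fun s => ?_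
      rw [Measure.map_apply (by fun_prop) measurableSet_Iic,
        Measure.map_apply (by fun_prop) measurableSet_Iic,
        Measure.restrict_apply ((by fun_prop : Measurable fun x : E (m + 1) => ⟪e, x⟫)
          measurableSet_Iic),
        Measure.restrict_apply ((by fun_prop : Measurable fun x : E (m + 1) => ⟪e, x⟫ + c)
          measurableSet_Iic), inter_comm, inter_comm _ B]
      convert hc' (s - c) using 3
      · ext x; simp
      · ext x; simp [le_sub_iff_add_le]
    have hint := congrArg (fun μ : Measure ℝ => ∫ t, t ∂μ) hmeq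
    rw [integral_map (by fun_prop) (by fun_prop), integral_map (by fun_prop) (by fun_prop)] at hint
    have hiB : IntegrableOn (fun x : E (m + 1) => ⟪e, x⟫) B :=
      (Continuous.continuousOn (by fun_prop)).integrableOn_compact (isCompact_closedBall 0 1)
    have hB0 : ∫ x in B, ⟪e, x⟫ = 0 := by
      have h1 := (Measure.measurePreserving_neg (volume : Measure (E (m + 1)))).setIntegral_preimage_emb
        (MeasurableEquiv.neg (E (m + 1))).measurableEmbedding (fun x => ⟪e, x⟫) B
      have h2 : (fun x : E (m + 1) => -x) ⁻¹' B = B := by ext x; simp [B]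
      rw [h2] at h1
      simp only [inner_neg_right, integral_neg] at h1
      linarith
    rw [integral_add hiB (integrable_const c), hB0, setIntegral_const, zero_add,
      integral_inner (continuous_id'.continuousOn.integrableOn_compact hL), smul_eq_mul,
      show volume.real B = κ from hBv] at hint
    have hce : ⟪e, g⟫ = c := by
      rw [hg, real_inner_smul_right, hint]
      field_simp
    have hnull : volume (L \ {x | ⟪e, x⟫ ≤ 1 + c}) = 0 := by
      have hB : B ∩ {x | ⟪e, x⟫ ≤ (1 : ℝ)} = B := inter_eq_left.2 fun x hx =>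
        (real_inner_le_norm e x).trans (by rw [he, one_mul]; exact mem_closedBall_zero_iff.1 hx)
      have h1 : volume (L ∩ {x | ⟪e, x⟫ ≤ 1 + c}) = volume L := by
        rw [hc' 1, hB]
        exact (ENNReal.toReal_eq_toReal_iff' measure_closedBall_lt_top.ne
          hL.measure_lt_top.ne).1 (hBv.trans hv.symm)
      have h2 := measure_inter_add_sdiff (μ := volume) L
        (measurableSet_le (by fun_prop) measurable_const : MeasurableSet {x | ⟪e, x⟫ ≤ 1 + c})
      rw [h1] at h2
      exact (ENNReal.add_right_inj hL.measure_lt_top.ne).1 (h2.trans (add_zero _).symm)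
    intro x hx
    rw [hce, add_comm c 1]
    by_contra hxc
    have ho : IsOpen {y | 1 + c < ⟪e, y⟫} := isOpen_lt continuous_const (by fun_prop)
    have hxcl : x ∈ closure (interior L) := by
      rw [hc.closure_interior_eq_closure_of_nonempty_interior hi]; exact subset_closure hx
    have hne : ({y | 1 + c < ⟪e, y⟫} ∩ interior L).Nonempty :=
      mem_closure_iff.1 hxcl _ ho (show 1 + c < ⟪e, x⟫ from not_le.1 hxc)
    exact ((ho.inter isOpen_interior).measure_pos volume hne).ne'
      (measure_mono_null (fun y hy => show y ∈ L \ {x | ⟪e, x⟫ ≤ 1 + c} from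
        ⟨interior_subset hy.2, fun h => absurd h (not_le.2 (mem_ofPred_eq ▸ hy.1))⟩) hnull)
  have hsub : L ⊆ closedBall g 1 := by
    intro x hx
    rw [mem_closedBall, dist_eq_norm]
    rcases eq_or_ne (x - g) 0 with h | h
    · rw [h, norm_zero]; exact zero_le_one
    · have h0 : 0 < ‖x - g‖ := norm_pos_iff.2 h
      have := hle (‖x - g‖⁻¹ • (x - g))
        (by rw [norm_smul, norm_inv, norm_norm, inv_mul_cancel₀ h0.ne']) x hx
      rw [← sub_le_iff_le_add', ← inner_sub_right, real_inner_smul_left,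
        real_inner_self_eq_norm_sq, sq, ← mul_assoc, inv_mul_cancel₀ h0.ne', one_mul] at this
      exact this
  refine hsub.antisymm ?_
  have hd : volume (closedBall g 1 \ L) = 0 := by
    rw [measure_sdiff hsub hL.measurableSet.nullMeasurableSet hL.measure_lt_top.ne,
      tsub_eq_zero_iff_le]
    refine ((ENNReal.toReal_eq_toReal_iff' measure_closedBall_lt_top.ne
      hL.measure_lt_top.ne).1 ?_).le
    change vol (closedBall g 1) = vol L
    rw [hv, vol_closedBall _ zero_le_one, one_pow, one_mul]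
  have ho : ball g 1 ⊆ L := by
    intro y hy
    by_contra hyL
    exact ((isOpen_ball.sdiff hL.isClosed).measure_pos volume ⟨y, hy, hyL⟩).ne'
      (measure_mono_null (sdiff_subset_sdiff ball_subset_closedBall le_rfl) hd)
  rw [← closure_ball g one_ne_zero]
  exact closure_minimal ho hL.isClosed

/-- Zero isoperimetric excess up to linear maps of determinant one forces an ellipsoid. -/
theorem ellipsoid_of_zero_excess (hn : 2 ≤ n) {K : Set (E n)} (hK : IsCompact K)
    (hc : Convex ℝ K) (hi : (interior K).Nonempty)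
    (h : ∀ ε : ℝ, 0 < ε → ¬ FarFromEllipsoids ε K) :
    ∃ (g : E n) (S : E n ≃ₗ[ℝ] E n), K = (fun x => g + S x) '' closedBall (0 : E n) 1 := by
  obtain ⟨T, hdet, hT⟩ := exists_extremal_position hn hK hc hi h
  obtain ⟨m, rfl⟩ : ∃ m, n = m + 1 := ⟨n - 1, by omega⟩
  set b := kappa (m + 1) ^ (((m + 1 : ℕ) : ℝ)⁻¹)
  set f := grow K 0
  have hb : 0 < b := Real.rpow_pos_of_pos (kappa_pos' _) _
  have hv : 0 < vol K := by simpa [closedBall_zero] using vol_add_ball_pos hK hi le_rfl
  have hf : 0 < f := by simp only [f, grow_zero]; exact Real.rpow_pos_of_pos hv _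
  have hfn : f ^ (m + 1) = vol K := by
    simp only [f, grow_zero]; exact Real.rpow_inv_natCast_pow hv.le (Nat.succ_ne_zero m)
  have hbn : b ^ (m + 1) = kappa (m + 1) :=
    Real.rpow_inv_natCast_pow (kappa_pos' _).le (Nat.succ_ne_zero m)
  have hTK : IsCompact (T '' K) := hK.image T.toLinearMap.continuous_of_finiteDimensional
  have hTv : vol (T '' K) = vol K := by
    rw [vol, show (T : E (m + 1) → E (m + 1)) '' K = (T : E (m + 1) →ₗ[ℝ] E (m + 1)) '' K from rfl,
      Measure.addHaar_image_linearMap, hdet, ENNReal.ofReal_one, one_mul, vol]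
  have hTi : (interior (T '' K)).Nonempty :=
    (hi.image T).mono (T.toContinuousLinearEquiv.toHomeomorph.isOpenMap.image_interior_subset K)
  set c := b / f with hcdef
  have hc0 : 0 < c := div_pos hb hf
  obtain ⟨g, hg⟩ := eq_ball_of_mid (by omega : m ≠ 0) (hTK.smul c)
    ((hc.linear_image T.toLinearMap).smul c)
    (by rw [interior_smul₀ hc0.ne']; exact hTi.smul_set)
    (by rw [vol_smul hc0.le, hTv, ← hfn, ← mul_pow, hcdef, div_mul_cancel₀ b hf.ne', hbn])
    (by
      have h1 := hT (c⁻¹) (inv_pos.2 hc0)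
      have hnn : 0 ≤ vol (T '' K + closedBall (0 : E (m + 1)) c⁻¹) := ENNReal.toReal_nonneg
      have h2 := pow_le_pow_left₀ (Real.rpow_nonneg hnn _) h1 (m + 1)
      rw [Real.rpow_inv_natCast_pow hnn (Nat.succ_ne_zero m)] at h2
      have hset : c • (T '' K) + closedBall (0 : E (m + 1)) 1 =
          c • (T '' K + closedBall (0 : E (m + 1)) c⁻¹) := by
        rw [smul_add, smul_closedBall' hc0.ne', smul_zero, Real.norm_of_nonneg hc0.le,
          mul_inv_cancel₀ hc0.ne']
      rw [hset, vol_smul (by norm_num), vol_smul hc0.le]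
      refine (mul_le_mul_of_nonneg_left (mul_le_mul_of_nonneg_left h2 (by positivity))
        (by positivity)).trans (le_of_eq ?_)
      rw [← mul_pow, ← mul_pow, ← hbn]
      congr 1
      rw [hcdef, inv_div]
      field_simp
      ring)
  refine ⟨T.symm (c⁻¹ • g), T.symm.trans (LinearEquiv.smulOfNeZero ℝ _ c⁻¹ (inv_ne_zero hc0.ne')),
    ?_⟩
  ext x
  have hx : x ∈ K ↔ c • T x ∈ closedBall g 1 := by
    rw [← hg, smul_mem_smul_set_iff₀ hc0.ne', T.injective.mem_set_image]
  rw [hx]
  constructor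
  · intro hx'
    refine ⟨c • T x - g, by simpa [mem_closedBall, dist_eq_norm] using hx', ?_⟩
    simp [smul_sub, smul_smul, inv_mul_cancel₀ hc0.ne']
  · rintro ⟨y, hy, rfl⟩
    simpa [mem_closedBall, dist_eq_norm, smul_add, smul_smul, mul_inv_cancel₀ hc0.ne'] using hy

end Vale.Agent.P237.Sharp
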