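import Vale.Agent.P237.Cylinder
import Vale.Agent.P237.Sharp.Equality

/-!
P237: ellipsoids attain Petty's bound.
-/

noncomputable section

open MeasureTheory Set Metric
open scoped RealInnerProductSpace Pointwise ENNReal

namespace Vale.Agent.P237.Sharp

variable {n : ℕ}

/-- The orthogonal projection of a unit ball is a unit ball of the hyperplane. -/
lemma projArea_closedBall (g : E n) {e : E n} (he : ‖e‖ = 1) :
    projArea (closedBall g 1) e = kappa (n - 1) := by
  set W : Submodule ℝ (E n) := (ℝ ∙ e)ᗮ with hW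
  have hn : 0 < n := by
    rcases n.eq_zero_or_pos with rfl | h
    · simp [Subsingleton.elim e 0] at he
    · exact h
  have hfr : Module.finrank ℝ W = n - 1 := by
    have h1 := (ℝ ∙ e).finrank_add_finrank_orthogonal
    rw [finrank_span_singleton (fun h : e = 0 => by simp [h] at he),
      finrank_euclideanSpace_fin, ← hW] at h1
    omega
  set b := (stdOrthonormalBasis ℝ W).reindex (finCongr hfr)
  have himg : W.orthogonalProjectionOnto '' closedBall g 1 =
      closedBall (W.orthogonalProjectionOnto g) 1 := by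
    refine Subset.antisymm ?_ fun y hy => ?_
    · rintro _ ⟨x, hx, rfl⟩
      rw [mem_closedBall, dist_eq_norm] at hx ⊢
      rw [← map_sub]
      exact ((W.norm_orthogonalProjectionOnto_apply_le _).trans hx)
    · refine ⟨g + ((y : E n) - W.starProjection g), ?_, ?_⟩
      · rw [mem_closedBall, dist_eq_norm, add_sub_cancel_left,
          ← Submodule.coe_orthogonalProjectionOnto_apply, ← Submodule.coe_sub, ← Submodule.coe_norm,
          ← dist_eq_norm]
        exact hy
      · rw [map_add, ← Submodule.coe_orthogonalProjectionOnto_apply, ← Submodule.coe_sub,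
          Submodule.orthogonalProjectionOnto_mem_subspace_eq_self]
        abel
  rw [projArea, himg, Measure.addHaar_closedBall volume _ zero_le_one, one_pow,
    ENNReal.ofReal_one, one_mul, kappa,
    ← b.repr.measurePreserving.measure_preimage measurableSet_ball.nullMeasurableSet,
    b.repr.preimage_ball, map_zero]

/-- The shadow cylinder of a linear image. -/
lemma vol_shadowCylinder_image {K : Set (E n)} (hK : IsCompact K) (S : E n ≃ₗ[ℝ] E n)
    {u : E n} (hu : ‖u‖ = 1) :
    vol (shadowCylinder (S '' K) u) = |LinearMap.det (S : E n →ₗ[ℝ] E n)| *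
      (‖S.symm u‖ * projArea K (‖S.symm u‖⁻¹ • S.symm u)) := by
  set a := LinearMap.adjoint (S : E n →ₗ[ℝ] E n) u with ha
  set d := S.symm u with hd
  have hd0 : d ≠ 0 := by
    intro h
    have : u = 0 := by simpa [hd] using congrArg S h
    simp [this] at hu
  set r := ‖d‖
  have hr : 0 < r := norm_pos_iff.2 hd0
  set e := r⁻¹ • d with he0
  have he : ‖e‖ = 1 := by
    rw [he0, norm_smul, norm_inv, Real.norm_of_nonneg hr.le, inv_mul_cancel₀ hr.ne']
  have hade : ⟪a, e⟫ = r⁻¹ := by
    rw [he0, real_inner_smul_right, ha, LinearMap.adjoint_inner_left, hd, LinearEquiv.coe_coe,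
      S.apply_symm_apply, real_inner_self_eq_norm_sq, hu]
    ring
  set C := {z : E n | ⟪a, z⟫ ∈ Icc (0 : ℝ) 1 ∧ ∃ s : ℝ, z + s • e ∈ K} with hC
  have hcyl : shadowCylinder (S '' K) u = (S : E n →ₗ[ℝ] E n) '' C := by
    ext x
    constructor
    · rintro ⟨h1, s, z, hz, hzs⟩
      refine ⟨S.symm x, ⟨?_, s * r, ?_⟩, S.apply_symm_apply x⟩
      · rwa [ha, LinearMap.adjoint_inner_left, LinearEquiv.coe_coe, S.apply_symm_apply]
      · rw [he0, smul_smul, mul_assoc, mul_inv_cancel₀ hr.ne', mul_one]
        have : z = S.symm x + s • d := by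
          rw [hd, ← map_smul, ← map_add, ← hzs, S.symm_apply_apply]
        rwa [← this]
    · rintro ⟨z, ⟨h1, s, hs⟩, rfl⟩
      refine ⟨?_, s * r⁻¹, z + s • e, hs, ?_⟩
      · rwa [ha, LinearMap.adjoint_inner_left] at h1
      · rw [he0, map_add, smul_smul, map_smul, hd, S.apply_symm_apply, LinearEquiv.coe_coe]
  rw [hcyl, vol, Measure.addHaar_image_linearMap, ENNReal.toReal_mul,
    ENNReal.toReal_ofReal (abs_nonneg _)]
  congr 1
  set W : Submodule ℝ (E n) := (ℝ ∙ e)ᗮ with hW
  let σ : ℝ ≃ₗᵢ[ℝ] (ℝ ∙ e) := LinearIsometryEquiv.toSpanUnitSingleton e he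
  let Φ : ℝ × W → E n := fun q =>
    (ℝ ∙ e).orthogonalDecomposition.symm (WithLp.toLp 2 (Prod.map σ id q))
  have hΦm : MeasurePreserving Φ volume volume :=
    ((ℝ ∙ e).orthogonalDecomposition.symm.measurePreserving).comp
      ((WithLp.volume_preserving_toLp (ℝ ∙ e) W).comp
        (σ.measurePreserving.prod (MeasurePreserving.id (volume : Measure W))))
  have hΦ : ∀ q : ℝ × W, Φ q = q.1 • e + (q.2 : E n) := fun q => by
    simp [Φ, σ, LinearIsometryEquiv.toSpanUnitSingleton_apply,
      Submodule.orthogonalDecomposition_symm_apply]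
  set P : Set W := W.orthogonalProjectionOnto '' K with hP
  have hPc : IsCompact P := hK.image (W.orthogonalProjectionOnto).continuous
  have he' : W.orthogonalProjectionOnto e = 0 :=
    Submodule.orthogonalProjectionOnto_apply_of_mem_orthogonal
      ((ℝ ∙ e).le_orthogonal_orthogonal (Submodule.mem_span_singleton_self e))
  have hpre : Φ ⁻¹' C = {q : ℝ × W | q.1 * r⁻¹ + ⟪a, (q.2 : E n)⟫ ∈ Icc (0 : ℝ) 1 ∧ q.2 ∈ P} := by
    ext ⟨t, y⟩
    simp only [mem_preimage, hC, hΦ, mem_ofPred_eq]
    rw [inner_add_right, real_inner_smul_right, hade]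
    refine and_congr_right fun _ => ⟨?_, ?_⟩
    · rintro ⟨s, hs⟩
      refine ⟨_, hs, ?_⟩
      rw [map_add, map_add, map_smul W.orthogonalProjectionOnto t e,
        map_smul W.orthogonalProjectionOnto s e, he',
        Submodule.orthogonalProjectionOnto_mem_subspace_eq_self]
      simp
    · rintro ⟨z, hz, rfl⟩
      refine ⟨⟪e, z⟫ - t, ?_⟩
      convert hz using 1
      have hdec := (ℝ ∙ e).starProjection_add_starProjection_orthogonal z
      rw [Submodule.starProjection_unit_singleton ℝ he] at hdec
      rw [Submodule.coe_orthogonalProjectionOnto_apply]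
      conv_rhs => rw [← hdec]
      rw [sub_smul]; abel
  have hCm : MeasurableSet C := by
    have : IsClosed {z : E n | ∃ s : ℝ, z + s • e ∈ K} := by
      have heq : {z : E n | ∃ s : ℝ, z + s • e ∈ K} = W.orthogonalProjectionOnto ⁻¹' P := by
        ext z
        constructor
        · rintro ⟨s, hs⟩
          exact ⟨_, hs, by rw [map_add, map_smul, he', smul_zero, add_zero]⟩
        · rintro ⟨w, hw, hwz⟩
          refine ⟨⟪e, w⟫ - ⟪e, z⟫, ?_⟩
          convert hw using 1
          have h1 := (ℝ ∙ e).starProjection_add_starProjection_orthogonal z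
          have h2 := (ℝ ∙ e).starProjection_add_starProjection_orthogonal w
          rw [Submodule.starProjection_unit_singleton ℝ he] at h1 h2
          have h3 : W.starProjection w = W.starProjection z := by
            simp only [← Submodule.coe_orthogonalProjectionOnto_apply, hwz]
          rw [h3] at h2
          conv_rhs => rw [← h2]
          conv_lhs => arg 1; rw [← h1]
          rw [sub_smul]; abel
      rw [heq]
      exact hPc.isClosed.preimage W.orthogonalProjectionOnto.continuous
    exact ((isClosed_Icc.preimage (by fun_prop : Continuous fun z : E n => ⟪a, z⟫)).inter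
      this).measurableSet
  rw [← hΦm.measure_preimage hCm.nullMeasurableSet, Measure.volume_eq_prod,
    Measure.prod_apply_symm (hΦm.measurable hCm)]
  have hfib : ∀ y : W, volume ((fun t => (t, y)) ⁻¹' (Φ ⁻¹' C)) =
      P.indicator (fun _ => ENNReal.ofReal r) y := by
    intro y
    rw [hpre]
    by_cases hy : y ∈ P
    · rw [indicator_of_mem hy]
      set c := ⟪a, (y : E n)⟫
      have : (fun t : ℝ => (t, y)) ⁻¹'
          {q : ℝ × W | q.1 * r⁻¹ + ⟪a, (q.2 : E n)⟫ ∈ Icc (0 : ℝ) 1 ∧ q.2 ∈ P} =
          Icc (-c * r) ((1 - c) * r) := by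
        ext t
        simp only [mem_preimage, mem_ofPred_eq, hy, and_true, mem_Icc, ← div_eq_mul_inv]
        constructor
        · rintro ⟨h1, h2⟩
          have h3 : (t / r) * r = t := div_mul_cancel₀ t hr.ne'
          constructor <;> nlinarith
        · rintro ⟨h1, h2⟩
          have h3 : (t / r) * r = t := div_mul_cancel₀ t hr.ne'
          constructor <;> nlinarith
      rw [this, Real.volume_Icc]
      congr 1
      ring
    · rw [indicator_of_notMem hy]
      convert measure_empty (μ := (volume : Measure ℝ))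
      ext t
      simp [hy]
  rw [lintegral_congr hfib, lintegral_indicator hPc.measurableSet, setLIntegral_const,
    ENNReal.toReal_mul, ENNReal.toReal_ofReal hr.le]
  rfl

lemma projectionBody_translate (K : Set (E n)) (g : E n) :
    projectionBody ((fun x => g + x) '' K) = projectionBody K := by
  have h : ∀ u : E n, ‖u‖ = 1 →
      vol (shadowCylinder ((fun x => g + x) '' K) u) = vol (shadowCylinder K u) := by
    intro u hu
    set g' := g - ⟪u, g⟫ • u
    have heq : shadowCylinder ((fun x => g + x) '' K) u = g' +ᵥ shadowCylinder K u := by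
      have hg' : ⟪u, g'⟫ = 0 := by
        simp [g', inner_sub_right, real_inner_smul_right, hu]
      ext x
      rw [mem_vadd_set]
      constructor
      · rintro ⟨h1, s, z, hz, hzs⟩
        refine ⟨x - g', ⟨by rwa [inner_sub_right, hg', sub_zero], s - ⟪u, g⟫, ?_⟩, by simp⟩
        convert hz using 1
        rw [eq_sub_of_add_eq' hzs, sub_smul]
        simp only [g']
        abel
      · rintro ⟨z, ⟨h1, s, hs⟩, rfl⟩
        refine ⟨by rwa [vadd_eq_add, inner_add_right, hg', zero_add], s + ⟪u, g⟫, z + s • u, hs, ?_⟩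
        simp only [g', vadd_eq_add, add_smul]
        abel
    rw [heq, vol, measure_vadd, vol]
  ext y
  simp only [projectionBody, mem_ofPred_eq]
  exact forall₂_congr fun u hu => by rw [h u hu]

/-- Ellipsoids attain Petty's bound. -/
theorem petty_eq_of_ellipsoid (hn : 1 ≤ n) (g : E n) (S : E n ≃ₗ[ℝ] E n) :
    vol (projectionBody ((fun x => g + S x) '' closedBall (0 : E n) 1)) =
      kappa (n - 1) ^ n * kappa n ^ ((2 : ℤ) - n) *
        vol ((fun x => g + S x) '' closedBall (0 : E n) 1) ^ (n - 1) := by
  set B := closedBall (0 : E n) 1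
  set S' : E n →ₗ[ℝ] E n := S.toLinearMap with hS'
  set T : E n →ₗ[ℝ] E n := LinearMap.adjoint S.symm.toLinearMap with hT
  set D := |LinearMap.det S'| with hD
  have hD0 : 0 < D := abs_pos.2 (LinearEquiv.isUnit_det' S).ne_zero
  set c := D * kappa (n - 1) with hc
  have hk1 : 0 < kappa (n - 1) := kappa_pos' _
  have hc0 : 0 < c := mul_pos hD0 hk1
  have himg : (fun x => g + S x) '' B = (fun x => g + x) '' (S '' B) := by
    rw [Set.image_image]
  have hvB : vol B = kappa n := by simp [B, vol_closedBall]
  have hvol : vol ((fun x => g + S x) '' B) = D * kappa n := by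
    rw [himg, show (fun x => g + x) '' (S '' B) = g +ᵥ (S' '' B) from rfl, vol, measure_vadd,
      Measure.addHaar_image_linearMap, ENNReal.toReal_mul, ENNReal.toReal_ofReal (abs_nonneg _),
      ← vol.eq_def, hvB]
  have hbody : projectionBody ((fun x => g + S x) '' B) = c • (T '' B) := by
    rw [himg, projectionBody_translate]
    ext y
    simp only [projectionBody, mem_ofPred_eq]
    have hval : ∀ u : E n, ‖u‖ = 1 → vol (shadowCylinder (S '' B) u) = c * ‖S.symm u‖ := by
      intro u hu
      have hne : S.symm u ≠ 0 := fun h => by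
        have : u = 0 := by simpa using congrArg S h
        simp [this] at hu
      rw [vol_shadowCylinder_image (isCompact_closedBall _ _) S hu, projArea_closedBall _ (by
        rw [norm_smul, norm_inv, norm_norm, inv_mul_cancel₀ (norm_ne_zero_iff.2 hne)]), hc, hD]
      ring
    constructor
    · intro h
      set w := c⁻¹ • LinearMap.adjoint S' y
      refine mem_smul_set.2 ⟨T w, ⟨w, mem_closedBall_zero_iff.2 ?_, rfl⟩, ?_⟩
      · rcases eq_or_ne w 0 with hw | hw
        · rw [hw, norm_zero]; exact zero_le_one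
        set v := S w
        have hv : 0 < ‖v‖ := norm_pos_iff.2 (by simpa [v] using hw)
        have hu : ‖‖v‖⁻¹ • v‖ = 1 := by rw [norm_smul, norm_inv, norm_norm, inv_mul_cancel₀ hv.ne']
        have h1 := (h _ hu).trans_eq (hval _ hu)
        rw [map_smul, norm_smul, norm_inv, norm_norm, real_inner_smul_right,
          mul_left_comm, mul_le_mul_iff_right₀ (inv_pos.2 hv)] at h1
        simp only [v, LinearEquiv.symm_apply_apply] at h1
        have h2 : ⟪y, S w⟫ = c * ⟪w, w⟫ := by
          rw [← real_inner_smul_left, show c • w = LinearMap.adjoint S' y from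
            smul_inv_smul₀ hc0.ne' _]
          exact (LinearMap.adjoint_inner_left S' w y).symm
        rw [h2, real_inner_self_eq_norm_sq, mul_le_mul_iff_right₀ hc0, sq] at h1
        exact le_of_mul_le_mul_right (h1.trans_eq (one_mul _).symm) (norm_pos_iff.2 hw)
      · refine ext_inner_right ℝ fun z => ?_
        simp only [w, hT, map_smul, real_inner_smul_left, ← mul_assoc, mul_inv_cancel₀ hc0.ne',
          one_mul, LinearMap.adjoint_inner_left, hS', LinearEquiv.coe_coe, S.apply_symm_apply]
    · rintro hy u hu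
      obtain ⟨_, ⟨w, hw, rfl⟩, rfl⟩ := mem_smul_set.1 hy
      rw [hval u hu, real_inner_smul_left, hT, LinearMap.adjoint_inner_left, LinearEquiv.coe_coe]
      refine mul_le_mul_of_nonneg_left ((real_inner_le_norm _ _).trans ?_) hc0.le
      exact mul_le_of_le_one_left (norm_nonneg _) (mem_closedBall_zero_iff.1 hw)
  have hTdet : |LinearMap.det T| = D⁻¹ := by
    set b := EuclideanSpace.basisFun (Fin n) ℝ
    rw [hT, ← LinearMap.det_toMatrix b.toBasis, LinearMap.toMatrix_adjoint b b,
      Matrix.det_conjTranspose, LinearMap.det_toMatrix, star_trivial, hD, hS',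
      LinearEquiv.det_coe_symm, abs_inv]
  rw [hbody, hvol, vol_smul hc0.le, vol, Measure.addHaar_image_linearMap, hTdet,
    ENNReal.toReal_mul, ENNReal.toReal_ofReal (inv_nonneg.2 hD0.le), ← vol.eq_def, hvB, hc]
  obtain ⟨m, rfl⟩ : ∃ m, n = m + 1 := ⟨n - 1, by omega⟩
  have hk := (kappa_pos' (m + 1)).ne'
  rw [show (2 : ℤ) - ((m + 1 : ℕ) : ℤ) = 1 - (m : ℤ) by push_cast; ring, zpow_sub₀ hk, zpow_one,
    zpow_natCast, Nat.add_sub_cancel, mul_pow, mul_pow, pow_succ D]
  field_simp

/-- With an exponential margin off zero excess, equality characterises ellipsoids. -/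
theorem equality_iff_ellipsoid (hn : 2 ≤ n) {γ : ℝ} (hγ : 0 < γ) {K : Set (E n)} (hK : IsCompact K)
    (hc : Convex ℝ K) (hi : (interior K).Nonempty)
    (hstab : ∀ ε : ℝ, 0 < ε → ε ≤ 1 → Asymp.FarFromEllipsoids ε K →
      Real.exp (γ * ε * n) * (kappa (n - 1) ^ n * kappa n ^ ((2 : ℤ) - n)) * vol K ^ (n - 1) ≤
        vol (projectionBody K)) :
    vol (projectionBody K) = kappa (n - 1) ^ n * kappa n ^ ((2 : ℤ) - n) * vol K ^ (n - 1) ↔
      ∃ (g : E n) (S : E n ≃ₗ[ℝ] E n), K = (fun x => g + S x) '' closedBall (0 : E n) 1 := by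
  refine ⟨fun heq => ellipsoid_of_zero_excess hn hK hc hi fun ε hε hfar => ?_, ?_⟩
  · have hv : 0 < vol K := ENNReal.toReal_pos
      ((isOpen_interior.measure_pos volume hi).trans_le (measure_mono interior_subset)).ne'
      hK.measure_lt_top.ne
    have hfar' : Asymp.FarFromEllipsoids (min ε 1) K := by
      intro T hT t ht
      refine le_trans ?_ (hfar T hT t ht)
      have := kappa_pos' n
      have hb : 0 ≤ Asymp.ballSurface K := by unfold Asymp.ballSurface; positivity
      gcongr
      exact min_le_left _ _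
    have h := hstab _ (lt_min hε one_pos) (min_le_right _ _) hfar'
    rw [heq, mul_assoc (Real.exp _)] at h
    have hk := kappa_pos' n
    have hk1 := kappa_pos' (n - 1)
    have hP : 0 < kappa (n - 1) ^ n * kappa n ^ ((2 : ℤ) - n) * vol K ^ (n - 1) := by positivity
    have h1 := le_of_mul_le_mul_right (h.trans_eq (one_mul _).symm) hP
    have h2 : 0 < γ * min ε 1 * n := mul_pos (mul_pos hγ (lt_min hε one_pos)) (by positivity)
    linarith [Real.add_one_le_exp (γ * min ε 1 * n)]
  · rintro ⟨g, S, rfl⟩
    exact petty_eq_of_ellipsoid (by omega) g S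

end Vale.Agent.P237.Sharp
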