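import Vale.Agent.P254.SquareBM

/-!
P237: equality in Brunn-Minkowski for two convex bodies of equal volume forces the distributions of
a coordinate on them to be translates of each other.
-/

noncomputable section

open MeasureTheory Set Filter Topology
open scoped Pointwise ENNReal

namespace Vale.Agent.P237.Sharp

variable {m : ℕ}

/-- A convex body in coordinates. -/
def Body (X : Set (Fin (m + 1) → ℝ)) : Prop :=
  IsCompact X ∧ Convex ℝ X ∧ (interior X).Nonempty

/-- A slice orthogonal to the first axis. -/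
def slice0 (X : Set (Fin (m + 1) → ℝ)) (s : ℝ) : Set (Fin m → ℝ) :=
  {y | Fin.cons s y ∈ X}

/-- The volume of a slice. -/
def area (X : Set (Fin (m + 1) → ℝ)) (s : ℝ) : ℝ := (volume (slice0 X s)).toReal

/-- The volume below a height. -/
def below (X : Set (Fin (m + 1) → ℝ)) (s : ℝ) : ℝ := (volume (X ∩ {x | x 0 ≤ s})).toReal

/-- The heights of the interior. -/
def heights (X : Set (Fin (m + 1) → ℝ)) : Set ℝ := (fun x => x 0) '' interior X

/-- The `k`-th root of the volume is concave. -/
lemma bm_root {k : ℕ} (hk : k ≠ 0) {A B C : Set (Fin k → ℝ)} (hA : IsCompact A) (hB : IsCompact B)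
    (hC : IsCompact C) (hAc : Convex ℝ A) (hBc : Convex ℝ B) (hA0 : 0 < (volume A).toReal)
    (hB0 : 0 < (volume B).toReal) {l μ : ℝ} (hl : 0 ≤ l) (hμ : 0 ≤ μ) (hlμ : l + μ = 1)
    (hsub : ∀ z ∈ A, ∀ w ∈ B, l • z + μ • w ∈ C) :
    (l * (volume A).toReal ^ ((k : ℝ)⁻¹) + μ * (volume B).toReal ^ ((k : ℝ)⁻¹)) ^ k ≤
      (volume C).toReal := by
  obtain ⟨a, ha⟩ : A.Nonempty := by
    refine nonempty_iff_ne_empty.2 fun h => ?_
    simp [h] at hA0
  obtain ⟨b, hb⟩ : B.Nonempty := by
    refine nonempty_iff_ne_empty.2 fun h => ?_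
    simp [h] at hB0
  have h := P254.brunn_minkowski (k := k) (hA.vadd (-a)) (hB.vadd (-b))
    (hC.vadd (-(l • a + μ • b))) (hAc.vadd (-a)) (hBc.vadd (-b))
    ⟨a, ha, neg_add_cancel a⟩ ⟨b, hb, neg_add_cancel b⟩
    (Real.rpow_pos_of_pos hA0 ((k : ℝ)⁻¹)) (Real.rpow_pos_of_pos hB0 ((k : ℝ)⁻¹))
    (by rw [measure_vadd, Real.rpow_inv_natCast_pow hA0.le hk])
    (by rw [measure_vadd, Real.rpow_inv_natCast_pow hB0.le hk]) hl hμ hlμ (by
      rintro _ ⟨z, hz, rfl⟩ _ ⟨w, hw, rfl⟩
      refine ⟨l • z + μ • w, hsub z hz w hw, ?_⟩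
      simp only [vadd_eq_add]
      module)
  rwa [measure_vadd] at h

lemma isCompact_slice0 {X : Set (Fin (m + 1) → ℝ)} (hX : IsCompact X) (s : ℝ) :
    IsCompact (slice0 X s) := by
  refine (hX.image (f := fun x => Fin.tail x) (by unfold Fin.tail; fun_prop)).of_isClosed_subset
    (hX.isClosed.preimage (by fun_prop)) fun y hy => ⟨_, hy, ?_⟩
  exact Fin.tail_cons (α := fun _ => ℝ) s y

lemma convex_slice0 {X : Set (Fin (m + 1) → ℝ)} (hX : Convex ℝ X) (s : ℝ) :
    Convex ℝ (slice0 X s) := by
  intro y hy z hz a b ha hb hab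
  have h := hX hy hz ha hb hab
  show Fin.cons s (a • y + b • z) ∈ X
  refine mem_of_eq_of_mem ?_ h
  funext i
  refine Fin.cases ?_ (fun j => ?_) i <;> simp [← add_mul, hab]

lemma volume_below_eq {X : Set (Fin (m + 1) → ℝ)} (hX : MeasurableSet X) (S : Set ℝ)
    (hS : MeasurableSet S) :
    volume (X ∩ {x | x 0 ∈ S}) = ∫⁻ t in S, volume (slice0 X t) := by
  set e := (MeasurableEquiv.piFinSuccAbove (fun _ : Fin (m + 1) => ℝ) 0).symm
  have hmp := (volume_preserving_piFinSuccAbove (fun _ : Fin (m + 1) => ℝ) 0).symm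
  have hXS : MeasurableSet (X ∩ {x | x 0 ∈ S}) := hX.inter (measurable_pi_apply 0 hS)
  rw [← hmp.measure_preimage hXS.nullMeasurableSet, Measure.volume_eq_prod,
    Measure.prod_apply (e.measurable hXS),
    ← lintegral_indicator hS]
  refine lintegral_congr fun t => ?_
  have he : ∀ y, e (t, y) = Fin.cons t y := fun y => by
    simp [e, MeasurableEquiv.piFinSuccAbove_symm_apply, Fin.insertNthEquiv, Fin.insertNth_zero']
  by_cases ht : t ∈ S
  · rw [indicator_of_mem ht]
    congr 1
    ext y
    simp [slice0, he, ht]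
  · rw [indicator_of_notMem ht]
    convert measure_empty (μ := (volume : Measure (Fin m → ℝ)))
    ext y
    simp [he, ht]

lemma integrable_area {X : Set (Fin (m + 1) → ℝ)} (hX : IsCompact X) :
    Integrable (area X) := by
  set e := (MeasurableEquiv.piFinSuccAbove (fun _ : Fin (m + 1) => ℝ) 0).symm
  have hs : ∀ t, slice0 X t = Prod.mk t ⁻¹' (e ⁻¹' X) := fun t => by
    ext y
    simp [e, slice0, MeasurableEquiv.piFinSuccAbove_symm_apply, Fin.insertNthEquiv,
      Fin.insertNth_zero']
  refine integrable_toReal_of_lintegral_ne_top ?_ ?_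
  · simp only [hs]
    exact (measurable_measure_prodMk_left (e.measurable hX.isClosed.measurableSet)).aemeasurable
  · have h := volume_below_eq hX.isClosed.measurableSet univ MeasurableSet.univ
    rw [Measure.restrict_univ] at h
    rw [← h]
    exact ((measure_mono inter_subset_left).trans_lt hX.measure_lt_top).ne

lemma below_eq_integral {X : Set (Fin (m + 1) → ℝ)} (hX : IsCompact X) (s : ℝ) :
    below X s = ∫ t in Iic s, area X t := by
  have hm : AEMeasurable (fun t => volume (slice0 X t)) (volume.restrict (Iic s)) := by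
    have := (integrable_area hX).1.aemeasurable
    refine (this.ennreal_ofReal.congr (Eventually.of_forall fun t => ?_)).restrict
    exact ENNReal.ofReal_toReal (isCompact_slice0 hX t).measure_lt_top.ne
  show (volume (X ∩ {x | x 0 ∈ Iic s})).toReal = _
  rw [volume_below_eq hX.isClosed.measurableSet _ measurableSet_Iic]
  exact (integral_toReal hm (Eventually.of_forall fun t =>
    (isCompact_slice0 hX t).measure_lt_top)).symm

lemma below_sub {X : Set (Fin (m + 1) → ℝ)} (hX : IsCompact X) (a b : ℝ) :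
    below X b - below X a = ∫ t in a..b, area X t := by
  rw [below_eq_integral hX, below_eq_integral hX]
  exact intervalIntegral.integral_Iic_sub_Iic (integrable_area hX).integrableOn
    (integrable_area hX).integrableOn

lemma continuous_below {X : Set (Fin (m + 1) → ℝ)} (hX : IsCompact X) : Continuous (below X) := by
  have : below X = fun s => below X 0 + ∫ t in (0:ℝ)..s, area X t := by
    funext s; rw [← below_sub hX]; ring
  rw [this]
  exact continuous_const.add ((integrable_area hX).continuous_primitive 0)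

variable {X : Set (Fin (m + 1) → ℝ)}

lemma isOpen_heights : IsOpen (heights X) := isOpenMap_eval 0 _ isOpen_interior

lemma convex_heights (hX : Body X) : Convex ℝ (heights X) :=
  hX.2.1.interior.linear_image (LinearMap.proj 0)

lemma area_pos (hX : Body X) {s : ℝ} (hs : s ∈ heights X) : 0 < area X s := by
  obtain ⟨x, hx, rfl⟩ := hs
  refine ENNReal.toReal_pos ?_ (isCompact_slice0 hX.1 _).measure_lt_top.ne
  have ho : IsOpen {y : Fin m → ℝ | Fin.cons (x 0) y ∈ interior X} :=
    isOpen_interior.preimage (by fun_prop)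
  exact ((ho.measure_pos volume ⟨Fin.tail x, by simpa using hx⟩).trans_le
    (measure_mono fun y hy => interior_subset (X := Fin (m + 1) → ℝ) (s := X) hy)).ne'

lemma concaveOn_area (hm : m ≠ 0) (hX : Body X) :
    ConcaveOn ℝ (heights X) fun s => area X s ^ ((m : ℝ)⁻¹) := by
  refine ⟨convex_heights hX, fun s hs t ht a b ha hb hab => ?_⟩
  have h := bm_root hm (isCompact_slice0 hX.1 s) (isCompact_slice0 hX.1 t)
    (isCompact_slice0 hX.1 (a • s + b • t)) (convex_slice0 hX.2.1 s) (convex_slice0 hX.2.1 t)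
    (area_pos hX hs) (area_pos hX ht) ha hb hab fun y hy z hz => by
      show Fin.cons (a • s + b • t) (a • y + b • z) ∈ X
      refine mem_of_eq_of_mem ?_ (hX.2.1 hy hz ha hb hab)
      funext i
      refine Fin.cases ?_ (fun j => ?_) i <;> simp
  have h0 : 0 ≤ a • area X s ^ ((m : ℝ)⁻¹) + b • area X t ^ ((m : ℝ)⁻¹) := by
    have := area_pos hX hs; have := area_pos hX ht; positivity
  have h' := Real.rpow_le_rpow (pow_nonneg h0 m) h (by positivity : (0:ℝ) ≤ (m : ℝ)⁻¹)
  rwa [Real.pow_rpow_inv_natCast h0 hm] at h'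

lemma continuousOn_area (hm : m ≠ 0) (hX : Body X) : ContinuousOn (area X) (heights X) := by
  refine (((concaveOn_area hm hX).continuousOn isOpen_heights).pow m).congr fun s hs => ?_
  exact (Real.rpow_inv_natCast_pow (area_pos hX hs).le hm).symm

lemma hasDerivAt_below (hm : m ≠ 0) (hX : Body X) {s : ℝ} (hs : s ∈ heights X) :
    HasDerivAt (below X) (area X s) s := by
  have hh : below X = fun r => below X s + ∫ t in s..r, area X t := by
    funext r; rw [← below_sub hX.1]; ring
  rw [hh]
  exact (intervalIntegral.integral_hasDerivAt_right (integrable_area hX.1).intervalIntegrable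
    (integrable_area hX.1).1.stronglyMeasurableAtFilter
    ((continuousOn_area hm hX).continuousAt (isOpen_heights.mem_nhds hs))).const_add _

lemma strictMonoOn_below (hm : m ≠ 0) (hX : Body X) : StrictMonoOn (below X) (heights X) := by
  intro a ha b hb hab
  obtain ⟨c, hc, h⟩ := exists_hasDerivAt_eq_slope (below X) (area X) hab
    (continuous_below hX.1).continuousOn fun x hx => hasDerivAt_below hm hX
      ((convex_heights hX).ordConnected.out ha hb (Ioo_subset_Icc_self hx))
  have hpos := area_pos hX ((convex_heights hX).ordConnected.out ha hb (Ioo_subset_Icc_self hc))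
  rw [eq_div_iff (sub_pos.2 hab).ne'] at h
  nlinarith [mul_pos hpos (sub_pos.2 hab)]

lemma below_mono (hX : IsCompact X) : Monotone (below X) := fun _ _ h =>
  ENNReal.toReal_mono ((measure_mono inter_subset_left).trans_lt hX.measure_lt_top).ne
    (measure_mono fun _ hx => ⟨hx.1, le_trans hx.2 h⟩)

lemma below_nonneg (s : ℝ) : 0 ≤ below X s := ENNReal.toReal_nonneg

lemma below_le (hX : IsCompact X) (s : ℝ) : below X s ≤ (volume X).toReal :=
  ENNReal.toReal_mono hX.measure_lt_top.ne (measure_mono inter_subset_left)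

lemma subset_closure_heights (hX : Body X) {x : Fin (m + 1) → ℝ} (hx : x ∈ X) :
    x 0 ∈ closure (heights X) := by
  have h : x ∈ closure (interior X) := by
    rw [hX.2.1.closure_interior_eq_closure_of_nonempty_interior hX.2.2]
    exact subset_closure hx
  exact image_closure_subset_closure_image (continuous_apply 0) ⟨x, h, rfl⟩

lemma below_eq_zero (hX : Body X) {s : ℝ} (hs : ∀ t ∈ heights X, s ≤ t) : below X s = 0 := by
  rw [below_eq_integral hX.1]
  refine integral_eq_zero_of_ae ?_
  filter_upwards [ae_restrict_mem measurableSet_Iic,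
    ae_restrict_of_ae (compl_mem_ae_iff.2 (measure_singleton s))] with t ht hts
  have he : slice0 X t = ∅ := by
    refine eq_empty_iff_forall_notMem.2 fun y hy => ?_
    have : closure (heights X) ⊆ Ici s := closure_minimal hs isClosed_Ici
    have h := this (subset_closure_heights hX hy)
    simp at h
    exact hts (le_antisymm ht h)
  simp [area, he]

lemma below_eq_total (hX : Body X) {s : ℝ} (hs : ∀ t ∈ heights X, t ≤ s) :
    below X s = (volume X).toReal := by
  have : X ∩ {x | x 0 ≤ s} = X := inter_eq_left.2 fun x hx =>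
    closure_minimal hs isClosed_Iic (subset_closure_heights hX hx)
  simp [below, this]

lemma below_mem_Ioo (hm : m ≠ 0) (hX : Body X) {s : ℝ} (hs : s ∈ heights X) :
    below X s ∈ Ioo 0 (volume X).toReal := by
  obtain ⟨ε, hε, hball⟩ := Metric.isOpen_iff.1 isOpen_heights s hs
  have hl : s - ε / 2 ∈ heights X := hball (by simp [abs_of_pos hε]; linarith)
  have hr : s + ε / 2 ∈ heights X := hball (by simp [abs_of_pos hε]; linarith)
  exact ⟨(below_nonneg _).trans_lt (strictMonoOn_below hm hX hl hs (by linarith)),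
    (strictMonoOn_below hm hX hs hr (by linarith)).trans_le (below_le hX.1 _)⟩

lemma mem_heights_of_below (hX : Body X) {s : ℝ} (hs : below X s ∈ Ioo 0 (volume X).toReal) :
    s ∈ heights X := by
  by_contra h
  rcases em (∀ t ∈ heights X, s ≤ t) with h1 | h1
  · rw [below_eq_zero hX h1] at hs; exact lt_irrefl _ hs.1
  · push Not at h1
    obtain ⟨t, ht, hts⟩ := h1
    have h2 : ∀ r ∈ heights X, r ≤ s := fun r hr => not_lt.1 fun hsr =>
      h ((convex_heights hX).ordConnected.out ht hr ⟨hts.le, hsr.le⟩)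
    rw [below_eq_total hX h2] at hs; exact lt_irrefl _ hs.2

lemma exists_height (hX : Body X) {v : ℝ} (hv : v ∈ Ioo 0 (volume X).toReal) :
    ∃ s ∈ heights X, below X s = v := by
  obtain ⟨R, hR⟩ := (hX.1.image (continuous_apply 0)).isBounded.subset_closedBall (0 : ℝ)
  have hb : ∀ t ∈ heights X, t ∈ Icc (-R) R := fun t ⟨x, hx, hxt⟩ => by
    have h : x 0 ∈ Metric.closedBall (0 : ℝ) R := hR ⟨x, interior_subset hx, rfl⟩
    simp [Real.closedBall_eq_Icc] at h
    exact hxt ▸ h
  have hRR : -R ≤ R := by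
    obtain ⟨x, hx⟩ := hX.2.2
    exact (hb _ ⟨x, hx, rfl⟩).1.trans (hb _ ⟨x, hx, rfl⟩).2
  obtain ⟨s, -, hs⟩ := intermediate_value_Icc hRR (continuous_below hX.1).continuousOn
    (show v ∈ Icc (below X (-R)) (below X R) by
      rw [below_eq_zero hX fun t ht => (hb t ht).1, below_eq_total hX fun t ht => (hb t ht).2]
      exact ⟨hv.1.le, hv.2.le⟩)
  exact ⟨s, mem_heights_of_below hX (hs ▸ hv), hs⟩

section Equality

variable {P Q M : Set (Fin (m + 1) → ℝ)}

lemma below_mid (hP : Body P) (hQ : Body Q) (hM : Body M)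
    (hvP : (volume P).toReal = (volume M).toReal) (hvQ : (volume Q).toReal = (volume M).toReal)
    (hsub : ∀ x ∈ P, ∀ y ∈ Q, (1 / 2 : ℝ) • x + (1 / 2 : ℝ) • y ∈ M) {a b : ℝ}
    (hb : below Q b ∈ Ioo 0 (volume M).toReal) (hab : below P a = below Q b) :
    below M ((a + b) / 2) = below Q b := by
  set v := below Q b
  set V := (volume M).toReal
  have hlo : ∀ (S : Set (Fin (m + 1) → ℝ)) (c : ℝ), IsCompact S →
      IsCompact (S ∩ {x | x 0 ≤ c}) ∧ IsCompact (S ∩ {x | c ≤ x 0}) := fun S c hS =>
    ⟨hS.inter_right (isClosed_le (continuous_apply 0) continuous_const),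
      hS.inter_right (isClosed_le continuous_const (continuous_apply 0))⟩
  have hup : ∀ (S : Set (Fin (m + 1) → ℝ)) (c : ℝ), Body S →
      (volume (S ∩ {x | c ≤ x 0})).toReal = (volume S).toReal - below S c := by
    intro S c hS
    have hz : volume (S ∩ {x | x 0 ∈ ({c} : Set ℝ)}) = 0 := by
      rw [volume_below_eq hS.1.isClosed.measurableSet _ (measurableSet_singleton c)]
      simp
    have hd : AEDisjoint volume (S ∩ {x | x 0 ≤ c}) (S ∩ {x | c ≤ x 0}) := by
      refine measure_mono_null (fun x hx => ?_) hz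
      exact ⟨hx.1.1, le_antisymm hx.1.2 hx.2.2⟩
    have hu : S ∩ {x | x 0 ≤ c} ∪ S ∩ {x | c ≤ x 0} = S := by
      rw [← inter_union_distrib_left]
      refine inter_eq_left.2 fun x _ => le_total (x 0) c
    have h := measure_union₀ (hlo S c hS.1).2.measurableSet.nullMeasurableSet hd
    rw [hu] at h
    rw [h, ENNReal.toReal_add (hlo S c hS.1).1.measure_lt_top.ne
      (hlo S c hS.1).2.measure_lt_top.ne, below]
    ring
  have hcv : ∀ c : ℝ, Convex ℝ {x : Fin (m + 1) → ℝ | x 0 ≤ c} ∧
      Convex ℝ {x : Fin (m + 1) → ℝ | c ≤ x 0} := fun c =>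
    ⟨convex_halfSpace_le (LinearMap.proj (R := ℝ) (φ := fun _ => ℝ) (0 : Fin (m + 1))).isLinear c,
      convex_halfSpace_ge (LinearMap.proj (R := ℝ) (φ := fun _ => ℝ) (0 : Fin (m + 1))).isLinear c⟩
  have hk : m + 1 ≠ 0 := Nat.succ_ne_zero m
  have avg : ∀ w : ℝ, 0 ≤ w → ((1 / 2) * w ^ (((m + 1 : ℕ) : ℝ)⁻¹) +
      (1 / 2) * w ^ (((m + 1 : ℕ) : ℝ)⁻¹)) ^ (m + 1) = w := fun w hw => by
    rw [← add_mul, show (1 / 2 : ℝ) + 1 / 2 = 1 by norm_num, one_mul,
      Real.rpow_inv_natCast_pow hw hk]
  refine le_antisymm ?_ ?_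
  · have h := bm_root hk (hlo P a hP.1).2 (hlo Q b hQ.1).2 (hlo M ((a + b) / 2) hM.1).2
      (hP.2.1.inter (hcv a).2) (hQ.2.1.inter (hcv b).2)
      (by rw [hup P a hP, hab, hvP]; linarith [hb.2])
      (by rw [hup Q b hQ, hvQ]; linarith [hb.2]) (l := 1 / 2) (μ := 1 / 2) (by norm_num)
      (by norm_num) (by norm_num) fun x hx y hy =>
        ⟨hsub x hx.1 y hy.1, by
          have h1 := hx.2; have h2 := hy.2
          simp at h1 h2 ⊢; linarith⟩
    rw [hup P a hP, hup Q b hQ, hup M _ hM, hab, hvP, hvQ, avg _ (by linarith [hb.2])] at h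
    linarith
  · have h := bm_root hk (hlo P a hP.1).1 (hlo Q b hQ.1).1 (hlo M ((a + b) / 2) hM.1).1
      (hP.2.1.inter (hcv a).1) (hQ.2.1.inter (hcv b).1)
      (show 0 < below P a by rw [hab]; exact hb.1) (show 0 < below Q b from hb.1)
      (l := 1 / 2) (μ := 1 / 2) (by norm_num) (by norm_num) (by norm_num) fun x hx y hy =>
        ⟨hsub x hx.1 y hy.1, by
          have h1 := hx.2; have h2 := hy.2
          simp at h1 h2 ⊢; linarith⟩
    change ((1 / 2) * below P a ^ _ + (1 / 2) * below Q b ^ _) ^ _ ≤ below M ((a + b) / 2) at h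
    rw [hab, avg _ hb.1.le] at h
    exact h

lemma eq_of_mid_ineq {j : ℕ} {x y : ℝ} (hx : 0 < x) (hy : 0 < y)
    (h : ((x + y) / 2) ^ (j + 1) * ((x ^ (j + 1) + y ^ (j + 1)) / 2) ≤ x ^ (j + 1) * y ^ (j + 1)) :
    x = y := by
  by_contra hne
  have h1 : x * y < ((x + y) / 2) ^ 2 := by nlinarith [mul_self_pos.2 (sub_ne_zero.2 hne)]
  have h2 : x ^ (j + 1) * y ^ (j + 1) < (((x + y) / 2) ^ (j + 1)) ^ 2 := by
    rw [← mul_pow, ← pow_mul, mul_comm (j + 1) 2, pow_mul]
    exact pow_lt_pow_left₀ h1 (by positivity) (Nat.succ_ne_zero j)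
  have h3 : x ^ (j + 1) * y ^ (j + 1) ≤ ((x ^ (j + 1) + y ^ (j + 1)) / 2) ^ 2 := by
    nlinarith [sq_nonneg (x ^ (j + 1) - y ^ (j + 1))]
  have hp : 0 < x ^ (j + 1) * y ^ (j + 1) := by positivity
  have hM : 0 < ((x + y) / 2) ^ (j + 1) := by positivity
  have hN : 0 < (x ^ (j + 1) + y ^ (j + 1)) / 2 := by positivity
  nlinarith [mul_lt_mul h2 h3 hp (sq_nonneg _), mul_le_mul h h (by positivity) hp.le]

/-- The distributions of the first coordinate on the bodies are translates. -/
theorem below_translate (hm : m ≠ 0) (hP : Body P) (hQ : Body Q) (hM : Body M)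
    (hvP : (volume P).toReal = (volume M).toReal) (hvQ : (volume Q).toReal = (volume M).toReal)
    (hsub : ∀ x ∈ P, ∀ y ∈ Q, (1 / 2 : ℝ) • x + (1 / 2 : ℝ) • y ∈ M) :
    ∃ c : ℝ, ∀ s, below P (s + c) = below Q s := by
  classical
  set V := (volume M).toReal
  have hex : ∀ v, ∃ s, v ∈ Ioo 0 V → s ∈ heights P ∧ below P s = v := fun v => by
    by_cases hv : v ∈ Ioo 0 V
    · obtain ⟨s, h1, h2⟩ := exists_height hP (hvP ▸ hv : v ∈ Ioo 0 (volume P).toReal)
      exact ⟨s, fun _ => ⟨h1, h2⟩⟩
    · exact ⟨0, fun h => absurd h hv⟩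
  choose g hg using hex
  have hgmono : StrictMonoOn g (Ioo 0 V) := fun v hv w hw hvw => by
    refine ((strictMonoOn_below hm hP).lt_iff_lt (hg v hv).1 (hg w hw).1).1 ?_
    rw [(hg v hv).2, (hg w hw).2]; exact hvw
  have hginv : ∀ a ∈ heights P, g (below P a) = a := fun a ha => by
    have h : below P a ∈ Ioo 0 V := hvP ▸ below_mem_Ioo hm hP ha
    exact (strictMonoOn_below hm hP).injOn (hg _ h).1 ha (hg _ h).2
  set T := fun s => g (below Q s) with hT
  have hIQ : ∀ s ∈ heights Q, below Q s ∈ Ioo 0 V := fun s hs => hvQ ▸ below_mem_Ioo hm hQ hs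
  have hTd : ∀ s ∈ heights Q, HasDerivAt T 1 s := by
    intro s hs
    have hv := hIQ s hs
    obtain ⟨hTs, hPT⟩ := hg _ hv
    have hpa := area_pos hP hTs
    have hqa := area_pos hQ hs
    have hgc : ContinuousAt g (below Q s) := by
      refine hgmono.continuousAt_of_image_mem_nhds (isOpen_Ioo.mem_nhds hv) ?_
      refine mem_of_superset (isOpen_heights.mem_nhds hTs) fun a ha => ?_
      exact ⟨below P a, hvP ▸ below_mem_Ioo hm hP ha, hginv a ha⟩
    have hgd : HasDerivAt g (area P (g (below Q s)))⁻¹ (below Q s) :=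
      HasDerivAt.of_local_left_inverse hgc (hasDerivAt_below hm hP hTs) hpa.ne'
        (mem_of_superset (isOpen_Ioo.mem_nhds hv) fun v hv' => (hg v hv').2)
    have hTd' : HasDerivAt T ((area P (g (below Q s)))⁻¹ * area Q s) s :=
      hgd.comp s (hasDerivAt_below hm hQ hs)
    set d := (area P (g (below Q s)))⁻¹ * area Q s
    set r := (g (below Q s) + s) / 2
    have hmid : ∀ t ∈ heights Q, below M ((T t + t) / 2) = below Q t := fun t ht =>
      below_mid hP hQ hM hvP hvQ hsub (hIQ t ht) (hg _ (hIQ t ht)).2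
    have hr : r ∈ heights M := mem_heights_of_below hM (by rw [hmid s hs]; exact hv)
    have hchain : HasDerivAt (fun t => below M ((T t + t) / 2)) (area M r * ((d + 1) / 2)) s :=
      (hasDerivAt_below hm hM hr).comp (h := fun t => (T t + t) / 2) s
        ((hTd'.add (hasDerivAt_id s)).div_const 2)
    have heq := hchain.unique ((hasDerivAt_below hm hQ hs).congr_of_eventuallyEq
      (mem_of_superset (isOpen_heights.mem_nhds hs) hmid))
    obtain ⟨j, rfl⟩ := Nat.exists_eq_succ_of_ne_zero hm
    have hbm := bm_root hm (isCompact_slice0 hP.1 (g (below Q s))) (isCompact_slice0 hQ.1 s)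
      (isCompact_slice0 hM.1 r) (convex_slice0 hP.2.1 _) (convex_slice0 hQ.2.1 _) hpa hqa
      (l := 1 / 2) (μ := 1 / 2) (by norm_num) (by norm_num) (by norm_num) fun y hy z hz => by
        show Fin.cons r ((1 / 2 : ℝ) • y + (1 / 2 : ℝ) • z) ∈ M
        refine mem_of_eq_of_mem ?_ (hsub _ hy _ hz)
        funext i
        refine Fin.cases ?_ (fun j => ?_) i <;> simp [r] <;> ring
    set x := area P (g (below Q s)) ^ (((j + 1 : ℕ) : ℝ)⁻¹) with hxdef
    set y := area Q s ^ (((j + 1 : ℕ) : ℝ)⁻¹) with hydef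
    have hx : x ^ (j + 1) = area P (g (below Q s)) := Real.rpow_inv_natCast_pow hpa.le hm
    have hy : y ^ (j + 1) = area Q s := Real.rpow_inv_natCast_pow hqa.le hm
    change ((1 / 2) * x + (1 / 2) * y) ^ (j + 1) ≤ area M r at hbm
    rw [show (1 / 2) * x + (1 / 2) * y = (x + y) / 2 by ring] at hbm
    have hxy : x = y := by
      refine eq_of_mid_ineq (j := j) (Real.rpow_pos_of_pos hpa _) (Real.rpow_pos_of_pos hqa _) ?_
      rw [hx, hy]
      refine (mul_le_mul_of_nonneg_right hbm (by positivity)).trans (le_of_eq ?_)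
      have hd : d * area P (g (below Q s)) = area Q s := by
        simp only [d]; field_simp
      linear_combination (area P (g (below Q s))) * heq - (area M r / 2) * hd
    have hd1 : d = 1 := by
      simp only [d]
      rw [← hx, ← hy, hxy, inv_mul_cancel₀ (by rw [hy]; exact hqa.ne')]
    rwa [hd1] at hTd'
  obtain ⟨s0, hs0⟩ : (heights Q).Nonempty := hQ.2.2.image _
  set c := T s0 - s0
  have hc : ∀ s ∈ heights Q, T s = s + c := fun s hs => by
    have h : (fun t => T t - t) s = (fun t => T t - t) s0 :=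
      isOpen_heights.is_const_of_deriv_eq_zero (convex_heights hQ).isPreconnected
        (fun t ht => ((hTd t ht).sub (hasDerivAt_id t)).differentiableAt.differentiableWithinAt)
        (fun t ht => by simpa using ((hTd t ht).sub (hasDerivAt_id t)).deriv) hs hs0
    simp only [c] at h ⊢
    linarith
  have hin : ∀ s ∈ heights Q, below P (s + c) = below Q s := fun s hs => by
    rw [← hc s hs]; exact (hg _ (hIQ s hs)).2
  have hV : 0 < V :=
    ENNReal.toReal_pos ((isOpen_interior.measure_pos volume hM.2.2).trans_le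
      (measure_mono interior_subset)).ne' hM.1.measure_lt_top.ne
  refine ⟨c, fun s => ?_⟩
  by_cases hs : s ∈ heights Q
  · exact hin s hs
  rcases em (∀ t ∈ heights Q, s ≤ t) with h1 | h1
  · rw [below_eq_zero hQ h1]
    refine le_antisymm (le_of_forall_gt_imp_ge_of_dense fun v hv => ?_) (below_nonneg _)
    obtain ⟨t, ht, htv⟩ := exists_height hQ (v := min v (V / 2))
      ⟨lt_min hv (by linarith), by rw [hvQ]; linarith [min_le_right v (V / 2)]⟩
    calc below P (s + c) ≤ below P (t + c) := below_mono hP.1 (by linarith [h1 t ht])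
      _ = below Q t := hin t ht
      _ ≤ v := htv ▸ min_le_left _ _
  · push Not at h1
    obtain ⟨t0, ht0, hts⟩ := h1
    have h2 : ∀ r ∈ heights Q, r ≤ s := fun r hr => not_lt.1 fun hsr =>
      hs ((convex_heights hQ).ordConnected.out ht0 hr ⟨hts.le, hsr.le⟩)
    rw [below_eq_total hQ h2, hvQ]
    refine le_antisymm (hvP ▸ below_le hP.1 _) (le_of_forall_lt_imp_le_of_dense fun v hv => ?_)
    obtain ⟨t, ht, htv⟩ := exists_height hQ (v := max v (V / 2))
      ⟨(half_pos hV).trans_le (le_max_right _ _), by rw [hvQ]; exact max_lt hv (by linarith)⟩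
    calc v ≤ below Q t := htv ▸ le_max_left _ _
      _ = below P (t + c) := (hin t ht).symm
      _ ≤ below P (s + c) := below_mono hP.1 (by linarith [h2 t ht])

end Equality

end Vale.Agent.P237.Sharp
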