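import Vale.Agent.P237.Sharp.Defs
import Vale.Agent.P237.Asymp.Base

/-!
P237: elementary facts about the tilted chain.
-/

noncomputable section

open MeasureTheory Set
open scoped RealInnerProductSpace

namespace Vale.Agent.P237.Sharp

open Asymp

variable {n N : ℕ} {c : Fin N → ℝ} {u : Fin N → E n} {es : List (E n)}

lemma winW_le (m : ℕ) : winW m ≤ 1 / 6 := min_le_left _ _

lemma winW_le_rpow (m : ℕ) : winW m ≤ (m : ℝ) ^ (-(1 / 3) : ℝ) := min_le_right _ _

lemma winW_nonneg (m : ℕ) : 0 ≤ winW m := le_min (by norm_num) (by positivity)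

lemma winW_pos {m : ℕ} (hm : 0 < m) : 0 < winW m :=
  lt_min (by norm_num) (Real.rpow_pos_of_pos (by exact_mod_cast hm) _)

lemma win_nonneg (m : ℕ) (e : ℝ) : 0 ≤ win m e := pow_nonneg (le_max_left _ _) 3

lemma win_le_one (m : ℕ) (e : ℝ) : win m e ≤ 1 :=
  pow_le_one₀ (le_max_left _ _)
    (max_le zero_le_one (by linarith [sq_nonneg (e / winW m)]))

lemma win_eq_zero {m : ℕ} (hm : 0 < m) {e : ℝ} (he : winW m ≤ |e|) : win m e = 0 := by
  have hw := winW_pos hm
  have h1 : 1 ≤ |e / winW m| := by
    rw [abs_div, abs_of_pos hw, one_le_div hw]; exact he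
  have h2 : 1 ≤ (e / winW m) ^ 2 := (one_le_sq_iff_one_le_abs _).2 h1
  rw [win, max_eq_left (by linarith), zero_pow three_ne_zero]

/-- The tilt differs from one by at most a multiple of the width of the window. -/
lemma abs_tilt_sub_one_le {m : ℕ} (hm : 0 < m) (s : ℝ) : |tilt m s - 1| ≤ 6 / 5 * winW m := by
  rcases le_or_gt (winW m) |s - 1| with h | h
  · simp [tilt, win_eq_zero hm h, winW_nonneg]
  · have h2 := abs_lt.1 h
    have hs : 5 / 6 ≤ s := by linarith [winW_le m]
    have h0 : 0 < s := by linarith
    have he : tilt m s - 1 = (1 - s) / s * win m (s - 1) := by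
      rw [tilt]; field_simp; ring
    rw [he, abs_mul, abs_div, abs_sub_comm, abs_of_pos h0, abs_of_nonneg (win_nonneg _ _)]
    calc |s - 1| / s * win m (s - 1) ≤ winW m / (5 / 6) * 1 := by
          refine mul_le_mul (div_le_div₀ (winW_nonneg m) h.le (by norm_num) hs) (win_le_one _ _)
            (win_nonneg _ _) (div_nonneg (winW_nonneg m) (by norm_num))
      _ = _ := by ring

lemma tilt_pos {m : ℕ} (hm : 0 < m) (s : ℝ) : 0 < tilt m s := by
  have h := abs_le.1 (abs_tilt_sub_one_le hm s)
  linarith [winW_le m]

/-- The normalisation differs from one by at most a multiple of the width of the window. -/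
lemma abs_tnorm_sub_one_le (hF : Frame c u) (h : Ortho es) (hlen : es.length < n) :
    |tnorm c u es - 1| ≤ 6 / 5 * winW (n - es.length) := by
  set m := n - es.length with hm
  have hm0 : 0 < m := by omega
  have he : tnorm c u es - 1 = ∑ i, prob c u es i * (tilt m (sval es (u i)) - 1) := by
    simp only [mul_sub, mul_one, Finset.sum_sub_distrib, sum_prob hF h hlen, tnorm, hm]
  rw [he]
  calc |∑ i, prob c u es i * (tilt m (sval es (u i)) - 1)|
      ≤ ∑ i, |prob c u es i * (tilt m (sval es (u i)) - 1)| := Finset.abs_sum_le_sum_abs _ _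
    _ ≤ ∑ i, prob c u es i * (6 / 5 * winW m) := by
        refine Finset.sum_le_sum fun i _ => ?_
        rw [abs_mul, abs_of_nonneg (prob_nonneg hF hlen.le i)]
        exact mul_le_mul_of_nonneg_left (abs_tilt_sub_one_le hm0 _) (prob_nonneg hF hlen.le i)
    _ = _ := by rw [← Finset.sum_mul, sum_prob hF h hlen, one_mul]

lemma tnorm_pos (hF : Frame c u) (h : Ortho es) (hlen : es.length < n) : 0 < tnorm c u es := by
  have := abs_le.1 (abs_tnorm_sub_one_le hF h hlen)
  linarith [winW_le (n - es.length)]

lemma tprob_eq_zero {i : Fin N} (hx : perp es (u i) = 0) : tprob c u es i = 0 := by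
  simp [tprob, prob, hx]

lemma tprob_nonneg (hF : Frame c u) (h : Ortho es) (hlen : es.length < n) (i : Fin N) :
    0 ≤ tprob c u es i :=
  div_nonneg (mul_nonneg (prob_nonneg hF hlen.le i) (tilt_pos (by omega) _).le)
    (tnorm_pos hF h hlen).le

lemma sum_tprob (hF : Frame c u) (h : Ortho es) (hlen : es.length < n) :
    ∑ i, tprob c u es i = 1 := by
  simp only [tprob, ← Finset.sum_div]
  exact div_self (tnorm_pos hF h hlen).ne'

/-- The tilted law is close to the law of the chain. -/
lemma abs_tprob_sub_prob_le (hF : Frame c u) (h : Ortho es) (hlen : es.length < n) (i : Fin N) :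
    |tprob c u es i - prob c u es i| ≤ 3 * winW (n - es.length) * prob c u es i := by
  set m := n - es.length with hm
  have hm0 : 0 < m := by omega
  have hN := abs_le.1 (abs_tnorm_sub_one_le hF h hlen)
  have hg := abs_le.1 (abs_tilt_sub_one_le hm0 (sval es (u i)))
  have hw := winW_le m
  have hw0 := winW_nonneg m
  have hp := tnorm_pos hF h hlen
  have he : tprob c u es i - prob c u es i =
      prob c u es i * ((tilt m (sval es (u i)) - tnorm c u es) / tnorm c u es) := by
    rw [tprob, ← hm]; field_simp
  rw [he, abs_mul, abs_of_nonneg (prob_nonneg hF hlen.le i), mul_comm]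
  refine mul_le_mul_of_nonneg_right ?_ (prob_nonneg hF hlen.le i)
  rw [abs_div, abs_of_pos hp, div_le_iff₀ hp]
  rw [← hm] at hN
  have h3 : 3 * winW m * (4 / 5) ≤ 3 * winW m * tnorm c u es :=
    mul_le_mul_of_nonneg_left (by linarith) (by positivity)
  exact abs_le.2 ⟨by linarith, by linarith⟩

lemma tchain_add (k : ℕ) (es : List (E n)) (f g : List (E n) → ℝ) :
    tchain c u k es (fun fs => f fs + g fs) = tchain c u k es f + tchain c u k es g := by
  induction k generalizing es with
  | zero => rfl
  | succ k ih => simp only [tchain, ih, mul_add, Finset.sum_add_distrib]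

lemma tchain_const_mul (k : ℕ) (es : List (E n)) (a : ℝ) (f : List (E n) → ℝ) :
    tchain c u k es (fun fs => a * f fs) = a * tchain c u k es f := by
  induction k generalizing es with
  | zero => rfl
  | succ k ih => simp only [tchain, ih, Finset.mul_sum, mul_left_comm]

lemma tchain_sub (k : ℕ) (es : List (E n)) (f g : List (E n) → ℝ) :
    tchain c u k es (fun fs => f fs - g fs) = tchain c u k es f - tchain c u k es g := by
  induction k generalizing es with
  | zero => rfl
  | succ k ih => simp only [tchain, ih, mul_sub, Finset.sum_sub_distrib]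

lemma tchain_sum {ι : Type*} (s : Finset ι) (k : ℕ) (es : List (E n))
    (f : ι → List (E n) → ℝ) :
    tchain c u k es (fun fs => ∑ j ∈ s, f j fs) = ∑ j ∈ s, tchain c u k es (f j) := by
  induction k generalizing es with
  | zero => rfl
  | succ k ih =>
    simp only [tchain, ih, Finset.mul_sum]
    exact Finset.sum_comm

/-- Only the orthonormal lists of the right length matter. -/
lemma tchain_mono (hF : Frame c u) {f g : List (E n) → ℝ} (k : ℕ) (es : List (E n))
    (h : Ortho es) (hlen : es.length + k ≤ n)
    (hfg : ∀ fs, Ortho fs → fs.length = es.length + k → f fs ≤ g fs) :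
    tchain c u k es f ≤ tchain c u k es g := by
  induction k generalizing es with
  | zero => exact hfg es h rfl
  | succ k ih =>
    refine Finset.sum_le_sum fun i _ => ?_
    by_cases hx : perp es (u i) = 0
    · simp [tprob_eq_zero hx]
    · refine mul_le_mul_of_nonneg_left (ih _ (h.nxt hx) (by rw [length_nxt]; omega) fun fs ho hl =>
        hfg fs ho (by rw [hl, length_nxt]; omega)) (tprob_nonneg hF h (by omega) i)

lemma tchain_congr (hF : Frame c u) {f g : List (E n) → ℝ} (k : ℕ) (es : List (E n))
    (h : Ortho es) (hlen : es.length + k ≤ n)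
    (hfg : ∀ fs, Ortho fs → fs.length = es.length + k → f fs = g fs) :
    tchain c u k es f = tchain c u k es g :=
  le_antisymm (tchain_mono hF k es h hlen fun fs a b => (hfg fs a b).le)
    (tchain_mono hF k es h hlen fun fs a b => (hfg fs a b).ge)

lemma tchain_const (hF : Frame c u) (k : ℕ) (es : List (E n)) (h : Ortho es)
    (hlen : es.length + k ≤ n) (a : ℝ) : tchain c u k es (fun _ => a) = a := by
  induction k generalizing es with
  | zero => rfl
  | succ k ih =>
    have hterm : ∀ i, tprob c u es i * tchain c u k (nxt es (u i)) (fun _ => a) =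
        tprob c u es i * a := fun i => by
      by_cases hx : perp es (u i) = 0
      · simp [tprob_eq_zero hx]
      · rw [ih _ (h.nxt hx) (by rw [length_nxt]; omega)]
    simp only [tchain, hterm, ← Finset.sum_mul,
      sum_tprob hF h (show es.length < n by omega), one_mul]

lemma tchain_nonneg (hF : Frame c u) {f : List (E n) → ℝ} (k : ℕ) (es : List (E n)) (h : Ortho es)
    (hlen : es.length + k ≤ n) (hf : ∀ fs, Ortho fs → fs.length = es.length + k → 0 ≤ f fs) :
    0 ≤ tchain c u k es f :=
  (tchain_const hF k es h hlen 0).symm.le.trans (tchain_mono hF k es h hlen hf)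

/-- A function that grows by at most `b` per step grows by at most `k * b` in `k` steps. -/
lemma tchain_le_add_mul (hF : Frame c u) {f : List (E n) → ℝ} {b : ℝ} (k : ℕ) (es : List (E n))
    (h : Ortho es) (hlen : es.length + k ≤ n)
    (hstep : ∀ fs, Ortho fs → es.length ≤ fs.length → fs.length < es.length + k →
      ∑ i, tprob c u fs i * f (nxt fs (u i)) ≤ f fs + b) :
    tchain c u k es f ≤ f es + k * b := by
  induction k generalizing es with
  | zero => simp [tchain]
  | succ k ih =>
    have hl : es.length < n := by omega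
    calc ∑ i, tprob c u es i * tchain c u k (nxt es (u i)) f
        ≤ ∑ i, tprob c u es i * (f (nxt es (u i)) + k * b) := by
          refine Finset.sum_le_sum fun i _ => ?_
          by_cases hx : perp es (u i) = 0
          · simp [tprob_eq_zero hx]
          · refine mul_le_mul_of_nonneg_left (ih _ (h.nxt hx) (by rw [length_nxt]; omega)
              fun fs ho h1 h2 => hstep fs ho ?_ ?_) (tprob_nonneg hF h hl i)
            · rw [length_nxt] at h1; omega
            · rw [length_nxt] at h2; omega
      _ = (∑ i, tprob c u es i * f (nxt es (u i))) + k * b := by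
          rw [Finset.sum_congr rfl fun i _ => mul_add _ _ _, Finset.sum_add_distrib,
            ← Finset.sum_mul, sum_tprob hF h hl, one_mul]
      _ ≤ f es + b + k * b := by
          linarith [hstep es h le_rfl (by omega)]
      _ = _ := by push_cast; ring

lemma sval_nonneg (es : List (E n)) (x : E n) : 0 ≤ sval es x :=
  div_nonneg (norm_nonneg _) (Real.sqrt_nonneg _)

lemma sval_sq {es : List (E n)} (hlen : es.length ≤ n) (x : E n) :
    sval es x ^ 2 = ‖perp es x‖ ^ 2 / (((n : ℝ) - es.length) / n) := by
  have : (0 : ℝ) ≤ ((n : ℝ) - es.length) / n :=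
    div_nonneg (sub_nonneg.2 (by exact_mod_cast hlen)) (Nat.cast_nonneg n)
  rw [sval, div_pow, Real.sq_sqrt this]

end Vale.Agent.P237.Sharp
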