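import Vale.Agent.P237.Sharp.Pins
import Vale.Agent.P237.Sharp.TChain

/-!
P237: elementary properties of the spherical average and of the functions along the tilted chain.
-/

noncomputable section

open MeasureTheory Set
open scoped RealInnerProductSpace

namespace Vale.Agent.P237.Sharp

open Asymp

variable {n N : ℕ} {c : Fin N → ℝ} {u : Fin N → E n}

lemma kappa_pos (n : ℕ) : 0 < kappa n :=
  ENNReal.toReal_pos (Metric.measure_ball_pos volume _ one_pos).ne' measure_ball_lt_top.ne

lemma measurable_dir : Measurable (dir : E n → E n) := by unfold dir; fun_prop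

lemma norm_dir_le (x : E n) : ‖dir x‖ ≤ 1 := by
  rw [dir, norm_smul, norm_inv, norm_norm]; exact inv_mul_le_one

lemma norm_dir {x : E n} (hx : x ≠ 0) : ‖dir x‖ = 1 := by
  rw [dir, norm_smul, norm_inv, norm_norm, inv_mul_cancel₀ (norm_ne_zero_iff.2 hx)]

/-- A function whose restriction to the ball of directions is integrable. -/
def DirInt (f : E n → ℝ) : Prop :=
  IntegrableOn (fun x => f (dir x)) (Metric.closedBall 0 1)

lemma DirInt.of_bounded {f : E n → ℝ} (hm : Measurable f) {B : ℝ}
    (hB : ∀ v, ‖v‖ ≤ 1 → |f v| ≤ B) : DirInt f :=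
  Integrable.mono' (g := fun _ => B) (integrableOn_const (hs := measure_closedBall_lt_top.ne))
    (hm.comp measurable_dir).aestronglyMeasurable
    (ae_of_all _ fun x => by simpa [Real.norm_eq_abs] using hB _ (norm_dir_le x))

lemma DirInt.add {f g : E n → ℝ} (hf : DirInt f) (hg : DirInt g) : DirInt fun v => f v + g v :=
  Integrable.add hf hg

lemma DirInt.const_mul {f : E n → ℝ} (hf : DirInt f) (a : ℝ) : DirInt fun v => a * f v :=
  Integrable.const_mul hf a

lemma volume_real_closedBall (n : ℕ) :
    (volume (Metric.closedBall (0 : E n) 1)).toReal = kappa n := by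
  rcases Nat.eq_zero_or_pos n with rfl | hn
  · rw [kappa]
    congr 2
    ext x
    simp [Subsingleton.elim x 0]
  · have : Nonempty (Fin n) := ⟨⟨0, hn⟩⟩
    rw [kappa, Measure.addHaar_closedBall_eq_addHaar_ball]

lemma sphAvg_const (a : ℝ) : sphAvg (fun _ : E n => a) = a := by
  rw [sphAvg, setIntegral_const, smul_eq_mul, measureReal_def, volume_real_closedBall, ← mul_assoc,
    inv_mul_cancel₀ (kappa_pos n).ne', one_mul]

lemma sphAvg_add {f g : E n → ℝ} (hf : DirInt f) (hg : DirInt g) :
    sphAvg (fun v => f v + g v) = sphAvg f + sphAvg g := by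
  rw [sphAvg, integral_add hf hg, mul_add]; rfl

lemma sphAvg_const_mul (a : ℝ) (f : E n → ℝ) : sphAvg (fun v => a * f v) = a * sphAvg f := by
  simp only [sphAvg, integral_const_mul]; ring

lemma sphAvg_mono {f g : E n → ℝ} (hf : DirInt f) (hg : DirInt g) (hn : 1 ≤ n)
    (h : ∀ v, ‖v‖ = 1 → f v ≤ g v) : sphAvg f ≤ sphAvg g := by
  have : Nonempty (Fin n) := ⟨⟨0, hn⟩⟩
  refine mul_le_mul_of_nonneg_left (setIntegral_mono_ae_restrict hf hg ?_)
    (inv_nonneg.2 (kappa_pos n).le)
  have h0 : ∀ᵐ x ∂(volume.restrict (Metric.closedBall (0 : E n) 1)), x ≠ 0 :=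
    ae_restrict_of_ae (by simp [ae_iff])
  filter_upwards [h0] with x hx using h _ (norm_dir hx)

lemma tilt_nonneg (m : ℕ) {s : ℝ} (hs : 0 ≤ s) : 0 ≤ tilt m s := by
  have h1 := win_le_one m (s - 1)
  have h2 := mul_nonneg (inv_nonneg.2 hs) (win_nonneg m (s - 1))
  unfold tilt
  linarith

lemma mul_tilt_le (m : ℕ) {s : ℝ} (hs : 0 ≤ s) : s * tilt m s ≤ s + 1 := by
  rcases hs.eq_or_lt with rfl | hs
  · simp
  have h1 := win_le_one m (s - 1)
  have h2 := mul_nonneg hs.le (win_nonneg m (s - 1))
  rw [tilt, show s * (1 + (s⁻¹ - 1) * win m (s - 1)) = s + win m (s - 1) - s * win m (s - 1) by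
    field_simp; ring]
  linarith

lemma lstep_nonneg (m : ℕ) {s : ℝ} (hs : 0 ≤ s) : 0 ≤ lstep m s := by
  have hr := mul_nonneg hs (tilt_nonneg m hs)
  have h : 0 ≤ s * tilt m s * Real.log (s * tilt m s) - s * tilt m s + 1 := by
    rcases hr.eq_or_lt with h | h
    · simp [← h]
    · have h1 := mul_le_mul_of_nonneg_left (Real.one_sub_inv_le_log_of_pos h) h.le
      rw [mul_sub, mul_one, mul_inv_cancel₀ h.ne'] at h1
      linarith
  exact add_nonneg (mul_nonneg hs h) (by positivity)

lemma lstep_le (m : ℕ) {s S : ℝ} (hs : 0 ≤ s) (hS : s ≤ S) :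
    lstep m s ≤ S * ((S + 1) ^ 2 + 1) + (S + 1) ^ 2 := by
  have hr := mul_nonneg hs (tilt_nonneg m hs)
  set r := s * tilt m s
  have hr1 : r ≤ S + 1 := (mul_tilt_le m hs).trans (by linarith)
  have h : r * Real.log r - r + 1 ≤ (S + 1) ^ 2 + 1 := by
    rcases hr.eq_or_lt with h | h
    · rw [← h]; simp; positivity
    · have h1 := mul_le_mul_of_nonneg_left (Real.log_le_sub_one_of_pos h) h.le
      nlinarith [pow_le_pow_left₀ h.le hr1 2]
  refine add_le_add ((mul_le_mul_of_nonneg_left h hs).trans
    (mul_le_mul_of_nonneg_right hS (by positivity))) ?_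
  nlinarith [sq_nonneg (S + 1), sq_nonneg (s - 1)]

lemma measurable_win (m : ℕ) : Measurable (win m) := by unfold win; fun_prop

lemma measurable_lstep (m : ℕ) : Measurable (lstep m) := by
  have : Measurable (tilt m) := by
    unfold tilt
    exact measurable_const.add ((measurable_inv.sub_const 1).mul
      ((measurable_win m).comp (measurable_id.sub_const 1)))
  unfold lstep
  fun_prop

lemma continuous_perp (es : List (E n)) : Continuous (perp es) := by
  induction es with
  | nil => exact continuous_id.congr fun x => (perp_nil x).symm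
  | cons e es ih =>
    have : perp (e :: es) = fun x => perp es x - ⟪e, x⟫ • e := funext (perp_cons e es)
    rw [this]; fun_prop

lemma continuous_sval (es : List (E n)) : Continuous (sval es) := by
  unfold sval
  exact (continuous_perp es).norm.div_const _

lemma tprob_nonneg_of_le (hF : Frame c u) {es : List (E n)} (hlen : es.length ≤ n) (i : Fin N) :
    0 ≤ tprob c u es i :=
  div_nonneg (mul_nonneg (prob_nonneg hF hlen i) (tilt_nonneg _ (sval_nonneg _ _)))
    (Finset.sum_nonneg fun j _ =>
      mul_nonneg (prob_nonneg hF hlen j) (tilt_nonneg _ (sval_nonneg _ _)))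

lemma tchain_nonneg_of_forall (hF : Frame c u) {f : List (E n) → ℝ} (k : ℕ) (es : List (E n))
    (hlen : es.length + k ≤ n) (hf : ∀ fs, fs.length = es.length + k → 0 ≤ f fs) :
    0 ≤ tchain c u k es f := by
  induction k generalizing es with
  | zero => exact hf es rfl
  | succ k ih =>
    refine Finset.sum_nonneg fun i _ => mul_nonneg (tprob_nonneg_of_le hF (by omega) i) ?_
    exact ih _ (by rw [length_nxt]; omega) fun fs h => hf fs (by rw [h, length_nxt]; omega)

lemma measurable_tchain {α : Type*} [MeasurableSpace α] (f : List (E n) → α → ℝ)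
    (hf : ∀ es, Measurable (f es)) (k : ℕ) (es : List (E n)) :
    Measurable fun a => tchain c u k es fun fs => f fs a := by
  induction k generalizing es with
  | zero => exact hf es
  | succ k ih => simp only [tchain]; exact Finset.measurable_sum _ fun i _ => (ih _).const_mul _

lemma bounded_tchain {α : Type*} (S : Set α) (f : List (E n) → α → ℝ)
    (hf : ∀ es, ∃ B, ∀ a ∈ S, |f es a| ≤ B) (k : ℕ) (es : List (E n)) :
    ∃ B, ∀ a ∈ S, |tchain c u k es fun fs => f fs a| ≤ B := by
  induction k generalizing es with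
  | zero => exact hf es
  | succ k ih =>
    choose B hB using fun i => ih (nxt es (u i))
    refine ⟨∑ i, |tprob c u es i| * B i, fun a ha => ?_⟩
    simp only [tchain]
    refine (Finset.abs_sum_le_sum_abs _ _).trans (Finset.sum_le_sum fun i _ => ?_)
    rw [abs_mul]
    exact mul_le_mul_of_nonneg_left (hB i a ha) (abs_nonneg _)

lemma measurableSet_goodDir (c : Fin N → ℝ) (u : Fin N → E n) :
    MeasurableSet {θ | GoodDir c u θ} := by
  have hfar : ∀ es : List (E n), Measurable fun θ => far (√(n : ℝ))⁻¹ θ es := by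
    intro es
    have : (fun θ => far (√(n : ℝ))⁻¹ θ es) = {θ : E n | ∃ e ∈ es,
        (√(n : ℝ))⁻¹ * ‖θ‖ ^ 2 < ⟪e, θ⟫ ^ 2}.indicator fun _ => 1 := by
      funext θ; simp [far, Set.indicator]
    rw [this]
    refine measurable_const.indicator (IsOpen.measurableSet ?_)
    simp only [ofPred_exists]
    exact isOpen_iUnion fun e => by
      by_cases he : e ∈ es
      · simpa [he] using isOpen_lt (by fun_prop) (by fun_prop)
      · simp [he]
  have h : {θ | GoodDir c u θ} = {θ : E n | ‖θ‖ = 1} ∩ ⋂ k ∈ Finset.range (n + 1),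
      {θ | tchain c u k [] (far (√(n : ℝ))⁻¹ θ) ≤ (√(n : ℝ))⁻¹} := by
    ext θ; simp [GoodDir]
  rw [h]
  exact (measurableSet_eq_fun measurable_norm measurable_const).inter
    (Finset.measurableSet_biInter _ fun k _ => measurableSet_le
      (measurable_tchain (fun es θ => far (√(n : ℝ))⁻¹ θ es) hfar k []) measurable_const)

lemma measurable_lossFun (c : Fin N → ℝ) (u : Fin N → E n) (m₀ : ℕ) :
    Measurable (lossFun c u m₀) :=
  (Finset.measurable_sum _ fun m _ => (measurable_tchain (fun es v => lstep m (sval es v))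
    (fun es => (measurable_lstep m).comp (continuous_sval es).measurable) _ _).const_mul _).const_mul
      _

lemma lossFun_nonneg (hF : Frame c u) (m₀ : ℕ) (v : E n) : 0 ≤ lossFun c u m₀ v := by
  refine mul_nonneg (by positivity) (Finset.sum_nonneg fun m hm => mul_nonneg ?_ ?_)
  · have : 0 ≤ winW m := le_min (by norm_num) (by positivity)
    linarith
  · refine tchain_nonneg_of_forall hF _ [] ?_ fun fs _ => lstep_nonneg m (sval_nonneg fs v)
    simp

lemma dirInt_lossFun (c : Fin N → ℝ) (u : Fin N → E n) (m₀ : ℕ) : DirInt (lossFun c u m₀) := by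
  obtain ⟨B, hB⟩ : ∃ B, ∀ v ∈ Metric.closedBall (0 : E n) 1, |lossFun c u m₀ v| ≤ B := by
    have h : ∀ m, ∃ B, ∀ v ∈ Metric.closedBall (0 : E n) 1,
        |tchain c u (n - m) [] fun es => lstep m (sval es v)| ≤ B := fun m => by
      refine bounded_tchain _ (fun es v => lstep m (sval es v)) (fun es => ?_) _ _
      obtain ⟨S, hS⟩ := (isCompact_closedBall (0 : E n) 1).exists_bound_of_continuousOn
        (continuous_sval es).continuousOn
      refine ⟨S * ((S + 1) ^ 2 + 1) + (S + 1) ^ 2, fun v hv => ?_⟩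
      rw [abs_of_nonneg (lstep_nonneg m (sval_nonneg es v))]
      exact lstep_le m (sval_nonneg es v) ((Real.le_norm_self _).trans (hS v hv))
    choose B hB using h
    refine ⟨|(n : ℝ)⁻¹| * ∑ m ∈ Finset.Ioc m₀ n, |1 + 3 * winW m| * B m, fun v hv => ?_⟩
    rw [lossFun, abs_mul]
    refine mul_le_mul_of_nonneg_left ((Finset.abs_sum_le_sum_abs _ _).trans
      (Finset.sum_le_sum fun m _ => ?_)) (abs_nonneg _)
    rw [abs_mul]
    exact mul_le_mul_of_nonneg_left (hB m v hv) (abs_nonneg _)
  exact .of_bounded (measurable_lossFun c u m₀) fun v hv => hB v (mem_closedBall_zero_iff.2 hv)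

lemma zonoVol_pos (hn : 0 < n) (hF : Frame c u) : 0 < zonoVol c u := by
  have h := Asymp.zonoEntropy n N c u hn hF
  exact ENNReal.toReal_pos
    ((ENNReal.ofReal_pos.2 (Real.exp_pos _)).trans_le h).ne'
    (ZE.isCompact_zonoG _).measure_ne_top

lemma ballVol_pos (n : ℕ) : 0 < ballVol n := by
  have h1 := kappa_pos n
  have h2 := kappa_pos (n - 1)
  unfold ballVol; positivity

end Vale.Agent.P237.Sharp
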