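import Vale.Agent.P237.Asymp.Statement

/-!
P237: the statement of Petty's inequality in high dimension.
-/

noncomputable section

open MeasureTheory Set
open scoped RealInnerProductSpace Pointwise

namespace Vale.Agent.P237.Sharp

open Asymp (FarFromEllipsoids)

/-- Petty's inequality holds for every convex body in every sufficiently high dimension. -/
def PettyHighDim : Prop :=
  ∃ n₀ : ℕ, ∀ n, n₀ ≤ n → ∀ K : Set (E n), IsCompact K → Convex ℝ K → (interior K).Nonempty →
    kappa (n - 1) ^ n * kappa n ^ ((2 : ℤ) - n) * vol K ^ (n - 1) ≤ vol (projectionBody K)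

/-- The margin is exponential in `n` times the isoperimetric excess. -/
def PettyStability : Prop :=
  ∃ γ : ℝ, 0 < γ ∧ ∃ n₀ : ℕ, ∀ n, n₀ ≤ n → ∀ ε : ℝ, 0 < ε → ε ≤ 1 → ∀ K : Set (E n),
    IsCompact K → Convex ℝ K → (interior K).Nonempty → FarFromEllipsoids ε K →
      Real.exp (γ * ε * n) * (kappa (n - 1) ^ n * kappa n ^ ((2 : ℤ) - n)) * vol K ^ (n - 1) ≤
        vol (projectionBody K)

/-- In high dimension Petty's inequality is an equality exactly for ellipsoids. -/
def PettyEquality : Prop :=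
  ∃ n₀ : ℕ, ∀ n, n₀ ≤ n → ∀ K : Set (E n), IsCompact K → Convex ℝ K → (interior K).Nonempty →
    (vol (projectionBody K) = kappa (n - 1) ^ n * kappa n ^ ((2 : ℤ) - n) * vol K ^ (n - 1) ↔
      ∃ (g : E n) (S : E n ≃ₗ[ℝ] E n), K = (fun x => g + S x) '' Metric.closedBall (0 : E n) 1)

end Vale.Agent.P237.Sharp
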