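import Vale.Agent.P237.Sharp.Polytope
import Vale.Agent.P237.Sharp.Statement
import Vale.Agent.P237.Cylinder

/-!
P237: from frames of small excess to all convex bodies.
-/

noncomputable section

open MeasureTheory Set Matrix Filter
open scoped RealInnerProductSpace ENNReal Topology Pointwise

namespace Vale.Agent.P237.Sharp

open Asymp

variable {n N : ℕ}

/-- The constant of Petty's inequality. -/
lemma pettyConst_eq (hn : 1 ≤ n) :
    kappa (n - 1) ^ n * kappa n ^ ((2 : ℤ) - n) = kappa n * ballVol n := by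
  have hk := kappa_pos n
  have hz : kappa n ^ ((2 : ℤ) - n) = kappa n / kappa n ^ (n - 1) := by
    rw [← zpow_natCast (kappa n) (n - 1), Nat.cast_sub hn]
    nth_rw 2 [← zpow_one (kappa n)]
    rw [← zpow_sub₀ hk.ne']
    congr 1
    push_cast
    ring
  rw [hz, ballVol]; ring

/-- Petty's inequality with margin for polytopes. -/
theorem polytope_petty (hFP : FramePetty) :
    ∃ γ δ₀ : ℝ, 0 < γ ∧ 0 < δ₀ ∧ ∃ n₀ : ℕ, ∀ (n N : ℕ) (v : Fin N → E n), n₀ ≤ n →
      Function.Injective v → Bornology.IsBounded (Poly v fun _ => 1) → ∀ ε : ℝ, 0 ≤ ε → ε ≤ δ₀ →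
      (∀ T : Matrix (Fin n) (Fin n) ℝ, |T.det| = 1 →
        (1 + ε) * refRadius v ≤ ∑ i, coneVol v i * ‖toEuclideanLin T (v i)‖) →
      Real.exp (γ * n * ε) * (kappa n * ballVol n) *
          (volume (Poly v fun _ => 1)).toReal ^ (n - 1) ≤
        (volume (projBody (Poly v fun _ => 1))).toReal := by
  obtain ⟨γ₁, δ₀, hγ₁, hδ₀, n₁, hgain⟩ := hFP
  have hlog : 0 < Real.log (1 + δ₀) := Real.log_pos (by linarith)
  set η := min (1 / 2) (Real.log (1 + δ₀) / 2) with hη
  have hη0 : 0 < η := lt_min (by norm_num) (by linarith)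
  set e := η ^ 2 / 4 with he
  have he0 : 0 < e := by positivity
  obtain ⟨n₂, hn₂⟩ := eventually_atTop.1 (eventually_small (ε := e / 2) (by positivity))
  refine ⟨min γ₁ (e / 2 / δ₀), δ₀, lt_min hγ₁ (by positivity), hδ₀,
    n₁ + n₂ + 4 + ⌈2 / e⌉₊, fun n N v hn hv hb ε hε0 hε hfar => ?_⟩
  set γ := min γ₁ (e / 2 / δ₀)
  have hγ0 : 0 < γ := lt_min hγ₁ (by positivity)
  set k := (volume (Poly v fun _ => 1)).toReal
  have hk0 : 0 ≤ k := ENNReal.toReal_nonneg
  obtain ⟨T, s, δ, c, u, hT, hsum, hsδ, hFT, hmin, hlow⟩ := polytope_frame (by omega) v hv hb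
  have hKi : (interior (Poly v fun _ => 1)).Nonempty :=
    ⟨0, mem_interior.2 ⟨⋂ i, {x | ⟪v i, x⟫ < 1}, fun x hx i => (mem_iInter.1 hx i).le,
      isOpen_iInter_of_finite fun i => isOpen_lt (by fun_prop) continuous_const, by simp⟩⟩
  have hkpos : 0 < k :=
    ENNReal.toReal_pos (Measure.measure_pos_of_nonempty_interior volume hKi).ne'
      hb.measure_lt_top.ne
  set r := refRadius v
  have hA : 0 < kappa n * k ^ (n - 1) := mul_pos (kappa_pos n) (pow_pos hkpos _)
  have hr : 0 < r := Real.rpow_pos_of_pos hA _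
  have hrn : r ^ n = kappa n * k ^ (n - 1) := Real.rpow_inv_natCast_pow hA.le (by omega)
  have hδε : ε ≤ δ := by
    have h := hfar T hT
    rw [hsum, hsδ] at h
    linarith [le_of_mul_le_mul_right h hr]
  rcases le_or_gt δ δ₀ with hcase | hcase
  · have hg := hgain n N c u δ (by omega) hFT hcase
    refine le_trans ?_ hlow
    rw [hsδ, mul_pow, hrn]
    calc Real.exp (γ * n * ε) * (kappa n * ballVol n) * k ^ (n - 1)
        ≤ Real.exp (γ₁ * n * δ) * (kappa n * ballVol n) * k ^ (n - 1) := by
          have := ballVol_pos n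
          have := kappa_pos n
          gcongr
          exact min_le_left _ _
      _ = kappa n * k ^ (n - 1) * (Real.exp (γ₁ * n * δ) * ballVol n) := by ring
      _ ≤ kappa n * k ^ (n - 1) * ((1 + δ) ^ n * zonoVol c u) :=
          mul_le_mul_of_nonneg_left hg hA.le
      _ = _ := by ring
  · -- large excess
    have hn4 : 4 ≤ n := by omega
    obtain ⟨hbad, herr⟩ := hn₂ n (by omega)
    set τ := (√(n : ℝ))⁻¹
    have hnR : (4 : ℝ) ≤ n := by exact_mod_cast hn4
    have hτ : 0 < τ := inv_pos.2 (Real.sqrt_pos.2 (by linarith))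
    have hτ1 : τ ≤ 1 := inv_le_one_of_one_le₀ (Real.one_le_sqrt.2 (by linarith))
    obtain ⟨T', s', M, hT', hs', hsum', hM0, hM1, hmink, hlow'⟩ :=
      polytope_core exactPosition zonoEntropy goodSet (stepBound chainVariance) (by omega) v hv hb
        hτ hτ1
    have hss : (1 + δ₀) * r ≤ s' := by
      refine le_trans ?_ (hsum' ▸ hmin T' hT')
      rw [hsδ]
      exact mul_le_mul_of_nonneg_right (by linarith) hr.le
    have hsn := pow_le_pow_left₀ (by positivity) hss n
    rw [mul_pow, hrn] at hsn
    have hen : 2 ≤ e * n := by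
      have h1 : 2 / e ≤ n := (Nat.le_ceil _).trans (by exact_mod_cast (show _ by omega : ⌈2 / e⌉₊ ≤ n))
      rw [div_le_iff₀ he0] at h1; linarith
    have hbal := balance (show 1 ≤ n by omega) (A := kappa n * k ^ (n - 1)) (ε := 2 * δ₀) (η := η)
      (g := e / 2 * n) (Er := totalErr n τ) (M := M) (s := s') hA (by positivity)
      (logRatio_nonneg n) (logRatio_le n) hM0 hM1 hη0 (min_le_left _ _)
      (by rw [show 2 * δ₀ / 2 = δ₀ by ring]; linarith [min_le_right (1 / 2 : ℝ) (Real.log (1 + δ₀) / 2)])
      (by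
        have hlog' := logRatio_ge (n := n) (by omega)
        have h2 : (n : ℝ) * η ^ 2 / 2 = 2 * e * n := by rw [he]; ring
        linarith)
      (by rw [show 2 * δ₀ / 2 = δ₀ by ring]; linarith)
      (by
        refine le_trans ?_ hmink
        have hp : 0 ≤ k ^ (n - 1) := pow_nonneg hk0 _
        nlinarith [mul_le_mul_of_nonneg_left hbad (mul_nonneg (kappa_pos n).le hp),
          mul_nonneg (kappa_pos n).le hp])
    refine le_trans ?_ (hbal.trans hlow')
    have hball : ballVol n ≤ Real.exp ((n : ℝ) / 2) := by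
      rw [ballVol, div_le_iff₀ (pow_pos (kappa_pos n) _)]
      refine ((ballConst n hn4).le).trans ?_
      rw [← Real.exp_half, ← Real.exp_nat_mul, mul_comm, mul_one_div]
      exact mul_le_mul_of_nonneg_right (half_le_self (Real.exp_pos _).le)
        (pow_nonneg (kappa_pos n).le _)
    have hgam : γ * n * ε ≤ e / 2 * n := by
      have h := mul_le_mul (min_le_right γ₁ (e / 2 / δ₀)) hε hε0 (by positivity)
      rw [div_mul_cancel₀ _ hδ₀.ne'] at h
      nlinarith [mul_le_mul_of_nonneg_right h (Nat.cast_nonneg (α := ℝ) n)]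
    calc Real.exp (γ * n * ε) * (kappa n * ballVol n) * k ^ (n - 1)
        ≤ Real.exp (e / 2 * n) * (kappa n * Real.exp ((n : ℝ) / 2)) * k ^ (n - 1) := by
          have := ballVol_pos n
          have := kappa_pos n
          gcongr
      _ = _ := by rw [Real.exp_add]; ring

/-- Petty's inequality for all convex bodies in high dimension. -/
theorem pettyHighDim (hFP : FramePetty) : PettyHighDim := by
  obtain ⟨γ, δ₀, hγ, hδ₀, n₀, hpoly⟩ := polytope_petty hFP
  refine ⟨n₀ + 2, fun n hn K hK hKc hi => ?_⟩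
  rw [projectionBody_eq hK, pettyConst_eq (by omega), vol, vol]
  refine body_of_polytope (D := kappa n * ballVol n)
    (mul_pos (kappa_pos n) (ballVol_pos n)).le (fun M v hv hb => ?_) hK hKc hi
  have h := hpoly n M v (by omega) hv hb 0 le_rfl hδ₀.le fun T hT => by
    obtain ⟨T', s, δ, c, u, hT', hsum, hsδ, hFT, hmin, -⟩ := polytope_frame (by omega) v hv hb
    refine le_trans ?_ (hmin T hT)
    rw [hsδ]
    exact mul_le_mul_of_nonneg_right (by linarith [hFT.2.1])
      (Real.rpow_nonneg (mul_nonneg (kappa_pos n).le (by positivity)) _)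
  simpa using h

/-- The margin away from ellipsoids. -/
theorem pettyStability (hFP : FramePetty) : PettyStability := by
  obtain ⟨γ, δ₀, hγ, hδ₀, n₀, hpoly⟩ := polytope_petty hFP
  set a := min (1 / 2) δ₀ with ha
  have ha0 : 0 < a := lt_min (by norm_num) hδ₀
  refine ⟨γ * a, mul_pos hγ ha0, n₀ + 2, fun n hn ε hε hε1 K hK hKc hi hfar => ?_⟩
  rw [projectionBody_eq hK, pettyConst_eq (by omega), vol, vol]
  obtain ⟨x₀, hx₀⟩ := hi
  set K' := (fun y => x₀ + y) ⁻¹' K with hK'
  have himg : (fun y => x₀ + y) '' K' = K := Set.image_preimage_eq K (add_left_surjective x₀)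
  have hK'c : IsCompact K' := (Homeomorph.addLeft x₀).isCompact_preimage.2 hK
  have hK'x : Convex ℝ K' := by simpa [hK', add_comm] using hKc.translate_preimage_left x₀
  have h0 : (0 : E n) ∈ interior K' := by
    have h : interior K' = (fun y => x₀ + y) ⁻¹' interior K :=
      ((Homeomorph.addLeft x₀).preimage_interior K).symm
    rw [h]; simpa using hx₀
  have hvolK : (volume K').toReal = (volume K).toReal := by rw [hK', measure_preimage_add]
  set k := (volume K).toReal with hkdef
  have hkpos : 0 < k := ENNReal.toReal_pos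
    (Measure.measure_pos_of_nonempty_interior volume ⟨x₀, hx₀⟩).ne' hK.measure_lt_top.ne
  set r₀ := (kappa n * k ^ (n - 1)) ^ ((n : ℝ)⁻¹) with hr₀def
  have hA : 0 < kappa n * k ^ (n - 1) := mul_pos (kappa_pos n) (pow_pos hkpos _)
  have hr₀ : 0 < r₀ := Real.rpow_pos_of_pos hA _
  have hn0 : (0 : ℝ) < n := by exact_mod_cast (show 0 < n by omega)
  have hsurf : SurfaceAtLeast K' ((1 + ε) * (n * r₀)) := by
    intro T hT t ht
    have hadd : toEuclideanLin T '' K + Metric.closedBall (0 : E n) t =
        (fun z => toEuclideanLin T x₀ + z) '' (toEuclideanLin T '' K' + Metric.closedBall 0 t) := by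
      rw [← himg, Set.image_image]
      simp only [map_add]
      rw [← Set.image_image (fun z => toEuclideanLin T x₀ + z) (fun z => toEuclideanLin T z) K']
      simp only [← singleton_add, add_assoc]
    have h := hfar _ (by rw [det_toEuclideanLin]; exact hT) t ht
    rw [thickened, vol, vol, ballSurface, vol, hadd, Set.image_add_left, measure_preimage_add] at h
    rwa [hvolK]
  have hT1 := surface_transfer (by omega : 2 ≤ n) hK'c h0
    (S₁ := (1 + ε / 2) * (n * r₀)) (by positivity)
    (mul_lt_mul_of_pos_right (by linarith) (by positivity)) hsurf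
  set ε' := min (ε / 2) δ₀
  have key : ∀ᶠ δ in 𝓝[>] (0 : ℝ), Real.exp (γ * n * ε') * (kappa n * ballVol n) *
      (k * ((1 + δ) ^ n)⁻¹) ^ (n - 1) ≤ (volume (projBody K')).toReal := by
    filter_upwards [hT1, self_mem_nhdsWithin] with δ hδT hδ0
    replace hδ0 : 0 < δ := hδ0
    obtain ⟨M₁, v, hv, -, hKv, hvK⟩ := exists_polytope (N := 1) hK'c hK'x h0 (fun _ => ⊤)
      (fun _ => K') (iInter_const _).symm (fun _ => hK'c.isClosed) (fun _ => hK'x)
      (fun _ x hx y hy => by
        rw [Submodule.top_orthogonal_eq_bot, Submodule.mem_bot] at hy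
        simpa [hy] using hx) hδ0
    set c := 1 + δ
    have hc : 0 < c := by positivity
    set w := fun i => c • v i with hw
    have hsubK : Poly w (fun _ => 1) ⊆ K' := by
      intro x hx
      have hcx : c • x ∈ Poly v fun _ => 1 := fun i => by
        have := hx i
        rwa [hw, real_inner_smul_left, ← real_inner_smul_right] at this
      exact (smul_mem_smul_set_iff₀ hc.ne' K' x).1 (hvK hcx)
    have hKsub : K' ⊆ c • Poly w fun _ => 1 := by
      intro x hx
      refine ⟨c⁻¹ • x, fun i => ?_, smul_inv_smul₀ hc.ne' x⟩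
      rw [hw, real_inner_smul_left, real_inner_smul_right, ← mul_assoc, mul_inv_cancel₀ hc.ne',
        one_mul]
      exact hKv x hx i
    have hwinj : Function.Injective w := fun a b h => hv (smul_right_injective (E n) hc.ne' h)
    have hb : Bornology.IsBounded (Poly w fun _ => 1) := hK'c.isBounded.subset hsubK
    have hPk : (volume (Poly w fun _ => 1)).toReal ≤ k :=
      hvolK ▸ ENNReal.toReal_mono hK'c.measure_lt_top.ne (measure_mono hsubK)
    have hw0 : refRadius w ≤ r₀ := by
      refine Real.rpow_le_rpow (mul_nonneg (kappa_pos n).le (by positivity)) ?_ (by positivity)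
      exact mul_le_mul_of_nonneg_left (pow_le_pow_left₀ ENNReal.toReal_nonneg hPk _) (kappa_pos n).le
    have h := hpoly n M₁ w (by omega) hwinj hb ε' (le_min (by linarith) hδ₀.le) (min_le_right _ _)
      fun T hT => by
        refine le_trans ?_ (hδT M₁ w hwinj hsubK hKsub T hT)
        rw [le_div_iff₀ hn0]
        calc (1 + ε') * refRadius w * n ≤ (1 + ε / 2) * r₀ * n := by
              gcongr
              · exact Real.rpow_nonneg (mul_nonneg (kappa_pos n).le (by positivity)) _
              · exact min_le_left _ _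
          _ = _ := by ring
    have hlow : k * (c ^ n)⁻¹ ≤ (volume (Poly w fun _ => 1)).toReal := by
      have h2 := ENNReal.toReal_mono (hb.smul₀ c).measure_lt_top.ne (measure_mono (μ := volume) hKsub)
      rw [Measure.addHaar_smul_of_nonneg _ hc.le, ENNReal.toReal_mul, finrank_euclideanSpace_fin,
        ENNReal.toReal_ofReal (by positivity), hvolK] at h2
      rwa [mul_inv_le_iff₀ (by positivity), mul_comm]
    refine le_trans ?_ (h.trans (ENNReal.toReal_mono (isBounded_projBody K').measure_lt_top.ne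
      (measure_mono (projBody_mono hK'c hsubK))))
    have := ballVol_pos n
    have := kappa_pos n
    gcongr
  have hlim : Real.exp (γ * n * ε') * (kappa n * ballVol n) * k ^ (n - 1) ≤
      (volume (projBody K')).toReal := by
    refine le_of_tendsto (x := 𝓝[>] (0 : ℝ)) ?_ key
    have hcont : ContinuousAt (fun δ : ℝ => Real.exp (γ * n * ε') * (kappa n * ballVol n) *
        (k * ((1 + δ) ^ n)⁻¹) ^ (n - 1)) 0 :=
      continuousAt_const.mul
        ((continuousAt_const.mul (ContinuousAt.inv₀ (by fun_prop) (by simp))).pow _)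
    simpa using hcont.tendsto.mono_left nhdsWithin_le_nhds
  rw [← himg, projBody_vadd]
  refine le_trans ?_ hlim
  have hae : a * ε ≤ ε' := by
    refine le_min ?_ ?_
    · nlinarith [min_le_left (1 / 2 : ℝ) δ₀]
    · nlinarith [min_le_right (1 / 2 : ℝ) δ₀]
  have := ballVol_pos n
  have := kappa_pos n
  rw [show γ * a * ε * n = γ * n * (a * ε) by ring]
  gcongr

end Vale.Agent.P237.Sharp
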