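import Vale.Agent.P237.Sharp.Avg

/-!
P237: the exact step inequality of the tilted chain, compared with the same step for the ball.
-/

noncomputable section

open MeasureTheory Set
open scoped RealInnerProductSpace

namespace Vale.Agent.P237.Sharp

open Asymp

namespace StepAux

variable {n N : ℕ} {c : Fin N → ℝ} {u : Fin N → E n}

lemma vol_pos (hF : Frame c u) {es : List (E n)} (h : Ortho es) (hlen : es.length ≤ n) :
    0 < ZE.vol c u es := by
  cases n with
  | zero => exact one_pos.trans_le (ZE.one_le_vol h (by omega))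
  | succ k =>
    exact (Real.exp_pos _).trans_le (ZE.exp_G_le hF (k + 1 - es.length) es h (by omega))

lemma vol_nil (c : Fin N → ℝ) (u : Fin N → E n) : ZE.vol c u [] = zonoVol c u := by
  unfold ZE.vol zonoVol
  congr 2
  ext x
  constructor
  · rintro ⟨l, hl, rfl⟩
    exact ⟨fun i => l (Sum.inl i), fun i _ => hl _ (mem_univ _),
      by simp [ZE.segs, Fintype.sum_sum_type, perp_nil]⟩
  · rintro ⟨l, hl, rfl⟩
    refine ⟨Sum.elim l (fun _ => 0), fun i _ => ?_,
      by simp [ZE.segs, Fintype.sum_sum_type, perp_nil]⟩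
    cases i with
    | inl i => exact hl i (mem_univ _)
    | inr i => exact i.elim0

/-- The ratio of consecutive volumes of the ball, at scale one. -/
def ratio (n m : ℕ) : ℝ :=
  kappa (n - 1) / kappa n * (kappa m / kappa (m - 1)) * √((m : ℝ) / n)

/-- The volume of the ball in the state of dimension `m`. -/
def ballState (n m : ℕ) : ℝ := kappa m * (kappa (n - 1) / kappa n) ^ m

lemma ratio_pos {n m : ℕ} (hn : 0 < n) (hm : 0 < m) : 0 < ratio n m := by
  have := kappa_pos n
  have := kappa_pos (n - 1)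
  have := kappa_pos m
  have := kappa_pos (m - 1)
  have : 0 < (m : ℝ) := by exact_mod_cast hm
  have : 0 < (n : ℝ) := by exact_mod_cast hn
  unfold ratio
  positivity

lemma log_ballState {n m : ℕ} (hn : 0 < n) :
    Real.log (ballState n (m + 1)) = Real.log (ballState n m) + Real.log (ratio n (m + 1)) -
      1 / 2 * Real.log (((m + 1 : ℕ) : ℝ) / n) := by
  have h0 : 0 < kappa (n - 1) / kappa n := div_pos (kappa_pos _) (kappa_pos _)
  have hn' : 0 < (n : ℝ) := by exact_mod_cast hn
  have hx : 0 < ((m + 1 : ℕ) : ℝ) / n := by positivity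
  have := kappa_pos m
  have := kappa_pos (m + 1)
  rw [ratio, ballState, ballState, Nat.add_sub_cancel, Real.log_mul (by positivity) (by positivity),
    Real.log_mul (by positivity) (by positivity), Real.log_mul (by positivity) (by positivity),
    Real.log_mul (by positivity) (by positivity), Real.log_div (x := kappa (m + 1))
    (kappa_pos _).ne' (kappa_pos _).ne', Real.log_pow, Real.log_pow, Real.log_sqrt hx.le]
  push_cast
  ring

/-- One step of the chain: the exact loss, compared with the ball. -/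
lemma step_le (hF : Frame c u) {es : List (E n)} (h : Ortho es) {m : ℕ}
    (hlen : es.length + (m + 1) = n) :
    Real.log (ballState n (m + 1)) - Real.log (ZE.vol c u es) ≤
      ∑ i, tprob c u es i *
        (Real.log (ballState n m) - Real.log (ZE.vol c u (nxt es (u i)))) +
        (Real.log (ratio n (m + 1)) +
          (1 + 3 * winW (m + 1)) * ∑ i, c i / n * lstep (m + 1) (sval es (u i))) := by
  obtain ⟨k, rfl⟩ : ∃ k, n = k + 1 := ⟨n - 1, by omega⟩
  have hl : es.length < k + 1 := by omega
  have hm : k + 1 - es.length = m + 1 := by omega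
  have hDm : ((k + 1 : ℕ) : ℝ) - es.length = ((m + 1 : ℕ) : ℝ) := by
    rw [← hm, Nat.cast_sub hl.le]
  have hD : (0 : ℝ) < ((k + 1 : ℕ) : ℝ) - es.length := by rw [hDm]; positivity
  set x := (((k + 1 : ℕ) : ℝ) - es.length) / (k + 1 : ℕ) with hx
  have hx0 : 0 < x := div_pos hD (by positivity)
  set T := tnorm c u es with hTdef
  have hT : 0 < T := tnorm_pos hF h hl
  set s := fun i => sval es (u i) with hs
  set g := fun i => tilt (m + 1) (s i) with hg
  set P := prob c u es with hP
  have hp : ∀ i, tprob c u es i = P i * g i / T := fun i => by simp [tprob, hm, g, s, P, T]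
  have hTg : T = ∑ i, P i * g i := by simp [T, tnorm, hm, g, s, P]
  have hsx : ∀ i, s i * √x = ‖perp es (u i)‖ := fun i => by
    simp only [hs, sval, ← hx]; exact div_mul_cancel₀ _ (Real.sqrt_pos.2 hx0).ne'
  have hPs : ∀ i, P i = c i / (k + 1 : ℕ) * s i ^ 2 := fun i => by
    simp only [hP, prob, hs, sval, ← hx, div_pow, Real.sq_sqrt hx0.le]
    rw [hx]; field_simp
  set z := fun i => Real.log (ZE.vol c u (nxt es (u i))) - Real.log (s i * g i) with hz
  -- the shadows
  set e : Fin N → E (k + 1) := fun j => ‖perp es (u j)‖⁻¹ • perp es (u j) with he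
  have hsw := ZE.sum_shadow_le (ZE.segs c u es) (Sum.elim e es.get)
    (Sum.elim (fun j => c j * ‖perp es (u j)‖) (fun _ => 1)) (fun i => by
      cases i with
      | inl j =>
        intro hne
        have hp : ‖perp es (u j)‖ ≠ 0 := fun h0 => hne (by simp [h0])
        show ‖‖perp es (u j)‖⁻¹ • perp es (u j)‖ = 1
        rw [norm_smul, norm_inv, norm_norm, inv_mul_cancel₀ hp]
      | inr j => intro _; exact h.2 _ (List.get_mem es j))
    (fun i => by
      cases i with
      | inl j => exact mul_nonneg (hF.1 j) (norm_nonneg _)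
      | inr j => exact zero_le_one)
    (fun i => by
      cases i with
      | inl j =>
        show c j • perp es (u j) = _ • (‖perp es (u j)‖⁻¹ • perp es (u j))
        by_cases hp : perp es (u j) = 0
        · simp [hp]
        · simp only [Sum.elim_inl]
          rw [smul_smul, mul_assoc, mul_inv_cancel₀ (norm_ne_zero_iff.2 hp), mul_one]
      | inr j => exact (one_smul ℝ _).symm)
  rw [Fintype.sum_sum_type] at hsw
  simp only [Sum.elim_inl, Sum.elim_inr, one_mul] at hsw
  have hold : (es.length : ℝ) * ZE.vol c u es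
      ≤ ∑ j, (volume (ZE.shadowBox (es.get j) (zono (ZE.segs c u es)))).toReal := by
    have := Finset.card_nsmul_le_sum (Finset.univ : Finset (Fin es.length))
      (fun j => (volume (ZE.shadowBox (es.get j) (zono (ZE.segs c u es)))).toReal)
      (ZE.vol c u es) fun j _ => ENNReal.toReal_mono
        (ZE.isCompact_shadowBox _ (ZE.isCompact_zonoG _)).measure_ne_top
        (measure_mono (ZE.subset_shadow_old h j))
    simpa [nsmul_eq_mul] using this
  have hnew : ∀ j, T / √x * (tprob c u es j * Real.exp (z j)) ≤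
      (((k + 1 : ℕ) : ℝ) - es.length)⁻¹ *
        (c j * ‖perp es (u j)‖ * (volume (ZE.shadowBox (e j) (zono (ZE.segs c u es)))).toReal) := by
    intro j
    by_cases hxj : perp es (u j) = 0
    · simp [tprob_eq_zero hxj, hxj]
    have hy : 0 < ‖perp es (u j)‖ := norm_pos_iff.2 hxj
    have hsj : 0 < s j := div_pos hy (Real.sqrt_pos.2 hx0)
    have hgj : 0 < g j := tilt_pos (Nat.succ_pos m) _
    have hV := vol_pos hF (h.nxt hxj) (by rw [length_nxt]; omega)
    have h2 := mul_le_mul_of_nonneg_left (ENNReal.toReal_mono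
      (ZE.isCompact_shadowBox _ (ZE.isCompact_zonoG _)).measure_ne_top
      (measure_mono (μ := volume) (ZE.nxt_subset_shadow (c := c) (u := u) h hxj)))
      (mul_nonneg (inv_nonneg.2 hD.le) (mul_nonneg (hF.1 j) hy.le))
    refine le_trans (le_of_eq ?_) (h2.trans (le_of_eq ?_))
    · simp only [hz]
      rw [hp, Real.exp_sub, Real.exp_log hV, Real.exp_log (mul_pos hsj hgj)]
      have : 0 < √x := Real.sqrt_pos.2 hx0
      simp only [hP, prob, ← hsx j, ZE.vol]
      field_simp
    · ring
  have hjen := convexOn_exp.map_sum_le (t := Finset.univ) (p := z)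
    (fun j _ => tprob_nonneg hF h hl j) (sum_tprob hF h hl) (fun j _ => mem_univ _)
  simp only [smul_eq_mul] at hjen
  have hkey : T / √x * Real.exp (∑ j, tprob c u es j * z j) ≤ ZE.vol c u es := by
    refine (mul_le_mul_of_nonneg_left hjen (by positivity)).trans ?_
    rw [Finset.mul_sum]
    refine (Finset.sum_le_sum fun j _ => hnew j).trans ?_
    rw [← Finset.mul_sum, inv_mul_le_iff₀ hD, sub_mul]
    simp only [ZE.vol] at hold ⊢
    linarith
  have hlog := Real.log_le_log (mul_pos (div_pos hT (Real.sqrt_pos.2 hx0)) (Real.exp_pos _)) hkey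
  rw [Real.log_mul (by positivity) (Real.exp_pos _).ne', Real.log_exp,
    Real.log_div hT.ne' (Real.sqrt_pos.2 hx0).ne', Real.log_sqrt hx0.le] at hlog
  -- the sums
  set X := ∑ i, P i * g i * Real.log (s i * g i) with hX
  have hz' : ∑ j, tprob c u es j * z j =
      ∑ j, tprob c u es j * Real.log (ZE.vol c u (nxt es (u j))) - X / T := by
    simp only [hz, mul_sub, Finset.sum_sub_distrib, hX, Finset.sum_div, hp, mul_div_right_comm]
  have hS : ∑ i, c i / (k + 1 : ℕ) * lstep (m + 1) (s i) = X - T + 1 := by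
    have hw : ∑ i, c i / (k + 1 : ℕ) = (1 : ℝ) := by
      rw [← Finset.sum_div, hF.sum_weight, div_self (by positivity)]
    have hPsum : ∑ i, P i = 1 := sum_prob hF h hl
    calc ∑ i, c i / (k + 1 : ℕ) * lstep (m + 1) (s i)
        = ∑ i, (P i * g i * Real.log (s i * g i) - P i * g i +
            (P i / 2 + c i / (k + 1 : ℕ) / 2)) := Finset.sum_congr rfl fun i _ => by
          rw [lstep, hPs i]; simp only [hg]; ring
      _ = X - T + 1 := by
          rw [Finset.sum_add_distrib, Finset.sum_sub_distrib, Finset.sum_add_distrib,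
            ← Finset.sum_div _ P, ← Finset.sum_div _ (fun i => c i / ((k + 1 : ℕ) : ℝ)), hPsum,
            hw, ← hTg, ← hX]
          ring
  have hS0 : 0 ≤ X - T + 1 := hS ▸ Finset.sum_nonneg fun i _ =>
    mul_nonneg (div_nonneg (hF.1 i) (Nat.cast_nonneg _)) (lstep_nonneg _ (sval_nonneg _ _))
  have hTlow : 1 ≤ (1 + 3 * winW (m + 1)) * T := by
    have h1 := (abs_le.1 (abs_tnorm_sub_one_le hF h hl)).1
    rw [hm] at h1
    nlinarith [winW_nonneg (m + 1), winW_le (m + 1)]
  have hmain : -Real.log T + X / T ≤ (1 + 3 * winW (m + 1)) * (X - T + 1) := by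
    have h1 := Real.one_sub_inv_le_log_of_pos hT
    have h2 : (X - T + 1) / T ≤ (1 + 3 * winW (m + 1)) * (X - T + 1) := by
      rw [div_le_iff₀ hT]; nlinarith [mul_le_mul_of_nonneg_left hTlow hS0]
    have h3 : (X - T + 1) / T = X / T - 1 + T⁻¹ := by field_simp
    linarith
  rw [log_ballState (Nat.succ_pos k), ← hDm, ← hx, hS]
  have hb : ∑ i, tprob c u es i * (Real.log (ballState (k + 1) m) -
      Real.log (ZE.vol c u (nxt es (u i)))) = Real.log (ballState (k + 1) m) -
      ∑ i, tprob c u es i * Real.log (ZE.vol c u (nxt es (u i))) := by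
    simp only [mul_sub, Finset.sum_sub_distrib, ← Finset.sum_mul, sum_tprob hF h hl, one_mul]
  rw [hb]
  linarith [hlog, hz', hmain]

/-- The loss of one step, with the term of the ball. -/
def stepTerm (c : Fin N → ℝ) (u : Fin N → E n) (m : ℕ) (es : List (E n)) : ℝ :=
  Real.log (ratio n m) + (1 + 3 * winW m) * ∑ i, c i / n * lstep m (sval es (u i))

lemma unroll (hF : Frame c u) (m₀ r : ℕ) {es : List (E n)} (h : Ortho es)
    (hlen : es.length + (m₀ + r) = n) :
    Real.log (ballState n (m₀ + r)) - Real.log (ZE.vol c u es) ≤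
      tchain c u r es (fun fs => Real.log (ballState n m₀) - Real.log (ZE.vol c u fs)) +
        ∑ m ∈ Finset.Ioc m₀ (m₀ + r), tchain c u (m₀ + r - m) es (stepTerm c u m) := by
  induction r generalizing es with
  | zero => simp [tchain]
  | succ r ih =>
    have hl : es.length < n := by omega
    refine (step_le hF h (m := m₀ + r) hlen).trans ?_
    rw [show m₀ + (r + 1) = m₀ + r + 1 from rfl, Finset.sum_Ioc_succ_top (by omega), Nat.sub_self]
    simp only [tchain]
    have h1 : ∑ m ∈ Finset.Ioc m₀ (m₀ + r), tchain c u (m₀ + r + 1 - m) es (stepTerm c u m) =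
        ∑ i, tprob c u es i *
          ∑ m ∈ Finset.Ioc m₀ (m₀ + r), tchain c u (m₀ + r - m) (nxt es (u i)) (stepTerm c u m) := by
      simp only [Finset.mul_sum]
      rw [Finset.sum_comm]
      refine Finset.sum_congr rfl fun m hm => ?_
      rw [show m₀ + r + 1 - m = (m₀ + r - m) + 1 by simp only [Finset.mem_Ioc] at hm; omega]
      rfl
    have h2 : ∑ i, tprob c u es i *
        (Real.log (ballState n (m₀ + r)) - Real.log (ZE.vol c u (nxt es (u i)))) ≤
        ∑ i, (tprob c u es i * tchain c u r (nxt es (u i))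
          (fun fs => Real.log (ballState n m₀) - Real.log (ZE.vol c u fs)) +
        tprob c u es i * ∑ m ∈ Finset.Ioc m₀ (m₀ + r),
          tchain c u (m₀ + r - m) (nxt es (u i)) (stepTerm c u m)) := by
      refine Finset.sum_le_sum fun i _ => ?_
      by_cases hx : perp es (u i) = 0
      · simp [tprob_eq_zero hx]
      · rw [← mul_add]
        exact mul_le_mul_of_nonneg_left (ih (h.nxt hx) (by rw [length_nxt]; omega))
          (tprob_nonneg hF h hl i)
    rw [Finset.sum_add_distrib] at h2
    rw [h1]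
    simp only [stepTerm]
    linarith

lemma dirInt_of_continuous {f : E n → ℝ} (hf : Continuous f) : DirInt f := by
  obtain ⟨B, hB⟩ := (isCompact_closedBall (0 : E n) 1).exists_bound_of_continuousOn hf.continuousOn
  exact .of_bounded hf.measurable fun v hv => hB v (mem_closedBall_zero_iff.2 hv)

lemma sphAvg_congr {f g : E n → ℝ} (hf : DirInt f) (hg : DirInt g) (hn : 1 ≤ n)
    (h : ∀ v, ‖v‖ = 1 → f v = g v) : sphAvg f = sphAvg g :=
  le_antisymm (sphAvg_mono hf hg hn fun v hv => (h v hv).le)
    (sphAvg_mono hg hf hn fun v hv => (h v hv).ge)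

lemma ae_ne_zero {m : ℕ} (hm : 1 ≤ m) :
    ∀ᵐ x ∂(volume.restrict (Metric.closedBall (0 : E m) 1)), x ≠ 0 := by
  have : Nonempty (Fin m) := ⟨⟨0, hm⟩⟩
  exact ae_restrict_of_ae (by simp [ae_iff])

/-- The mean length of a projection of a uniform direction. -/
lemma sphAvg_norm_perp (hM : SphereMoments) {es : List (E n)} (h : Ortho es) {m : ℕ}
    (hm : 2 ≤ m) (hlen : es.length + m = n) :
    sphAvg (fun θ => ‖perp es θ‖) = meanAbs n / meanAbs m := by
  have hcard : Module.finrank ℝ (E n) = Fintype.card (Fin es.length ⊕ Fin m) := by simp [hlen]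
  obtain ⟨b, hb⟩ := Orthonormal.exists_orthonormalBasis_extension_of_card_eq hcard
    (v := Sum.elim es.get fun _ => 0) (s := Set.range Sum.inl) (by
      refine ⟨?_, ?_⟩
      · rintro ⟨_, i, rfl⟩; exact h.2 _ (List.get_mem es i)
      · rintro ⟨_, i, rfl⟩ ⟨_, j, rfl⟩ hij
        exact ZE.inner_get h fun he => hij (by subst he; rfl))
  set v : Fin m → E n := fun j => b (Sum.inr j) with hv
  set A : E n → E m := fun θ => WithLp.toLp 2 fun j => ⟪v j, θ⟫ with hA
  have hnA : ∀ θ, ‖A θ‖ = ‖perp es θ‖ := fun θ => by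
    refine (sq_eq_sq₀ (norm_nonneg _) (norm_nonneg _)).1 ?_
    rw [h.norm_perp_sq, EuclideanSpace.real_norm_sq_eq]
    have h1 : ‖θ‖ ^ 2 = ∑ i, ⟪b i, θ⟫ ^ 2 := by
      rw [← b.sum_sq_norm_inner_right θ]; simp [Real.norm_eq_abs]
    have h2 : (es.map fun e => ⟪e, θ⟫ ^ 2).sum =
        ∑ i : Fin es.length, ⟪b (Sum.inl i), θ⟫ ^ 2 := by
      conv_lhs => rw [← List.ofFn_get es, List.map_ofFn, List.sum_ofFn]
      exact Finset.sum_congr rfl fun i _ => by
        rw [hb _ ⟨i, rfl⟩]; rfl
    rw [h1, h2, Fintype.sum_sum_type]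
    simp [A, v]
  set J : E m → E n := fun z => ∑ j, z j • v j with hJ
  have hJA : ∀ z θ, ⟪J z, θ⟫ = ⟪z, A θ⟫ := fun z θ => by
    simp only [J, sum_inner, real_inner_smul_left]
    conv_rhs => rw [PiLp.inner_apply]
    simp [A, mul_comm]
  have hJn : ∀ z, ‖J z‖ = ‖z‖ := fun z => by
    have hon : Orthonormal ℝ v := b.orthonormal.comp _ Sum.inr_injective
    refine (sq_eq_sq₀ (norm_nonneg _) (norm_nonneg _)).1 ?_
    rw [← real_inner_self_eq_norm_sq, hon.inner_sum, EuclideanSpace.real_norm_sq_eq]
    exact Finset.sum_congr rfl fun j _ => by simp [sq]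
  have hn2 : 2 ≤ n := by omega
  have hma : 0 < meanAbs m := by
    have := kappa_pos m
    have := kappa_pos (m - 1)
    have : 0 < (m : ℝ) := by exact_mod_cast (show 0 < m by omega)
    unfold meanAbs; positivity
  have hinner : ∀ w : E m, sphAvg (fun z => |⟪z, w⟫|) = ‖w‖ * meanAbs m := fun w => by
    by_cases hw : w = 0
    · simp [hw, sphAvg]
    · have h1 := (hM m (‖w‖⁻¹ • w) hm (norm_smul_inv_norm hw)).2.2.2.1
      simp only [real_inner_smul_left, abs_mul, abs_inv, abs_norm, sphAvg_const_mul] at h1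
      rw [← h1, ← mul_assoc, mul_inv_cancel₀ (norm_ne_zero_iff.2 hw), one_mul]
      exact congrArg sphAvg (funext fun z => by rw [real_inner_comm])
  set μn := volume.restrict (Metric.closedBall (0 : E n) 1) with hμn
  set μm := volume.restrict (Metric.closedBall (0 : E m) 1) with hμm
  have : IsFiniteMeasure μn := isFiniteMeasure_restrict.2 measure_closedBall_lt_top.ne
  have : IsFiniteMeasure μm := isFiniteMeasure_restrict.2 measure_closedBall_lt_top.ne
  set F : E n → E m → ℝ := fun x z => |⟪J (dir z), dir x⟫| with hFdef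
  have hFi : Integrable (Function.uncurry F) (μn.prod μm) := by
    refine Integrable.mono' (g := fun _ => 1) (integrable_const 1) ?_ (ae_of_all _ fun p => ?_)
    · refine Measurable.aestronglyMeasurable ?_
      have h1 : Measurable J := by simp only [hJ]; fun_prop
      simp only [hFdef]
      exact (continuous_abs.measurable).comp
        ((h1.comp (measurable_dir.comp measurable_snd)).inner (measurable_dir.comp measurable_fst))
    · rw [Real.norm_eq_abs, Function.uncurry, abs_abs]
      refine (abs_real_inner_le_norm _ _).trans ?_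
      rw [hJn]
      exact mul_le_one₀ (norm_dir_le _) (norm_nonneg _) (norm_dir_le _)
  have hswap := integral_integral_swap hFi
  have hL : (∫ x, ∫ z, F x z ∂μm ∂μn) =
      kappa m * meanAbs m * (kappa n * sphAvg fun θ => ‖perp es θ‖) := by
    have h1 : ∀ x, (∫ z, F x z ∂μm) = kappa m * meanAbs m * ‖perp es (dir x)‖ := fun x => by
      have := hinner (A (dir x))
      rw [sphAvg, inv_mul_eq_iff_eq_mul₀ (kappa_pos m).ne', hnA] at this
      simp only [hFdef, hJA]
      rw [hμm, this]; ring
    simp only [h1, integral_const_mul]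
    rw [sphAvg, mul_inv_cancel_left₀ (kappa_pos n).ne']
  have hR : (∫ z, ∫ x, F x z ∂μn ∂μm) = kappa m * (kappa n * meanAbs n) := by
    have h1 : (fun z => ∫ x, F x z ∂μn) =ᵐ[μm] fun _ => kappa n * meanAbs n := by
      filter_upwards [ae_ne_zero (show 1 ≤ m by omega)] with z hz
      have := (hM n (J (dir z)) hn2 (by rw [hJn, norm_dir hz])).2.2.2.1
      rw [sphAvg, inv_mul_eq_iff_eq_mul₀ (kappa_pos n).ne'] at this
      exact this
    rw [integral_congr_ae h1, integral_const, smul_eq_mul, measureReal_restrict_apply_univ,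
      measureReal_def, volume_real_closedBall]
  rw [hL, hR] at hswap
  have h0 := kappa_pos m
  have h0' := kappa_pos n
  rw [eq_div_iff hma.ne']
  refine mul_left_cancel₀ (mul_pos h0 h0').ne' ?_
  linear_combination hswap

lemma sphAvg_sval_sq (hM : SphereMoments) {es : List (E n)} (h : Ortho es) {m : ℕ}
    (hm : 1 ≤ m) (hn : 2 ≤ n) (hlen : es.length + m = n) :
    sphAvg (fun θ => sval es θ ^ 2) = 1 := by
  have hsum : ∀ l : List (E n), (∀ e ∈ l, ‖e‖ = 1) →
      sphAvg (fun θ => (l.map fun e => ⟪e, θ⟫ ^ 2).sum) = (l.length : ℝ) / n ∧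
        Continuous fun θ => (l.map fun e => ⟪e, θ⟫ ^ 2).sum := by
    intro l
    induction l with
    | nil => exact fun _ => ⟨by simp [sphAvg], by simp [continuous_const]⟩
    | cons e l ih =>
      intro hl
      obtain ⟨h1, h2⟩ := ih fun f hf => hl f (List.mem_cons_of_mem _ hf)
      simp only [List.map_cons, List.sum_cons, List.length_cons, Nat.cast_add, Nat.cast_one]
      refine ⟨?_, by fun_prop⟩
      rw [sphAvg_add (dirInt_of_continuous (by fun_prop)) (dirInt_of_continuous h2), h1,
        (hM n e hn (hl e (List.mem_cons_self ..))).1]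
      ring
  obtain ⟨h1, h2⟩ := hsum es h.2
  set x := ((n : ℝ) - es.length) / n with hx
  have hn0 : (0 : ℝ) < n := by exact_mod_cast (show 0 < n by omega)
  have hx0 : 0 < x := div_pos (sub_pos.2 (by exact_mod_cast (show es.length < n by omega))) hn0
  rw [sphAvg_congr (f := fun θ => sval es θ ^ 2) (g := fun θ => x⁻¹ * (1 + (-1) * (es.map fun e => ⟪e, θ⟫ ^ 2).sum))
    (dirInt_of_continuous ((continuous_sval es).pow 2)) (dirInt_of_continuous (by fun_prop))
    (by omega) fun θ hθ => by rw [sval_sq (by omega), h.norm_perp_sq, hθ, ← hx]; ring,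
    sphAvg_const_mul, sphAvg_add (dirInt_of_continuous continuous_const)
    ((dirInt_of_continuous h2).const_mul _), sphAvg_const, sphAvg_const_mul, h1, hx]
  have : (n : ℝ) - es.length ≠ 0 := fun h0 => hx0.ne' (by rw [hx, h0, zero_div])
  field_simp
  ring

lemma sphAvg_sval (hM : SphereMoments) {es : List (E n)} (h : Ortho es) {m : ℕ}
    (hm : 2 ≤ m) (hlen : es.length + m = n) : sphAvg (sval es) = ratio n m := by
  have hx : ((n : ℝ) - es.length) / n = (m : ℝ) / n := by
    have : (es.length : ℝ) + m = n := by exact_mod_cast hlen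
    rw [show (n : ℝ) - es.length = m by linarith]
  have h1 : sval es = fun θ => (√((m : ℝ) / n))⁻¹ * ‖perp es θ‖ := funext fun θ => by
    rw [sval, hx, inv_mul_eq_div]
  rw [h1, sphAvg_const_mul, sphAvg_norm_perp hM h hm hlen, ratio, meanAbs, meanAbs]
  have hm0 : (0 : ℝ) < m := by exact_mod_cast (show 0 < m by omega)
  have hn0 : (0 : ℝ) < n := by exact_mod_cast (show 0 < n by omega)
  have := kappa_pos m
  have := kappa_pos n
  have := kappa_pos (m - 1)
  have := kappa_pos (n - 1)
  have hs : 0 < √((m : ℝ) / n) := Real.sqrt_pos.2 (by positivity)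
  field_simp
  rw [Real.sq_sqrt (by positivity)]
  field_simp

lemma mul_entropy_le (m : ℕ) {s : ℝ} (hs : 0 ≤ s) (hm : 0 < m) :
    s * (s * tilt m s * Real.log (s * tilt m s) - s * tilt m s + 1) ≤
      9 * (s ^ 2 - 1) ^ 6 / winW m ^ 4 := by
  have hw := winW_pos hm
  set r := s * tilt m s with hr
  have hr0 : 0 ≤ r := mul_nonneg hs (tilt_pos hm s).le
  have hq : r * Real.log r - r + 1 ≤ (r - 1) ^ 2 := by
    rcases hr0.eq_or_lt with h | h
    · simp [← h]
    · nlinarith [mul_le_mul_of_nonneg_left (Real.log_le_sub_one_of_pos h) h.le]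
  rcases hs.eq_or_lt with rfl | hs0
  · rw [zero_mul]; positivity
  have hrr : r - 1 = (s - 1) * (1 - win m (s - 1)) := by
    rw [hr, tilt]; field_simp; ring
  have hw1 : 1 - win m (s - 1) ≤ 3 * ((s - 1) / winW m) ^ 2 := by
    rw [win]
    set q := ((s - 1) / winW m) ^ 2 with hq
    have hq0 : 0 ≤ q := sq_nonneg _
    rcases le_total q 1 with h1 | h1
    · rw [max_eq_right (by linarith)]
      nlinarith [mul_nonneg (mul_nonneg hq0 hq0) (by linarith : 0 ≤ 3 - q)]
    · nlinarith [pow_nonneg (le_max_left 0 (1 - q)) 3]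
  have h2 : (r - 1) ^ 2 ≤ 9 * (s - 1) ^ 6 / winW m ^ 4 := by
    rw [hrr, mul_pow]
    refine (mul_le_mul_of_nonneg_left (pow_le_pow_left₀ (sub_nonneg.2 (win_le_one _ _)) hw1 2)
      (sq_nonneg _)).trans_eq ?_
    field_simp
    ring
  refine (mul_le_mul_of_nonneg_left (hq.trans h2) hs).trans ?_
  rw [← mul_div_assoc]
  refine div_le_div_of_nonneg_right ?_ (by positivity)
  have h3 : s * (s - 1) ^ 6 ≤ (s + 1) ^ 6 * (s - 1) ^ 6 := by
    refine mul_le_mul_of_nonneg_right ?_ (by positivity)
    have : s + 1 ≤ (s + 1) ^ 6 := le_self_pow₀ (by linarith) (by norm_num)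
    linarith
  calc s * (9 * (s - 1) ^ 6) = 9 * (s * (s - 1) ^ 6) := by ring
    _ ≤ 9 * ((s + 1) ^ 6 * (s - 1) ^ 6) := by linarith
    _ = 9 * (s ^ 2 - 1) ^ 6 := by rw [← mul_pow]; ring

/-- The weight of a dimension. -/
def thirdRoot (m : ℕ) : ℝ := (m : ℝ) ^ (-(1 / 3) : ℝ)

lemma thirdRoot_pos {m : ℕ} (hm : 0 < m) : 0 < thirdRoot m :=
  Real.rpow_pos_of_pos (by exact_mod_cast hm) _

lemma thirdRoot_cube (m : ℕ) : thirdRoot m ^ 3 = ((m : ℝ))⁻¹ := by
  rw [thirdRoot, ← Real.rpow_natCast, ← Real.rpow_mul (Nat.cast_nonneg m),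
    show (-(1 / 3) : ℝ) * ((3 : ℕ) : ℝ) = -1 by norm_num, Real.rpow_neg_one]

lemma thirdRoot_le_one {m : ℕ} (hm : 0 < m) : thirdRoot m ≤ 1 :=
  Real.rpow_le_one_of_one_le_of_nonpos (by exact_mod_cast hm) (by norm_num)

lemma sum_thirdRoot_le {m₀ n : ℕ} (h₀ : 1 ≤ m₀) (hn : m₀ ≤ n) :
    ∑ m ∈ Finset.Ioc m₀ n, thirdRoot m ^ 4 ≤ 3 * thirdRoot m₀ - 3 * thirdRoot n := by
  induction n, hn using Nat.le_induction with
  | base => simp
  | succ n hn ih =>
    rw [Finset.sum_Ioc_succ_top hn]
    have hpn : 0 < n := by omega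
    set a := thirdRoot n with ha
    set b := thirdRoot (n + 1) with hb
    have hab : b ≤ a := Real.rpow_le_rpow_of_nonpos (by exact_mod_cast hpn)
      (by exact_mod_cast n.le_succ) (by norm_num)
    have hb0 : 0 < b := thirdRoot_pos n.succ_pos
    have ha0 : 0 < a := thirdRoot_pos hpn
    have he : (a - b) * (a ^ 2 + a * b + b ^ 2) = a ^ 3 * b ^ 3 := by
      have h3 : a ^ 3 - b ^ 3 = a ^ 3 * b ^ 3 := by
        rw [ha, hb, thirdRoot_cube, thirdRoot_cube]
        have : (0 : ℝ) < n := by exact_mod_cast hpn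
        push_cast; field_simp; ring
      linear_combination h3
    have h4 : a ^ 2 * (b ^ 4) ≤ a ^ 2 * (3 * (a - b)) := by
      have h5 : (a - b) * (a ^ 2 + a * b + b ^ 2) ≤ (a - b) * (3 * a ^ 2) :=
        mul_le_mul_of_nonneg_left (by nlinarith) (sub_nonneg.2 hab)
      nlinarith [mul_le_mul_of_nonneg_right hab (by positivity : 0 ≤ a ^ 2 * b ^ 3)]
    have := le_of_mul_le_mul_left h4 (by positivity)
    linarith

/-- The average of a function of a state along the chain. -/
lemma sphAvg_tchain (f : List (E n) → E n → ℝ) (hf : ∀ es, DirInt (f es)) (k : ℕ)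
    (es : List (E n)) :
    DirInt (fun v => tchain c u k es fun fs => f fs v) ∧
      sphAvg (fun v => tchain c u k es fun fs => f fs v) =
        tchain c u k es fun fs => sphAvg (f fs) := by
  induction k generalizing es with
  | zero => exact ⟨hf es, rfl⟩
  | succ k ih =>
    have hi : ∀ i, DirInt fun v => tprob c u es i * tchain c u k (nxt es (u i)) fun fs => f fs v :=
      fun i => (ih _).1.const_mul _
    refine ⟨integrable_finsetSum _ fun i _ => hi i, ?_⟩
    simp only [tchain]
    rw [sphAvg, integral_finsetSum _ (fun i _ => hi i), Finset.mul_sum]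
    refine Finset.sum_congr rfl fun i _ => ?_
    rw [integral_const_mul, ← (ih _).2, sphAvg]; ring

lemma dirInt_lstep (m : ℕ) (es : List (E n)) : DirInt fun v => lstep m (sval es v) := by
  obtain ⟨S, hS⟩ := (isCompact_closedBall (0 : E n) 1).exists_bound_of_continuousOn
    (continuous_sval es).continuousOn
  refine .of_bounded ((measurable_lstep m).comp (continuous_sval es).measurable)
    (B := S * ((S + 1) ^ 2 + 1) + (S + 1) ^ 2) fun v hv => ?_
  rw [abs_of_nonneg (lstep_nonneg m (sval_nonneg es v))]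
  exact lstep_le m (sval_nonneg es v)
    ((Real.le_norm_self _).trans (hS v (mem_closedBall_zero_iff.2 hv)))

/-- For the ball a step loses at most `m ^ (-4 / 3)`. -/
lemma ball_step_le (hM : SphereMoments) {C : ℝ} (hC : 0 < C) {es : List (E n)} (h : Ortho es)
    {m : ℕ} (hm : 2 ≤ m) (hlen : es.length + m = n)
    (hP2 : sphAvg (fun θ => (sval es θ ^ 2 - 1) ^ 2) ≤ C / ((n : ℝ) - es.length))
    (hP6 : sphAvg (fun θ => (sval es θ ^ 2 - 1) ^ 6) ≤ C / ((n : ℝ) - es.length) ^ 3) :
    Real.log (ratio n m) + (1 + 3 * winW m) * sphAvg (fun v => lstep m (sval es v)) ≤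
      24000 * C * thirdRoot m ^ 4 := by
  have hm0 : 0 < m := by omega
  have hn : 1 ≤ n := by omega
  have hD : (n : ℝ) - es.length = m := by
    have : (es.length : ℝ) + m = n := by exact_mod_cast hlen
    linarith
  rw [hD] at hP2 hP6
  set w := winW m with hw
  set t := thirdRoot m with ht
  have ht0 : 0 < t := thirdRoot_pos hm0
  have ht1 : t ≤ 1 := thirdRoot_le_one hm0
  have hw0 : 0 < w := winW_pos hm0
  have hwt : w ≤ t := winW_le_rpow m
  have hwlow : t / 6 ≤ w := le_min (by linarith) (show t / 6 ≤ t by linarith)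
  set A := 18 / w ^ 4 with hA
  have hpt : ∀ θ : E n, ‖θ‖ = 1 → (1 + 3 * w) * lstep m (sval es θ) ≤
      (A * (sval es θ ^ 2 - 1) ^ 6 + 3 / 2 * w * (sval es θ ^ 2 - 1) ^ 2) +
        1 / 2 * (sval es θ - 1) ^ 2 := by
    intro θ _
    set s := sval es θ
    have hs : 0 ≤ s := sval_nonneg es θ
    have h1 := mul_entropy_le m hs hm0
    have h2 : (s - 1) ^ 2 ≤ (s ^ 2 - 1) ^ 2 := by
      rw [show s ^ 2 - 1 = (s - 1) * (s + 1) by ring, mul_pow]
      exact le_mul_of_one_le_right (sq_nonneg _) (by nlinarith)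
    have h3 : (1 + 3 * w) * (s * (s * tilt m s * Real.log (s * tilt m s) - s * tilt m s + 1)) ≤
        A * (s ^ 2 - 1) ^ 6 := by
      refine (mul_le_mul (show 1 + 3 * w ≤ 2 by linarith [winW_le m]) h1 ?_ (by norm_num)).trans
        (le_of_eq ?_)
      · have := lstep_nonneg m hs
        refine mul_nonneg hs ?_
        have hr := mul_nonneg hs (tilt_pos hm0 s).le
        rcases hr.eq_or_lt with h | h
        · simp [← h]
        · have h5 := mul_le_mul_of_nonneg_left (Real.one_sub_inv_le_log_of_pos h) h.le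
          rw [mul_sub, mul_one, mul_inv_cancel₀ h.ne'] at h5
          linarith
      · simp only [hA, ← hw]; ring
    unfold lstep
    nlinarith [mul_le_mul_of_nonneg_left h2 hw0.le]
  have i6 : DirInt fun θ => (sval es θ ^ 2 - 1) ^ 6 :=
    dirInt_of_continuous (((continuous_sval es).pow 2).sub continuous_const |>.pow 6)
  have i2 : DirInt fun θ => (sval es θ ^ 2 - 1) ^ 2 :=
    dirInt_of_continuous (((continuous_sval es).pow 2).sub continuous_const |>.pow 2)
  have iq : DirInt fun θ => sval es θ ^ 2 := dirInt_of_continuous ((continuous_sval es).pow 2)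
  have is : DirInt fun θ => sval es θ := dirInt_of_continuous (continuous_sval es)
  have ie : DirInt fun θ => (sval es θ - 1) ^ 2 :=
    dirInt_of_continuous (((continuous_sval es).sub continuous_const).pow 2)
  have h1 := sphAvg_mono ((dirInt_lstep m es).const_mul (1 + 3 * w))
    (((i6.const_mul A).add (i2.const_mul (3 / 2 * w))).add (ie.const_mul (1 / 2))) hn hpt
  rw [sphAvg_const_mul, sphAvg_add ((i6.const_mul A).add (i2.const_mul _)) (ie.const_mul _),
    sphAvg_add (i6.const_mul A) (i2.const_mul _), sphAvg_const_mul, sphAvg_const_mul,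
    sphAvg_const_mul] at h1
  have he : sphAvg (fun θ => (sval es θ - 1) ^ 2) = 2 - 2 * ratio n m := by
    rw [sphAvg_congr (g := fun θ => sval es θ ^ 2 + ((-2) * sval es θ + 1)) ie
      (iq.add ((is.const_mul _).add (dirInt_of_continuous continuous_const))) hn
      (fun θ _ => by ring), sphAvg_add iq ((is.const_mul _).add
      (dirInt_of_continuous continuous_const)), sphAvg_add (is.const_mul _)
      (dirInt_of_continuous continuous_const), sphAvg_const_mul, sphAvg_const,
      sphAvg_sval_sq hM h (by omega) (by omega) hlen,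
      show sphAvg (fun θ => sval es θ) = ratio n m from sphAvg_sval hM h hm hlen]
    ring
  have hlog := Real.log_le_sub_one_of_pos (ratio_pos (n := n) (by omega) hm0)
  have hA0 : 0 ≤ A := by positivity
  have h6 : A * (C / (m : ℝ) ^ 3) ≤ 23328 * C * t ^ 4 := by
    have hA1 : A ≤ 18 * 1296 / t ^ 4 := by
      rw [hA, div_le_div_iff₀ (by positivity) (by positivity)]
      nlinarith [pow_le_pow_left₀ (by positivity) hwlow 4]
    have he : C / (m : ℝ) ^ 3 = C * t ^ 9 := by
      rw [show t ^ 9 = (t ^ 3) ^ 3 by ring, ht, thirdRoot_cube, inv_pow, div_eq_mul_inv]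
    rw [he]
    refine (mul_le_mul_of_nonneg_right hA1 (by positivity)).trans ?_
    rw [show 18 * 1296 / t ^ 4 * (C * t ^ 9) = 23328 * C * t ^ 5 by field_simp; ring]
    exact mul_le_mul_of_nonneg_left (pow_le_pow_of_le_one ht0.le ht1 (by norm_num)) (by positivity)
  have h2 : 3 / 2 * w * (C / m) ≤ 3 / 2 * C * t ^ 4 := by
    have he : C / (m : ℝ) = C * t ^ 3 := by rw [ht, thirdRoot_cube, div_eq_mul_inv]
    rw [he, show t ^ 4 = t * t ^ 3 by ring]
    nlinarith [mul_le_mul_of_nonneg_right hwt (by positivity : 0 ≤ C * t ^ 3)]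
  have h7 := mul_le_mul_of_nonneg_left hP6 hA0
  have h8 := mul_le_mul_of_nonneg_left hP2 (show 0 ≤ 3 / 2 * w by positivity)
  rw [he] at h1
  nlinarith [mul_nonneg hC.le (pow_nonneg ht0.le 4)]

end StepAux

open StepAux in
/-- The exact step inequality of the tilted chain, compared with the ball. -/
theorem stepIneq (hP : ProjMoments) (hM : SphereMoments) : StepIneq := by
  obtain ⟨C, hC, hproj⟩ := hP
  refine ⟨72000 * C, by positivity, fun n N c u m₀ h₀ hn hF => ?_⟩
  have hn0 : 0 < n := by omega
  have hn' : (0 : ℝ) < n := by exact_mod_cast hn0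
  have h := unroll hF m₀ (n - m₀) (es := []) Ortho.nil (by simp; omega)
  rw [show m₀ + (n - m₀) = n by omega, vol_nil] at h
  have hball : ballVol n = ballState n n := by
    rw [ballVol, ballState, div_pow]
    have h1 := kappa_pos n
    field_simp
    rw [mul_assoc, ← pow_succ, Nat.sub_add_cancel hn0]
  have hbot : tchain c u (n - m₀) []
      (fun fs => Real.log (ballState n m₀) - Real.log (ZE.vol c u fs)) = bottomLoss c u m₀ := by
    rw [bottomLoss]
    have : (n : ℝ) / 2 * meanAbs n = kappa (n - 1) / kappa n := by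
      rw [meanAbs]; field_simp
    rw [this]; rfl
  rw [hbot, ← hball] at h
  set L := fun m v => tchain c u (n - m) [] fun es => lstep m (sval es v) with hL
  have hLI : ∀ m, DirInt (L m) ∧ sphAvg (L m) =
      tchain c u (n - m) [] fun es => sphAvg fun v => lstep m (sval es v) := fun m =>
    sphAvg_tchain (fun es v => lstep m (sval es v)) (dirInt_lstep m) _ _
  have hsum : ∑ m ∈ Finset.Ioc m₀ n, tchain c u (n - m) [] (stepTerm c u m) =
      ∑ m ∈ Finset.Ioc m₀ n, Real.log (ratio n m) +
        n * ∑ i, c i / n * lossFun c u m₀ (u i) := by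
    have h1 : ∀ m ∈ Finset.Ioc m₀ n, tchain c u (n - m) [] (stepTerm c u m) =
        Real.log (ratio n m) + (1 + 3 * winW m) * ∑ i, c i / n * L m (u i) := fun m hm => by
      rw [show stepTerm c u m = fun es => Real.log (ratio n m) +
          (1 + 3 * winW m) * ∑ i, c i / n * lstep m (sval es (u i)) from rfl, tchain_add,
        tchain_const hF (n - m) [] Ortho.nil (show ([] : List (E n)).length + (n - m) ≤ n by simp),
        tchain_const_mul, tchain_sum]
      simp only [hL, tchain_const_mul]
    rw [Finset.sum_congr rfl h1, Finset.sum_add_distrib]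
    congr 1
    simp only [lossFun, Finset.mul_sum]
    rw [Finset.sum_comm]
    refine Finset.sum_congr rfl fun i _ => Finset.sum_congr rfl fun m _ => ?_
    simp only [hL]; field_simp
  have havg : (n : ℝ) * sphAvg (lossFun c u m₀) =
      ∑ m ∈ Finset.Ioc m₀ n, (1 + 3 * winW m) * sphAvg (L m) := by
    have hi : ∀ m, DirInt fun v => (1 + 3 * winW m) * L m v := fun m => (hLI m).1.const_mul _
    unfold lossFun
    rw [sphAvg_const_mul, ← mul_assoc, mul_inv_cancel₀ hn'.ne', one_mul, sphAvg,
      integral_finsetSum _ (fun m _ => hi m), Finset.mul_sum]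
    refine Finset.sum_congr rfl fun m _ => ?_
    rw [integral_const_mul, sphAvg]; ring
  have hper : ∀ m ∈ Finset.Ioc m₀ n,
      Real.log (ratio n m) + (1 + 3 * winW m) * sphAvg (L m) ≤
        24000 * C * thirdRoot m ^ 4 := by
    intro m hm
    rw [Finset.mem_Ioc] at hm
    have hl : ([] : List (E n)).length + (n - m) ≤ n := by simp
    have h1 : tchain c u (n - m) [] (fun es => Real.log (ratio n m) +
        (1 + 3 * winW m) * sphAvg fun v => lstep m (sval es v)) ≤
        tchain c u (n - m) [] fun _ => 24000 * C * thirdRoot m ^ 4 := by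
      refine tchain_mono hF _ _ Ortho.nil hl fun fs ho hlen => ?_
      simp only [List.length_nil, zero_add] at hlen
      obtain ⟨h2, h6⟩ := hproj n fs ho (by omega)
      exact ball_step_le hM hC ho (by omega) (by omega) h2 h6
    rwa [tchain_add, tchain_const hF _ _ Ortho.nil hl, tchain_const hF _ _ Ortho.nil hl,
      tchain_const_mul, ← (hLI m).2] at h1
  have herr := (Finset.sum_le_sum hper).trans (le_of_eq (Finset.mul_sum _ _ _).symm)
  rw [Finset.sum_add_distrib, ← havg] at herr
  have hthird := mul_le_mul_of_nonneg_left (sum_thirdRoot_le h₀ hn)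
    (show 0 ≤ 24000 * C by positivity)
  have hpos := mul_nonneg (show 0 ≤ 24000 * C * 3 by positivity) (thirdRoot_pos hn0).le
  rw [hsum] at h
  change _ ≤ _ + 72000 * C * thirdRoot m₀ + _
  linarith

end Vale.Agent.P237.Sharp
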