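import Vale.Agent.P237.Sharp.Law
import Vale.Agent.P237.Sharp.Step
import Vale.Agent.P237.Sharp.Ellipsoid

/-!
P237: in a fixed dimension nothing is lost. The state contains a cube times the ball whose radius
is the least value of `normH` on the remaining space. That value is never exponentially small (test
with a cylinder), and it is rarely below `1 - η` (test with the zonoid of the minimisers).
-/

noncomputable section

open MeasureTheory Set Metric
open scoped RealInnerProductSpace Pointwise ENNReal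

namespace Vale.Agent.P237.Sharp.BottomAux

open Asymp

variable {n N : ℕ}

/-- The cylinder around the axis `e` of half-length `l` and radius one. -/
def cyl (e : E n) (l : ℝ) : Set (E n) :=
  {x | |⟪e, x⟫| ≤ l ∧ ‖x - ⟪e, x⟫ • e‖ ≤ 1}

lemma projArea_ball_zero {e : E n} (he : ‖e‖ = 1) {r : ℝ} (hr : 0 ≤ r) :
    projArea (closedBall (0 : E n) r) e = r ^ (n - 1) * kappa (n - 1) := by
  set W : Submodule ℝ (E n) := (ℝ ∙ e)ᗮ with hW
  have hfr : Module.finrank ℝ W = n - 1 := by
    have h1 := (ℝ ∙ e).finrank_add_finrank_orthogonal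
    rw [finrank_span_singleton (fun h : e = 0 => by simp [h] at he),
      finrank_euclideanSpace_fin, ← hW] at h1
    omega
  rw [← smul_unitClosedBall_of_nonneg hr, projArea, image_smul_set,
    Measure.addHaar_smul_of_nonneg volume hr, ENNReal.toReal_mul,
    ENNReal.toReal_ofReal (pow_nonneg hr _), hfr]
  congr 1
  exact projArea_closedBall 0 he

lemma cyl_props (hn : 1 ≤ n) {e : E n} (he : ‖e‖ = 1) {l : ℝ} (hl : 0 < l) :
    IsCompact (cyl e l) ∧ Convex ℝ (cyl e l) ∧ (0 : E n) ∈ cyl e l ∧
      (volume (cyl e l)).toReal = 2 * l * kappa (n - 1) := by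
  have hee : ⟪e, e⟫ = 1 := by rw [real_inner_self_eq_norm_sq, he, one_pow]
  set f : E n → E n := fun x => x - ⟪e, x⟫ • e with hf
  have hfl : ∀ (a b : ℝ) (x y : E n), f (a • x + b • y) = a • f x + b • f y := fun a b x y => by
    simp only [hf, inner_add_right, real_inner_smul_right]
    module
  refine ⟨?_, ?_, ?_, ?_⟩
  · refine isCompact_of_isClosed_isBounded ?_ ((isBounded_iff_subset_closedBall 0).2
      ⟨l + 1, fun x hx => ?_⟩)
    · show IsClosed ({x : E n | |⟪e, x⟫| ≤ l} ∩ {x : E n | ‖x - ⟪e, x⟫ • e‖ ≤ 1})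
      exact (isClosed_le (by fun_prop) continuous_const).inter
        (isClosed_le (by fun_prop) continuous_const)
    · rw [mem_closedBall_zero_iff]
      calc ‖x‖ = ‖⟪e, x⟫ • e + (x - ⟪e, x⟫ • e)‖ := by rw [add_sub_cancel]
        _ ≤ l + 1 := (norm_add_le _ _).trans (add_le_add (by
              rw [norm_smul, he, mul_one, Real.norm_eq_abs]; exact hx.1) hx.2)
  · intro x hx y hy a b ha hb hab
    refine ⟨?_, ?_⟩
    · rw [inner_add_right, real_inner_smul_right, real_inner_smul_right]
      refine (abs_add_le _ _).trans ?_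
      rw [abs_mul, abs_mul, abs_of_nonneg ha, abs_of_nonneg hb]
      calc a * |⟪e, x⟫| + b * |⟪e, y⟫| ≤ a * l + b * l :=
            add_le_add (mul_le_mul_of_nonneg_left hx.1 ha) (mul_le_mul_of_nonneg_left hy.1 hb)
        _ = l := by rw [← add_mul, hab, one_mul]
    · show ‖f (a • x + b • y)‖ ≤ 1
      rw [hfl]
      refine (norm_add_le _ _).trans ?_
      rw [norm_smul, norm_smul, Real.norm_of_nonneg ha, Real.norm_of_nonneg hb]
      calc a * ‖f x‖ + b * ‖f y‖ ≤ a * 1 + b * 1 :=
            add_le_add (mul_le_mul_of_nonneg_left hx.2 ha) (mul_le_mul_of_nonneg_left hy.2 hb)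
        _ = 1 := by rw [← add_mul, hab, one_mul]
  · simp [cyl, hl.le]
  · set r := (2 * l)⁻¹ with hr
    have h2l : 0 < 2 * l := by positivity
    have hset : cyl e l = (-(l • e)) +ᵥ ((2 * l) • shadowCylinder (closedBall (0 : E n) r) e) := by
      ext x
      rw [mem_vadd_set_iff_neg_vadd_mem, mem_smul_set_iff_inv_smul_mem₀ h2l.ne', neg_neg,
        vadd_eq_add]
      set z := (2 * l)⁻¹ • (l • e + x)
      have hz : ⟪e, z⟫ = (2 * l)⁻¹ * (l + ⟪e, x⟫) := by
        simp only [z]
        rw [real_inner_smul_right, inner_add_right, real_inner_smul_right, hee, mul_one]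
      have hzf : f z = (2 * l)⁻¹ • f x := by
        simp only [hf, hz, z]
        module
      constructor
      · rintro ⟨h1, h2⟩
        have h1' := abs_le.1 h1
        refine ⟨?_, -⟪e, z⟫, ?_⟩
        · rw [hz, mem_Icc, inv_mul_le_iff₀ h2l]
          exact ⟨mul_nonneg (inv_nonneg.2 h2l.le) (by linarith), by linarith⟩
        · rw [mem_closedBall_zero_iff, neg_smul, ← sub_eq_add_neg]
          show ‖f z‖ ≤ r
          rw [hzf, norm_smul, Real.norm_of_nonneg (inv_nonneg.2 h2l.le)]
          exact mul_le_of_le_one_right (inv_nonneg.2 h2l.le) h2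
      · rintro ⟨h1, s, hs⟩
        rw [hz, mem_Icc, inv_mul_le_iff₀ h2l] at h1
        have h1a := nonneg_of_mul_nonneg_right h1.1 (inv_pos.2 h2l)
        refine ⟨abs_le.2 ⟨by linarith, by linarith [h1.2]⟩, ?_⟩
        rw [mem_closedBall_zero_iff] at hs
        have hpy : ‖f z‖ ≤ ‖z + s • e‖ := by
          refine le_of_pow_le_pow_left₀ two_ne_zero (norm_nonneg _) ?_
          have heq : z + s • e = f z + (⟪e, z⟫ + s) • e := by simp only [hf]; module
          have hor : ⟪f z, e⟫ = 0 := by
            simp only [hf]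
            rw [real_inner_comm]
            simp only [inner_sub_right, real_inner_smul_right, hee, mul_one, sub_self]
          rw [heq, norm_add_sq_real, real_inner_smul_right, hor, norm_smul, he]
          nlinarith [sq_nonneg ‖⟪e, z⟫ + s‖]
        have := hpy.trans hs
        rw [hzf, norm_smul, Real.norm_of_nonneg (inv_nonneg.2 h2l.le)] at this
        exact le_of_mul_le_mul_left (this.trans_eq (mul_one _).symm) (inv_pos.2 h2l)
    rw [hset, measure_vadd, Measure.addHaar_smul_of_nonneg volume h2l.le,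
      finrank_euclideanSpace_fin, ENNReal.toReal_mul, ENNReal.toReal_ofReal (by positivity),
      ← vol.eq_def, vol_shadowCylinder (isCompact_closedBall _ _) he,
      projArea_ball_zero he (inv_nonneg.2 h2l.le)]
    obtain ⟨j, rfl⟩ : ∃ j, n = j + 1 := ⟨n - 1, by omega⟩
    rw [Nat.add_sub_cancel, pow_succ', mul_assoc, ← mul_assoc ((2 * l) ^ j), ← mul_pow,
      mul_inv_cancel₀ h2l.ne', one_pow, one_mul]

lemma meanAbs_pos (hn : 1 ≤ n) : 0 < meanAbs n := by
  have := kappa_pos n
  have := kappa_pos (n - 1)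
  have : (0 : ℝ) < n := by exact_mod_cast hn
  unfold meanAbs; positivity

/-- The cylinder test: `normH` is never exponentially small. -/
lemma normH_ge (hn : 1 ≤ n) {δ : ℝ} {w : Fin N → ℝ} {u : Fin N → E n} (hT : Tested δ w u)
    {e : E n} (he : ‖e‖ = 1) : Real.exp (-(n * δ) - 1) ≤ normH w u e := by
  obtain ⟨hδ, hw, hu, hw1, htest⟩ := hT
  have hn0 : (0 : ℝ) < n := by exact_mod_cast hn
  have ha := meanAbs_pos hn
  have hk := kappa_pos n
  set A := Real.exp (n * δ + 1) with hA
  set l := A / (n * meanAbs n) with hl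
  have hl0 : 0 < l := by positivity
  obtain ⟨hc, hcv, h0, hvol⟩ := cyl_props hn he hl0
  have hsub : cyl e l ⊆ Poly u fun i => 1 + l * |⟪u i, e⟫| := by
    intro x hx i
    calc ⟪u i, x⟫ = ⟪u i, x - ⟪e, x⟫ • e⟫ + ⟪e, x⟫ * ⟪u i, e⟫ := by
          rw [inner_sub_right, real_inner_smul_right]; ring
      _ ≤ 1 + l * |⟪u i, e⟫| := by
          refine add_le_add ((real_inner_le_norm _ _).trans ?_) ?_
          · rw [hu, one_mul]; exact hx.2
          · refine (le_abs_self _).trans ?_
            rw [abs_mul]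
            exact mul_le_mul_of_nonneg_right hx.1 (abs_nonneg _)
  have h := htest _ _ (fun i => by positivity) hc hcv h0 hsub
  have hsum : ∑ i, w i * (1 + l * |⟪u i, e⟫|) = 1 + A * normH w u e / n := by
    simp only [mul_add, mul_one, Finset.sum_add_distrib, hw1, normH, Finset.mul_sum, Finset.sum_div]
    congr 1
    refine Finset.sum_congr rfl fun i _ => ?_
    rw [hl]
    field_simp
  have hH : 0 ≤ normH w u e :=
    mul_nonneg (inv_nonneg.2 ha.le) (Finset.sum_nonneg fun i _ =>
      mul_nonneg (hw i) (abs_nonneg _))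
  rw [hvol, hsum] at h
  have hlhs : 2 * l * kappa (n - 1) = kappa n * A := by
    have : kappa (n - 1) = meanAbs n * (n * kappa n) / 2 := by
      unfold meanAbs; field_simp
    rw [this, hl]; field_simp
  rw [hlhs, mul_le_mul_iff_right₀ hk] at h
  have h2 : ((1 + δ) * (1 + A * normH w u e / n)) ^ n ≤
      Real.exp (n * δ + A * normH w u e) := by
    have e1 : (1 + δ) * (1 + A * normH w u e / n) ≤ Real.exp (δ + A * normH w u e / n) := by
      rw [Real.exp_add]
      exact mul_le_mul (by linarith [Real.add_one_le_exp δ])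
        (by linarith [Real.add_one_le_exp (A * normH w u e / n)]) (by positivity) (Real.exp_pos _).le
    refine (pow_le_pow_left₀ (by positivity) e1 n).trans (le_of_eq ?_)
    rw [← Real.exp_nat_mul]
    congr 1
    field_simp
  have h3 := Real.exp_le_exp.1 (h.trans h2)
  have h4 : 1 ≤ A * normH w u e := by linarith
  rw [show -((n : ℝ) * δ) - 1 = -(n * δ + 1) by ring, Real.exp_neg, inv_le_iff_one_le_mul₀' (Real.exp_pos _)]
  exact h4

/-- The orthogonal complement of a state, as unit vectors. -/
def Dirs (es : List (E n)) : Set (E n) := {θ | ‖θ‖ = 1 ∧ ∀ e ∈ es, ⟪e, θ⟫ = 0}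

lemma perp_of_dir {es : List (E n)} {θ : E n} (h : ∀ e ∈ es, ⟪e, θ⟫ = 0) : perp es θ = θ := by
  induction es with
  | nil => exact perp_nil θ
  | cons a es ih =>
    rw [perp_cons, ih fun e he => h e (List.mem_cons_of_mem _ he), h a (List.mem_cons_self ..),
      zero_smul, sub_zero]

lemma dirs_nonempty {es : List (E n)} (h : Ortho es) (hlen : es.length < n) :
    (Dirs es).Nonempty := by
  by_contra hne
  have h0 : ∀ x, perp es x = 0 := fun x => by
    by_contra hx
    refine hne ⟨‖perp es x‖⁻¹ • perp es x, ?_, fun e he => ?_⟩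
    · rw [norm_smul, norm_inv, norm_norm, inv_mul_cancel₀ (norm_ne_zero_iff.2 hx)]
    · rw [real_inner_smul_right, h.inner_mem_perp e he, mul_zero]
  have hspan : (⊤ : Submodule ℝ (E n)) ≤ Submodule.span ℝ (range es.get) := by
    intro x _
    have hx := h0 x
    rw [perp, sub_eq_zero] at hx
    rw [hx]
    refine list_sum_mem fun y hy => ?_
    obtain ⟨e, he, rfl⟩ := List.mem_map.1 hy
    obtain ⟨i, hi⟩ := List.mem_iff_get.1 he
    exact Submodule.smul_mem _ _ (Submodule.subset_span ⟨i, hi⟩)
  have hle := Submodule.finrank_mono hspan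
  rw [finrank_top, finrank_euclideanSpace_fin] at hle
  have := finrank_range_le_card (R := ℝ) es.get
  rw [Set.finrank, Fintype.card_fin] at this
  omega

lemma isCompact_dirs (es : List (E n)) : IsCompact (Dirs es) := by
  have heq : Dirs es = sphere (0 : E n) 1 ∩ ⋂ e ∈ es, {θ | ⟪e, θ⟫ = 0} := by
    ext θ; simp [Dirs]
  rw [heq]
  refine (isCompact_sphere _ _).inter_right (isClosed_biInter fun e _ => ?_)
  exact isClosed_eq (by fun_prop) continuous_const

lemma exists_least (w : Fin N → ℝ) (u : Fin N → E n) (es : List (E n)) :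
    ∃ θ : E n, Ortho es → es.length < n →
      θ ∈ Dirs es ∧ ∀ φ ∈ Dirs es, normH w u θ ≤ normH w u φ := by
  by_cases h : Ortho es ∧ es.length < n
  · obtain ⟨θ, h1, h2⟩ := (isCompact_dirs es).exists_isMinOn (dirs_nonempty h.1 h.2)
      (show Continuous (normH w u) by unfold normH; fun_prop).continuousOn
    exact ⟨θ, fun _ _ => ⟨h1, fun φ hφ => h2 hφ⟩⟩
  · exact ⟨0, fun h1 h2 => absurd ⟨h1, h2⟩ h⟩

/-- A minimiser of `normH` over the complement of a state. -/
def least (w : Fin N → ℝ) (u : Fin N → E n) (es : List (E n)) : E n :=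
  (exists_least w u es).choose

/-- The state contains a cube times a ball. -/
lemma vol_state_ge (hn : 1 ≤ n) {c : Fin N → ℝ} {u : Fin N → E n}
    {es : List (E n)} (h : Ortho es) {m : ℕ} (hlen : es.length + m = n) {s : ℝ} (hs : 0 < s)
    (hmin : ∀ φ ∈ Dirs es, s ≤ normH (fun i => c i / n) u φ) :
    kappa m * (n / 2 * meanAbs n * s) ^ m ≤ ZE.vol c u es := by
  classical
  set r := n / 2 * meanAbs n * s with hr
  have hn0 : (0 : ℝ) < n := by exact_mod_cast hn
  have ha := meanAbs_pos hn
  have hr0 : 0 < r := by positivity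
  set a := ZE.segs c u es
  set ctr := (1 / 2 : ℝ) • ∑ i, a i with hctr
  have hon : Orthonormal ℝ es.get :=
    ⟨fun i => h.2 _ (List.get_mem es i), fun i j hij => ZE.inner_get h hij⟩
  set C := {x : E n | (∀ j, |⟪es.get j, x⟫| ≤ 1 / 2) ∧ ‖perp es x‖ ≤ r}
  have hwidth : ∀ φ : E n, r * ‖perp es φ‖ ≤ 1 / 2 * ∑ i, |⟪φ, c i • perp es (u i)⟫| := by
    intro φ
    rcases eq_or_ne (perp es φ) 0 with h0 | h0
    · rw [h0, norm_zero, mul_zero]; positivity
    have hp : 0 < ‖perp es φ‖ := norm_pos_iff.2 h0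
    have hd : ‖perp es φ‖⁻¹ • perp es φ ∈ Dirs es :=
      ⟨by rw [norm_smul, norm_inv, norm_norm, inv_mul_cancel₀ hp.ne'],
        fun e he => by rw [real_inner_smul_right, h.inner_mem_perp e he, mul_zero]⟩
    have h1 := hmin _ hd
    rw [normH, Finset.mul_sum] at h1
    rw [hr, Finset.mul_sum]
    calc n / 2 * meanAbs n * s * ‖perp es φ‖ ≤ n / 2 * meanAbs n * (∑ i, (meanAbs n)⁻¹ *
          (c i / n * |⟪u i, ‖perp es φ‖⁻¹ • perp es φ⟫|)) * ‖perp es φ‖ := by gcongr
      _ ≤ _ := by
          rw [Finset.mul_sum, Finset.sum_mul]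
          refine Finset.sum_le_sum fun i _ => ?_
          rw [real_inner_smul_right, abs_mul, abs_of_pos (inv_pos.2 hp), real_inner_smul_right,
            abs_mul, show ⟪φ, perp es (u i)⟫ = ⟪u i, perp es φ⟫ by
              rw [real_inner_comm, inner_perp_comm, real_inner_comm]]
          refine le_trans (le_of_eq ?_) (mul_le_mul_of_nonneg_left
            (mul_le_mul_of_nonneg_right (le_abs_self (c i)) (abs_nonneg _)) (by norm_num))
          field_simp
  have hsub : ctr +ᵥ C ⊆ zono a := by
    rintro _ ⟨x, hx, rfl⟩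
    by_contra hxz
    have hcvx : Convex ℝ (zono a) := by
      have heq : zono a = Fintype.linearCombination ℝ a '' univ.pi fun _ => Icc (0 : ℝ) 1 := by
        ext y; simp [zono, Fintype.linearCombination_apply]
      rw [heq]
      exact (convex_pi fun i _ => convex_Icc 0 1).linear_image _
    obtain ⟨f, v, hf1, hf2⟩ :=
      geometric_hahn_banach_closed_point hcvx (ZE.isCompact_zonoG a).isClosed hxz
    set φ := (InnerProductSpace.toDual ℝ (E n)).symm f
    have hfφ : ∀ y, f y = ⟪φ, y⟫ := fun y => (InnerProductSpace.toDual_symm_apply).symm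
    set l : Fin N ⊕ Fin es.length → ℝ := fun i => if 0 ≤ ⟪φ, a i⟫ then 1 else 0
    have hl := hf1 _ ⟨l, fun i _ => by simp only [l]; split_ifs <;> simp, rfl⟩
    rw [hfφ, inner_sum] at hl
    have hmax : ∑ i, ⟪φ, l i • a i⟫ = ⟪φ, ctr⟫ + 1 / 2 * ∑ i, |⟪φ, a i⟫| := by
      rw [hctr, real_inner_smul_right, inner_sum, Finset.mul_sum, Finset.mul_sum,
        ← Finset.sum_add_distrib]
      refine Finset.sum_congr rfl fun i _ => ?_
      rw [real_inner_smul_right]
      simp only [l]
      split_ifs with h0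
      · rw [abs_of_nonneg h0]; ring
      · rw [abs_of_neg (not_le.1 h0)]; ring
    have hxφ : ⟪φ, x⟫ ≤ 1 / 2 * ∑ i, |⟪φ, a i⟫| := by
      have hdec : ⟪φ, x⟫ = ∑ j, ⟪es.get j, φ⟫ * ⟪es.get j, x⟫ + ⟪perp es φ, perp es x⟫ := by
        rw [h.inner_perp_perp, inner_perp, ← Fin.sum_univ_fun_getElem]
        simp only [List.get_eq_getElem]
        ring
      rw [hdec, Fintype.sum_sum_type, mul_add, add_comm (1 / 2 * _)]
      refine add_le_add ?_ ?_
      · rw [Finset.mul_sum]
        refine Finset.sum_le_sum fun j _ => (le_abs_self _).trans ?_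
        rw [abs_mul, real_inner_comm φ (es.get j)]
        calc |⟪φ, es.get j⟫| * |⟪es.get j, x⟫| ≤ |⟪φ, es.get j⟫| * (1 / 2) :=
              mul_le_mul_of_nonneg_left (hx.1 j) (abs_nonneg _)
          _ = _ := by simp [a, ZE.segs, mul_comm]
      · refine (real_inner_le_norm _ _).trans ?_
        refine (mul_le_mul_of_nonneg_left hx.2 (norm_nonneg _)).trans ?_
        rw [mul_comm]
        exact hwidth φ
    rw [hfφ] at hf2
    simp only [vadd_eq_add, inner_add_right] at hf2
    linarith
  -- the volume of the cube times the ball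
  set U := Submodule.span ℝ (range es.get)
  have hUfr : Module.finrank ℝ U = es.length := by
    rw [finrank_span_eq_card hon.linearIndependent, Fintype.card_fin]
  have hWfr : Module.finrank ℝ (Uᗮ : Submodule ℝ (E n)) = m := by
    have := U.finrank_add_finrank_orthogonal
    rw [hUfr, finrank_euclideanSpace_fin] at this
    omega
  set B0 := Module.Basis.span hon.linearIndependent
  have hB0 : ∀ j, ((B0 j : U) : E n) = es.get j := fun j => by
    rw [Module.Basis.span_apply]
  have honB : Orthonormal ℝ B0 := by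
    constructor
    · intro j; rw [Submodule.coe_norm, hB0]; exact hon.1 j
    · intro i j hij; rw [Submodule.coe_inner, hB0, hB0]; exact hon.2 hij
  set b := B0.toOrthonormalBasis honB
  have hb : ∀ j, ((b j : U) : E n) = es.get j := fun j => by
    rw [Module.Basis.coe_toOrthonormalBasis]; exact hB0 j
  set half : U := (1 / 2 : ℝ) • ∑ j, b j
  set cube : Set U := (-half) +ᵥ parallelepiped b
  set ball' : Set (Uᗮ : Submodule ℝ (E n)) := closedBall 0 r
  let Φ : U × (Uᗮ : Submodule ℝ (E n)) → E n := fun q =>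
    U.orthogonalDecomposition.symm (WithLp.toLp 2 q)
  have hΦm : MeasurePreserving Φ volume volume :=
    (U.orthogonalDecomposition.symm.measurePreserving).comp
      (WithLp.volume_preserving_toLp U (Uᗮ : Submodule ℝ (E n)))
  have hΦ : ∀ q, Φ q = (q.1 : E n) + (q.2 : E n) := fun q => by
    simp [Φ, Submodule.orthogonalDecomposition_symm_apply]
  have hΦC : cube ×ˢ ball' ⊆ Φ ⁻¹' C := by
    rintro ⟨q, p⟩ ⟨⟨z, hz, rfl⟩, hp⟩
    obtain ⟨t, ht, rfl⟩ := (mem_parallelepiped_iff (⇑b) z).1 hz
    have hq : ((-half +ᵥ ∑ j, t j • b j : U) : E n) = ∑ j, (t j - 1 / 2) • es.get j := by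
      simp only [vadd_eq_add, half, Submodule.coe_add, Submodule.coe_neg, Submodule.coe_smul,
        Submodule.coe_sum, hb, Finset.smul_sum, sub_smul, Finset.sum_sub_distrib]
      abel
    have hpe : ∀ j, ⟪es.get j, (p : E n)⟫ = 0 := fun j =>
      p.2 _ (Submodule.subset_span ⟨j, rfl⟩)
    rw [mem_preimage, hΦ, hq]
    refine ⟨fun j => ?_, ?_⟩
    · rw [inner_add_right, hpe, add_zero, inner_sum,
        Finset.sum_eq_single j (fun i _ hi => by
          rw [real_inner_smul_right, ZE.inner_get h (Ne.symm hi), mul_zero]) (by simp),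
        real_inner_smul_right, real_inner_self_eq_norm_sq, hon.1 j, one_pow, mul_one, abs_le]
      have h0 : 0 ≤ t j := ht.1 j
      have h1 : t j ≤ 1 := ht.2 j
      constructor <;> linarith
    · have hmem : ∀ e ∈ es, ⟪e, (p : E n)⟫ = 0 := fun e he => by
        obtain ⟨j, rfl⟩ := List.mem_iff_get.1 he; exact hpe j
      have hzero : perp es (∑ j, (t j - 1 / 2) • es.get j) = 0 := by
        refine ext_inner_right ℝ fun y => ?_
        rw [inner_perp_comm, inner_sum, inner_zero_left]
        refine Finset.sum_eq_zero fun i _ => ?_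
        rw [real_inner_smul_right, real_inner_comm, h.inner_mem_perp _ (List.get_mem es i),
          mul_zero]
      rw [perp_add, hzero, zero_add, perp_of_dir hmem]
      exact mem_closedBall_zero_iff.1 hp
  have hCm : MeasurableSet C := by
    have : IsClosed C := by
      have heq : C = (⋂ j, {x | |⟪es.get j, x⟫| ≤ 1 / 2}) ∩ {x | ‖perp es x‖ ≤ r} := by
        ext x; simp [C]
      rw [heq]
      exact (isClosed_iInter fun j => isClosed_le (by fun_prop) continuous_const).inter
        (isClosed_le (continuous_perp es).norm continuous_const)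
    exact this.measurableSet
  have hball : volume ball' = ENNReal.ofReal (r ^ m) * volume (ball (0 : E m) 1) := by
    set bw := (stdOrthonormalBasis ℝ (Uᗮ : Submodule ℝ (E n))).reindex (finCongr hWfr)
    rw [show ball' = bw.repr ⁻¹' closedBall (0 : E m) r by
        rw [bw.repr.preimage_closedBall, map_zero],
      bw.repr.measurePreserving.measure_preimage measurableSet_closedBall.nullMeasurableSet,
      Measure.addHaar_closedBall volume _ hr0.le, finrank_euclideanSpace_fin]
  have hfin : volume (ctr +ᵥ C) ≠ ⊤ :=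
    ((measure_mono hsub).trans_lt (ZE.isCompact_zonoG a).measure_lt_top).ne
  have hge : ENNReal.ofReal (r ^ m) * volume (ball (0 : E m) 1) ≤ volume (ctr +ᵥ C) := by
    rw [measure_vadd, ← hball, ← hΦm.measure_preimage hCm.nullMeasurableSet]
    refine le_trans (le_of_eq ?_) (measure_mono hΦC)
    rw [Measure.volume_eq_prod, Measure.prod_prod, measure_vadd, b.volume_parallelepiped, one_mul]
  have := ENNReal.toReal_mono hfin hge
  rw [ENNReal.toReal_mul, ENNReal.toReal_ofReal (by positivity)] at this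
  rw [mul_comm]
  exact this.trans (ENNReal.toReal_mono (ZE.isCompact_zonoG a).measure_ne_top (measure_mono hsub))

/-- One where the least value of `normH` is below `1 - η`. -/
def low (w : Fin N → ℝ) (u : Fin N → E n) (η : ℝ) (es : List (E n)) : ℝ :=
  if normH w u (least w u es) < 1 - η then 1 else 0

/-- The zonoid of the low minimisers. -/
def lowZ (c : Fin N → ℝ) (u : Fin N → E n) (η : ℝ) (k : ℕ) (v : E n) : ℝ :=
  (meanAbs n)⁻¹ * tchain c u k [] fun es =>
    low (fun i => c i / n) u η es * |⟪v, least (fun i => c i / n) u es⟫|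

lemma least_spec (w : Fin N → ℝ) (u : Fin N → E n) {es : List (E n)} (h : Ortho es)
    (hlen : es.length < n) :
    least w u es ∈ Dirs es ∧ ∀ φ ∈ Dirs es, normH w u (least w u es) ≤ normH w u φ :=
  (exists_least w u es).choose_spec h hlen

/-- The test with the zonoid of the low minimisers. -/
lemma low_test (hR : RadialTest) (hM : SphereMoments) {c : Fin N → ℝ} {u : Fin N → E n} {δ : ℝ}
    {m : ℕ} (hn : 2 ≤ n) (hm : 1 ≤ m) (hmn : m ≤ n) (hT : FrameTested δ c u) {M η : ℝ} (hM0 : 0 < M)
    (hsec : ∀ v : E n, ‖v‖ = 1 → tchain c u (n - m) [] (fun es => ‖perp es v‖ ^ 2) ≤ M * m / n)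
    (hη : 0 < η)
    (hP : 0 < tchain c u (n - m) [] (low (fun i => c i / n) u η)) {t : ℝ} (ht : 0 ≤ t)
    (ht2 : t ≤ 1 / 2) :
    t * η - δ ≤ 8 * (3 + 2 * (t * √(2 * M * m / tchain c u (n - m) [] (low (fun i => c i / n) u η)))) *
      (t * √(2 * M * m / tchain c u (n - m) [] (low (fun i => c i / n) u η))) ^ 2 := by
  classical
  obtain ⟨hF, hTest⟩ := hT
  obtain ⟨hδ, hw, hu, hw1, -⟩ := id hTest
  have hn1 : 1 ≤ n := by omega
  have hn0 : (0 : ℝ) < n := by exact_mod_cast (show 0 < n by omega)
  have hm0 : (0 : ℝ) < m := by exact_mod_cast (show 0 < m by omega)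
  have ha := meanAbs_pos (n := n) hn1
  set k := n - m with hk
  set θ := least (fun i => c i / (n : ℝ)) u with hθ
  set b := low (fun i => c i / (n : ℝ)) u η with hb
  set P := tchain c u k [] b with hPdef
  set F := lowZ c u η k with hFdef
  have hk' : ([] : List (E n)).length + k ≤ n := by simp [hk]
  have hfs : ∀ fs : List (E n), Ortho fs → fs.length = ([] : List (E n)).length + k →
      θ fs ∈ Dirs fs := fun fs ho hl =>
    (least_spec _ u ho (by simp [hk] at hl; omega)).1
  have hb0 : ∀ es, 0 ≤ b es ∧ b es ≤ 1 := fun es => by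
    simp only [b, low]; split_ifs <;> norm_num
  have hF0 : ∀ v, 0 ≤ F v := fun v => mul_nonneg (inv_nonneg.2 ha.le)
    (tchain_nonneg hF _ _ Ortho.nil hk' fun fs _ _ => mul_nonneg (hb0 fs).1 (abs_nonneg _))
  have hsmul : ∀ (r : ℝ) (v : E n), F (r • v) = |r| * F v := fun r v => by
    simp only [F, lowZ, real_inner_smul_left, abs_mul]
    rw [mul_left_comm |r|]
    congr 1
    rw [← tchain_const_mul]
    congr 1
    funext es
    ring
  have htri : ∀ v v', F (v + v') ≤ F v + F v' := fun v v' => by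
    simp only [F, lowZ]
    rw [← mul_add, ← tchain_add]
    refine mul_le_mul_of_nonneg_left (tchain_mono hF _ _ Ortho.nil hk' fun fs _ _ => ?_)
      (inv_nonneg.2 ha.le)
    rw [← mul_add, inner_add_left]
    exact mul_le_mul_of_nonneg_left (abs_add_le _ _) (hb0 fs).1
  have hA : (meanAbs n)⁻¹ ≤ √(2 * n) := by
    obtain ⟨-, -, -, -, hlo, -⟩ := hM n (EuclideanSpace.single ⟨0, by omega⟩ (1 : ℝ))
      hn (by simp)
    rw [inv_le_comm₀ ha (by positivity)]
    refine le_trans ?_ hlo
    rw [← Real.sqrt_inv]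
    refine Real.sqrt_le_sqrt ?_
    rw [inv_eq_one_div, div_le_div_iff₀ (by positivity) (by positivity)]
    nlinarith [Real.pi_le_four]
  set B := √(2 * M * m * P)
  have hFB1 : ∀ v : E n, ‖v‖ = 1 → F v ≤ B := by
    intro v hv
    set Q := M * m / n
    have hQ : 0 < Q := by positivity
    set s := √(Q / P)
    have hs : 0 < s := by positivity
    have h1 : tchain c u k [] (fun es => b es * |⟪v, θ es⟫|) ≤
        tchain c u k [] (fun es => (1 / 2) * (s * b es + s⁻¹ * ‖perp es v‖ ^ 2)) := by
      refine tchain_mono hF _ _ Ortho.nil hk' fun fs ho hl => ?_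
      obtain ⟨hθ1, hθ2⟩ := hfs fs ho hl
      have hle : |⟪v, θ fs⟫| ≤ ‖perp fs v‖ := by
        have : ⟪v, θ fs⟫ = ⟪perp fs v, θ fs⟫ := by
          rw [inner_perp_comm, perp_of_dir hθ2, real_inner_comm]
        rw [this]
        simpa [hθ1] using abs_real_inner_le_norm (perp fs v) (θ fs)
      have hbb : b fs = 0 ∨ b fs = 1 := by simp only [b, low]; split_ifs <;> simp
      rcases hbb with h0 | h0 <;> rw [h0]
      · rw [zero_mul, mul_zero, zero_add]; positivity
      · rw [one_mul, mul_one]
        refine hle.trans ?_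
        have : 0 ≤ (s - ‖perp fs v‖) ^ 2 * s⁻¹ := by positivity
        rw [sub_sq, add_mul, sub_mul, sq s, mul_assoc s s, mul_inv_cancel₀ hs.ne', mul_one,
          show 2 * s * ‖perp fs v‖ * s⁻¹ = 2 * ‖perp fs v‖ by field_simp] at this
        linarith
    rw [tchain_const_mul, tchain_add, tchain_const_mul, tchain_const_mul] at h1
    have h2 := mul_le_mul_of_nonneg_left (hsec v hv) (inv_nonneg.2 hs.le)
    have h3 : 1 / 2 * (s * P + s⁻¹ * Q) = √(Q * P) := by
      have e1 : s * P = √(Q * P) := by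
        have es : s = √(Q * P) / P := by
          simp only [s]
          rw [show Q / P = Q * P / P ^ 2 by field_simp, Real.sqrt_div' _ (sq_nonneg P),
            Real.sqrt_sq hP.le]
        rw [es]; field_simp
      have e2 : s⁻¹ * Q = s * P := by
        have : s ^ 2 = Q / P := Real.sq_sqrt (by positivity)
        field_simp
        rw [this]; field_simp
      rw [e2, e1]; ring
    calc F v ≤ (meanAbs n)⁻¹ * √(Q * P) := by
          refine mul_le_mul_of_nonneg_left (h1.trans ?_) (inv_nonneg.2 ha.le)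
          rw [← h3]
          linarith
      _ ≤ √(2 * n) * √(Q * P) := mul_le_mul_of_nonneg_right hA (Real.sqrt_nonneg _)
      _ = B := by
          rw [← Real.sqrt_mul (by positivity)]
          congr 1
          simp only [Q]
          field_simp
  have hFB : ∀ v : E n, F v ≤ B * ‖v‖ := by
    intro v
    rcases eq_or_ne v 0 with rfl | hv
    · rw [norm_zero, mul_zero, ← zero_smul ℝ (0 : E n), hsmul, abs_zero, zero_mul]
    · have hp : 0 < ‖v‖ := norm_pos_iff.2 hv
      have h1 := hFB1 (‖v‖⁻¹ • v)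
        (by rw [norm_smul, norm_inv, norm_norm, inv_mul_cancel₀ hp.ne'])
      rw [hsmul, abs_of_pos (inv_pos.2 hp), inv_mul_le_iff₀ hp] at h1
      linarith
  have hFm : Measurable F := (measurable_tchain (c := c) (u := u)
    (fun es v => b es * |⟪v, θ es⟫|)
    (fun es => by fun_prop) k []).const_mul _
  have hmean : sphAvg F = P := by
    rw [hFdef]
    unfold lowZ
    rw [sphAvg_const_mul, (StepAux.sphAvg_tchain (fun es v => b es * |⟪v, θ es⟫|)
      (fun es => StepAux.dirInt_of_continuous (by fun_prop)) k []).2,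
      ← tchain_const_mul]
    refine tchain_congr hF _ _ Ortho.nil hk' fun fs ho hl => ?_
    obtain ⟨-, -, -, habs, -, -⟩ := hM n (θ fs) hn (hfs fs ho hl).1
    rw [sphAvg_const_mul, show (fun v : E n => |⟪v, θ fs⟫|) = fun v => |⟪θ fs, v⟫| from
      funext fun v => by rw [real_inner_comm], habs]
    field_simp
  have hmu : ∑ i, c i / n * F (u i) ≤ (1 - η) * P := by
    simp only [F, lowZ, ← tchain_const_mul, P]
    rw [← tchain_sum]
    refine tchain_mono hF _ _ Ortho.nil hk' fun fs _ _ => ?_
    have hH : normH (fun i => c i / n) u (θ fs) =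
        ∑ i, (meanAbs n)⁻¹ * (c i / n * |⟪u i, θ fs⟫|) := by rw [normH, Finset.mul_sum]
    have he : ∑ i, c i / n * ((meanAbs n)⁻¹ * (b fs * |⟪u i, θ fs⟫|)) =
        b fs * normH (fun i => c i / n) u (θ fs) := by
      rw [hH, Finset.mul_sum]
      exact Finset.sum_congr rfl fun i _ => by ring
    rw [he]
    simp only [b, low, hθ]
    split_ifs with h
    · rw [one_mul, mul_one]; exact h.le
    · simp
  -- the radial test
  set a := 1 - t
  have hA0 : 1 / 2 ≤ a := by simp only [a]; linarith
  set q := t * √(2 * M * m / P)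
  have hq : t / P * B = q := by
    simp only [q, B]
    rw [div_mul_eq_mul_div, mul_div_assoc]
    congr 1
    rw [show 2 * M * m / P = 2 * M * m * P / P ^ 2 by field_simp,
      Real.sqrt_div' _ (sq_nonneg P), Real.sqrt_sq hP.le]
  have hq0 : 0 ≤ q := by positivity
  set h := fun v => a + t / P * F v
  set p := (closedBall (0 : E n) 1).indicator fun v => a + t / P * F v
  have htP : 0 ≤ t / P := by positivity
  have hp : ∀ v, 0 ≤ p v ∧ p v ≤ a + q := fun v => by
    by_cases hv : v ∈ closedBall (0 : E n) 1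
    · simp only [p, indicator_of_mem hv]
      refine ⟨add_nonneg (by linarith) (mul_nonneg htP (hF0 v)), ?_⟩
      rw [← hq]
      refine add_le_add le_rfl (mul_le_mul_of_nonneg_left ((hFB v).trans ?_) htP)
      exact mul_le_of_le_one_right (Real.sqrt_nonneg _) (mem_closedBall_zero_iff.1 hv)
    · simp only [p, indicator_of_notMem hv]
      exact ⟨le_rfl, by linarith⟩
  have hkey : ∀ φ v : E n, ‖φ‖ = 1 → ‖v‖ = 1 → 0 < p φ →
      a * (1 - |⟪v, φ⟫|) + p φ * |⟪v, φ⟫| - q * √(1 - ⟪v, φ⟫ ^ 2) ≤ h v := by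
    intro φ v hφ hv _
    set y := ⟪v, φ⟫
    set z := v - y • φ
    have hz : ‖z‖ = √(1 - y ^ 2) := by
      rw [← Real.sqrt_sq (norm_nonneg z)]
      congr 1
      rw [norm_sub_sq_real, real_inner_smul_right, norm_smul, hφ, hv, mul_one, Real.norm_eq_abs,
        sq_abs]
      ring
    have h1 : |y| * F φ ≤ F v + B * √(1 - y ^ 2) := by
      rw [← hsmul, ← hz, show y • φ = v + -z by simp only [z]; abel]
      refine (htri _ _).trans (add_le_add le_rfl ?_)
      rw [← norm_neg z]
      exact hFB _
    simp only [p, h, indicator_of_mem (mem_closedBall_zero_iff.2 hφ.le), ← hq]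
    have h2 := mul_le_mul_of_nonneg_left h1 htP
    linarith
  have hmain := hR n N (fun i => c i / n) u δ a (a + q) q h p (fun _ => q) hn hTest (by linarith)
    (fun v _ => add_nonneg (by linarith) (mul_nonneg htP (hF0 v)))
    ((measurable_const.add (hFm.const_mul _)).indicator measurableSet_closedBall) measurable_const
    hp (fun _ => ⟨hq0, le_rfl⟩) hkey
  have hsp : sphAvg p = 1 := by
    have heq : sphAvg p = sphAvg fun v => a + t / P * F v := by
      simp only [sphAvg, p, indicator_of_mem (mem_closedBall_zero_iff.2 (norm_dir_le _))]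
    have hdF : DirInt F := .of_bounded hFm fun v hv => by
      rw [abs_of_nonneg (hF0 v)]
      exact (hFB v).trans (mul_le_of_le_one_right (Real.sqrt_nonneg _) hv)
    rw [heq, sphAvg_add (f := fun _ => a) (.of_bounded measurable_const fun _ _ => le_rfl)
      (hdF.const_mul _), sphAvg_const, sphAvg_const_mul, hmean, div_mul_cancel₀ t hP.ne']
    simp [a]
  have hsum : ∑ i, c i / n * h (u i) ≤ 1 - t * η := by
    simp only [h, mul_add, Finset.sum_add_distrib, ← Finset.sum_mul, hw1, one_mul,
      mul_left_comm _ (t / P), ← Finset.mul_sum]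
    have h2 := mul_le_mul_of_nonneg_left hmu htP
    rw [mul_left_comm, div_mul_cancel₀ t hP.ne'] at h2
    simp only [a]
    linarith
  rw [hsp, sphAvg_const] at hmain
  have hpen : 4 * (1 + (a + q) / a) / a ≤ 8 * (3 + 2 * q) := by
    have h1 : (a + q) / a ≤ 1 + 2 * q := by
      rw [div_le_iff₀ (by linarith)]; nlinarith
    rw [div_le_iff₀ (by linarith)]
    nlinarith
  have h4 := mul_le_mul_of_nonneg_right hpen (sq_nonneg q)
  have h5 := mul_le_mul_of_nonneg_left hsum (show (0 : ℝ) ≤ 1 + δ by linarith)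
  linarith [mul_nonneg hδ (mul_nonneg ht hη.le)]

/-- The minimum is rarely below `1 - η`. -/
lemma low_rare (hR : RadialTest) (hM : SphereMoments) {c : Fin N → ℝ} {u : Fin N → E n} {δ : ℝ}
    {m : ℕ} (hn : 2 ≤ n) (hm : 1 ≤ m) (hmn : m ≤ n) (hT : FrameTested δ c u) {M η : ℝ} (hM0 : 0 < M)
    (hsec : ∀ v : E n, ‖v‖ = 1 → tchain c u (n - m) [] (fun es => ‖perp es v‖ ^ 2) ≤ M * m / n)
    (hη : 0 < η) (hη1 : η ≤ 1) (hδη : δ ≤ η / 4) :
    tchain c u (n - m) [] (low (fun i => c i / n) u η) * η ^ 2 ≤ 320 * M * m * δ := by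
  classical
  have hm0 : (0 : ℝ) < m := by exact_mod_cast (show 0 < m by omega)
  have hδ : 0 ≤ δ := hT.2.1
  set P := tchain c u (n - m) [] (low (fun i => c i / (n : ℝ)) u η) with hPdef
  have hP0 : 0 ≤ P := tchain_nonneg hT.1 _ _ Ortho.nil (by simp) fun fs _ _ => by
    simp only [low]; split_ifs <;> norm_num
  rcases hP0.eq_or_lt with hPe | hP
  · rw [← hPe, zero_mul]; positivity
  set S := √(2 * M * m / P)
  have hS : S ^ 2 * P = 2 * M * m := by
    rw [Real.sq_sqrt (by positivity), div_mul_cancel₀ _ hP.ne']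
  have key : ∀ t, 0 ≤ t → t ≤ 1 / 2 → t * η - δ ≤ 8 * (3 + 2 * (t * S)) * (t * S) ^ 2 :=
    fun t h1 h2 => low_test hR hM hn hm hmn hT hM0 hsec hη hP h1 h2
  rcases hδ.eq_or_lt with hde | hdpos
  · exfalso
    subst hde
    have hS0 : 0 < S := by positivity
    set T := η / (80 * (1 + S) ^ 2) with hTdef
    have hT0 : 0 < T := by positivity
    have hTS : T * S ≤ 1 ∧ T ≤ 1 / 2 ∧ 80 * (T * S ^ 2) ≤ η := by
      have e : T * (80 * (1 + S) ^ 2) = η := by rw [hTdef]; field_simp
      have e1 := mul_le_mul_of_nonneg_left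
        (show S ≤ 80 * (1 + S) ^ 2 by nlinarith) hT0.le
      have e2 := mul_le_mul_of_nonneg_left
        (show (2 : ℝ) ≤ 80 * (1 + S) ^ 2 by nlinarith) hT0.le
      have e3 := mul_le_mul_of_nonneg_left
        (show 80 * S ^ 2 ≤ 80 * (1 + S) ^ 2 by nlinarith) hT0.le
      exact ⟨by linarith, by linarith, by linarith⟩
    have h := key T hT0.le hTS.2.1
    have h1 : 8 * (3 + 2 * (T * S)) * (T * S) ^ 2 ≤ 40 * (T * S) ^ 2 :=
      mul_le_mul_of_nonneg_right (by linarith [hTS.1]) (sq_nonneg _)
    have h2 := mul_le_mul_of_nonneg_left hTS.2.2 hT0.le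
    nlinarith [mul_pos hT0 hη]
  · set t := 2 * δ / η
    have ht : t * η = 2 * δ := div_mul_cancel₀ _ hη.ne'
    have ht2 : t ≤ 1 / 2 := by
      rw [div_le_iff₀ hη]; linarith
    have h := key t (by positivity) ht2
    have hq : (t * S) ^ 2 * (P * η ^ 2) = 8 * M * m * δ ^ 2 := by
      calc (t * S) ^ 2 * (P * η ^ 2) = (t * η) ^ 2 * (S ^ 2 * P) := by ring
        _ = _ := by rw [ht, hS]; ring
    rcases le_or_gt (t * S) 1 with h1 | h1
    · have h2 : δ ≤ 40 * (t * S) ^ 2 := by
        have := mul_le_mul_of_nonneg_right (show 8 * (3 + 2 * (t * S)) ≤ 40 by linarith)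
          (sq_nonneg (t * S))
        linarith
      have h3 := mul_le_mul_of_nonneg_right h2 (show 0 ≤ P * η ^ 2 by positivity)
      rw [mul_assoc 40, hq] at h3
      refine le_of_mul_le_mul_left ?_ hdpos
      linarith
    · have h2 : (1 : ℝ) ≤ (t * S) ^ 2 := one_le_pow₀ h1.le
      have h3 := mul_le_mul_of_nonneg_right h2 (show 0 ≤ P * η ^ 2 by positivity)
      rw [hq, one_mul] at h3
      have h4 := mul_le_mul_of_nonneg_left (show δ ≤ 1 by linarith)
        (show 0 ≤ 8 * M * m * δ by positivity)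
      nlinarith [mul_nonneg (mul_nonneg hM0.le hm0.le) hδ]

end Vale.Agent.P237.Sharp.BottomAux

namespace Vale.Agent.P237.Sharp

open Asymp BottomAux

/-- In a fixed dimension nothing is lost. -/
theorem bottomBound (hR : RadialTest) (hM : SphereMoments) : BottomBound := by
  intro m₀ ε hm hε
  obtain ⟨C, hC, hsm⟩ := secondMoment
  set M := 1 + C
  have hm0 : (0 : ℝ) < m₀ := by exact_mod_cast (show 0 < m₀ by omega)
  set η := min (1 / 4) (ε / (4 * m₀)) with hη
  have hη0 : 0 < η := lt_min (by norm_num) (by positivity)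
  have hη4 : η ≤ 1 / 4 := min_le_left _ _
  set K := 320 * M * m₀ / η ^ 2 with hK
  have hK0 : 0 < K := by positivity
  refine ⟨min (η / 4) (ε / (2 * m₀ * K)), lt_min (by positivity) (by positivity),
    max 2 (m₀ + 1), fun n N c u δ hn hT hδ => ?_⟩
  have hn2 : 2 ≤ n := (le_max_left _ _).trans hn
  have hnm : m₀ < n := Nat.lt_of_succ_le ((le_max_right _ _).trans hn)
  obtain ⟨hF, hTest⟩ := id hT
  have hδ0 : 0 ≤ δ := hTest.1
  have hn0 : (0 : ℝ) < n := by exact_mod_cast (show 0 < n by omega)
  set k := n - m₀ with hk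
  have hk' : ([] : List (E n)).length + k ≤ n := by simp [hk]
  have hsec : ∀ v : E n, ‖v‖ = 1 →
      tchain c u k [] (fun es => ‖perp es v‖ ^ 2) ≤ M * m₀ / n := by
    intro v hv
    have h := (abs_le.1 (hsm n N c u k v hF (by omega))).2
    have hq : 1 - (k : ℝ) / n = m₀ / n := by
      rw [hk, Nat.cast_sub hnm.le]; field_simp; ring
    have hk2 : (n : ℝ) - k = m₀ := by rw [hk, Nat.cast_sub hnm.le]; ring
    rw [hq, hk2, hv, one_pow, mul_one, mul_one] at h
    have h1 : C * (m₀ : ℝ) ^ (-(1 / 3) : ℝ) ≤ C * 1 :=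
      mul_le_mul_of_nonneg_left (Real.rpow_le_one_of_one_le_of_nonpos
        (by exact_mod_cast hm) (by norm_num)) hC.le
    have h2 := mul_le_mul_of_nonneg_right h1 (show 0 ≤ (m₀ : ℝ) / n by positivity)
    rw [show M * m₀ / n = (m₀ : ℝ) / n + C * 1 * (m₀ / n) by simp only [M]; ring]
    linarith
  set w := fun i => c i / (n : ℝ)
  set b := low w u η
  set P := tchain c u k [] b with hP
  have hrare := low_rare hR hM hn2 hm hnm.le hT (η := η) (by positivity : 0 < M) hsec hη0
    (by linarith) (hδ.trans (min_le_left _ _))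
  have hpt : ∀ fs, Ortho fs → fs.length = ([] : List (E n)).length + k →
      Real.log (kappa m₀ * (n / 2 * meanAbs n) ^ m₀) - Real.log (ZE.vol c u fs) ≤
        2 * m₀ * η + m₀ * (n * δ + 1) * b fs := by
    intro fs ho hl
    have hl' : fs.length + m₀ = n := by simp [hk] at hl; omega
    obtain ⟨hθ, hθmin⟩ := least_spec w u ho (by omega)
    set s0 := normH w u (least w u fs)
    have hs0 : Real.exp (-(n * δ) - 1) ≤ s0 := normH_ge (by omega) hTest hθ.1
    have hspos : 0 < s0 := (Real.exp_pos _).trans_le hs0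
    have hbase : 0 < kappa m₀ * (n / 2 * meanAbs n * s0) ^ m₀ := by
      have := kappa_pos m₀
      have := meanAbs_pos (n := n) (by omega)
      positivity
    have h1 := Real.log_le_log hbase (vol_state_ge (by omega) ho hl' hspos hθmin)
    rw [mul_pow _ s0, ← mul_assoc, Real.log_mul (by
      have := kappa_pos m₀
      have := meanAbs_pos (n := n) (by omega)
      positivity) (by positivity), Real.log_pow] at h1
    refine (sub_le_sub_left h1 _).trans ?_
    rw [sub_add_cancel_left]
    simp only [b, low]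
    have hlow : -(n * δ) - 1 ≤ Real.log s0 := (Real.le_log_iff_exp_le hspos).2 hs0
    split_ifs with hcase
    · have := mul_le_mul_of_nonneg_left hlow hm0.le
      have : 0 ≤ 2 * (m₀ : ℝ) * η := by positivity
      linarith
    · have hle : 1 - η ≤ s0 := not_lt.1 hcase
      have h2 := Real.log_le_log (by linarith) hle
      have h3 := Real.one_sub_inv_le_log_of_pos (show (0 : ℝ) < 1 - η by linarith)
      have h4 : (1 - η)⁻¹ ≤ 1 + 2 * η := by
        rw [inv_le_iff_one_le_mul₀' (by linarith)]; nlinarith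
      have := mul_le_mul_of_nonneg_left (show -(2 * η) ≤ Real.log s0 by linarith) hm0.le
      linarith
  refine (tchain_mono hF _ _ Ortho.nil hk' hpt).trans ?_
  rw [tchain_add, tchain_const hF _ _ Ortho.nil hk', tchain_const_mul]
  have hη' : 2 * m₀ * η ≤ ε / 2 := by
    have := mul_le_mul_of_nonneg_left (min_le_right (1 / 4) (ε / (4 * (m₀ : ℝ))))
      (show 0 ≤ 2 * (m₀ : ℝ) by positivity)
    rw [show 2 * (m₀ : ℝ) * (ε / (4 * m₀)) = ε / 2 by field_simp; ring] at this
    exact this
  have hPK : P ≤ K * δ := by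
    rw [hK, div_mul_eq_mul_div, le_div_iff₀ (by positivity)]
    exact hrare
  have hδK : m₀ * (K * δ) ≤ ε / 2 := by
    have := mul_le_mul_of_nonneg_left (hδ.trans (min_le_right _ _))
      (show 0 ≤ m₀ * K by positivity)
    rw [show (m₀ : ℝ) * K * (ε / (2 * m₀ * K)) = ε / 2 by field_simp] at this
    linarith
  have hnd : 0 ≤ (n : ℝ) * δ := by positivity
  have h1 := mul_le_mul_of_nonneg_left hPK (show 0 ≤ (m₀ : ℝ) * (n * δ + 1) by positivity)
  have h2 := mul_le_mul_of_nonneg_right hδK (show 0 ≤ (n : ℝ) * δ + 1 by positivity)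
  linarith [mul_nonneg hε.le hnd]

end Vale.Agent.P237.Sharp
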