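import Vale.Agent.P237.Asymp.Base

/-!
P237: definitions for the sharp Petty inequality in high dimension.

A tested measure is a finite probability measure on the sphere that satisfies the first inequality
of Minkowski with isoperimetric excess `δ`. The tilted chain reweights the chain of
`Asymp.Pins` inside a window around the typical length of a component.
-/

noncomputable section

open MeasureTheory Set
open scoped RealInnerProductSpace

namespace Vale.Agent.P237.Sharp

open Asymp

variable {n N : ℕ}

/-- The direction of a vector. -/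
def dir (x : E n) : E n := ‖x‖⁻¹ • x

/-- The average over the unit sphere, as an average over the ball of a function of the direction. -/
def sphAvg (f : E n → ℝ) : ℝ :=
  (kappa n)⁻¹ * ∫ x in Metric.closedBall (0 : E n) 1, f (dir x)

/-- The mean absolute coordinate of a point of the unit sphere. -/
def meanAbs (n : ℕ) : ℝ := 2 * kappa (n - 1) / (n * kappa n)

/-- A probability measure on the sphere passing the first Minkowski test with excess `δ`. -/
def Tested (δ : ℝ) (w : Fin N → ℝ) (u : Fin N → E n) : Prop :=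
  0 ≤ δ ∧ (∀ i, 0 ≤ w i) ∧ (∀ i, ‖u i‖ = 1) ∧ ∑ i, w i = 1 ∧
    ∀ (h : Fin N → ℝ) (L : Set (E n)), (∀ i, 0 ≤ h i) → IsCompact L → Convex ℝ L →
      (0 : E n) ∈ L → L ⊆ Poly u h →
      (volume L).toReal ≤ kappa n * ((1 + δ) * ∑ i, w i * h i) ^ n

/-- A frame whose normalised measure is tested. -/
def FrameTested (δ : ℝ) (c : Fin N → ℝ) (u : Fin N → E n) : Prop :=
  Frame c u ∧ Tested δ (fun i => c i / n) u

/-- The volume of the zonotope of a frame. -/
def zonoVol (c : Fin N → ℝ) (u : Fin N → E n) : ℝ := (volume (zono fun i => c i • u i)).toReal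

/-- The same volume for the uniform frame. -/
def ballVol (n : ℕ) : ℝ := kappa (n - 1) ^ n / kappa n ^ (n - 1)

/-- Petty's inequality with the margin `exp (γ n δ)`, for a frame with excess `δ`. -/
def Gain (γ δ : ℝ) (c : Fin N → ℝ) (u : Fin N → E n) : Prop :=
  Real.exp (γ * n * δ) * ballVol n ≤ (1 + δ) ^ n * zonoVol c u

/-- The normalised support function of the zonoid of a measure. -/
def normH (w : Fin N → ℝ) (u : Fin N → E n) (θ : E n) : ℝ :=
  (meanAbs n)⁻¹ * ∑ i, w i * |⟪u i, θ⟫|

/-- A tangential subgradient of `normH` on the sphere. -/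
def gradH (w : Fin N → ℝ) (u : Fin N → E n) (θ : E n) : E n :=
  (meanAbs n)⁻¹ • ∑ i, (w i * Real.sign ⟪u i, θ⟫) • (u i - ⟪u i, θ⟫ • θ)

/-- The Dirichlet energy of `normH`. -/
def gradQ (w : Fin N → ℝ) (u : Fin N → E n) : ℝ := sphAvg fun θ => ‖gradH w u θ‖ ^ 2

/-- The kernel without its quadratic part. -/
def phi (t : ℝ) : ℝ := t * Real.arcsin t - t ^ 2

/-- The mean of the kernel against a uniform direction. -/
def phiMean (n : ℕ) : ℝ := sphAvg fun θ : E n => (∑ j, phi (θ j)) / n

/-- The deviation of the second moments from those of the sphere. -/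
def covDev (w : Fin N → ℝ) (u : Fin N → E n) : ℝ :=
  n * ∑ j, ∑ k, (∑ i, w i * (u i j * u i k) - if j = k then (n : ℝ)⁻¹ else 0) ^ 2

/-- The energy of the deviation of the higher moments. -/
def fourVal (w : Fin N → ℝ) (u : Fin N → E n) : ℝ :=
  n * (∑ i, ∑ j, w i * w j * phi ⟪u i, u j⟫ - phiMean n)

/-- The half-width of the window in dimension `m`. -/
def winW (m : ℕ) : ℝ := min (1 / 6) ((m : ℝ) ^ (-(1 / 3) : ℝ))

/-- The window. -/
def win (m : ℕ) (e : ℝ) : ℝ := max 0 (1 - (e / winW m) ^ 2) ^ 3

/-- The tilt of the step law. -/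
def tilt (m : ℕ) (s : ℝ) : ℝ := 1 + (s⁻¹ - 1) * win m (s - 1)

/-- The exact loss of a step at a direction of relative length `s`. -/
def lstep (m : ℕ) (s : ℝ) : ℝ :=
  s * (s * tilt m s * Real.log (s * tilt m s) - s * tilt m s + 1) + (s - 1) ^ 2 / 2

/-- The relative length of the component orthogonal to the state. -/
def sval (es : List (E n)) (x : E n) : ℝ :=
  ‖perp es x‖ / √(((n : ℝ) - es.length) / n)

/-- The normalisation of the tilted step. -/
def tnorm (c : Fin N → ℝ) (u : Fin N → E n) (es : List (E n)) : ℝ :=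
  ∑ i, prob c u es i * tilt (n - es.length) (sval es (u i))

/-- The tilted step law. -/
def tprob (c : Fin N → ℝ) (u : Fin N → E n) (es : List (E n)) (i : Fin N) : ℝ :=
  prob c u es i * tilt (n - es.length) (sval es (u i)) / tnorm c u es

/-- The expectation of `f` after `k` tilted steps from the state `es`. -/
def tchain (c : Fin N → ℝ) (u : Fin N → E n) : ℕ → List (E n) → (List (E n) → ℝ) → ℝ
  | 0, es, f => f es
  | k + 1, es, f => ∑ i, tprob c u es i * tchain c u k (nxt es (u i)) f

/-- The mean loss per dimension, as a function of the direction. -/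
def lossFun (c : Fin N → ℝ) (u : Fin N → E n) (m₀ : ℕ) (v : E n) : ℝ :=
  (n : ℝ)⁻¹ * ∑ m ∈ Finset.Ioc m₀ n,
    (1 + 3 * winW m) * tchain c u (n - m) [] fun es => lstep m (sval es v)

/-- Directions with small recorded coefficients along the tilted chain. -/
def GoodDir (c : Fin N → ℝ) (u : Fin N → E n) (θ : E n) : Prop :=
  ‖θ‖ = 1 ∧ ∀ k ≤ n, tchain c u k [] (far (√(n : ℝ))⁻¹ θ) ≤ (√(n : ℝ))⁻¹

end Vale.Agent.P237.Sharp
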