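import Vale.Agent.P237.Sharp.Main
import Vale.Agent.P237.Sharp.Ellipsoid

/-!
P237: Petty's inequality in high dimension with stability and with its equality cases.
-/

noncomputable section

open MeasureTheory Set
open scoped RealInnerProductSpace

namespace Vale.Agent.P237.Sharp

/-- All three statements follow from the frame inequality. -/
theorem petty_all (hFP : FramePetty) : PettyHighDim ∧ PettyStability ∧ PettyEquality := by
  have hS := pettyStability hFP
  refine ⟨pettyHighDim hFP, hS, ?_⟩
  obtain ⟨γ, hγ, n₀, h⟩ := hS
  exact ⟨max n₀ 2, fun n hn K hK hc hi => equality_iff_ellipsoid (le_of_max_le_right hn) hγ hK hc hi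
    fun ε hε hε1 hfar => h n (le_of_max_le_left hn) ε hε hε1 K hK hc hi hfar⟩

end Vale.Agent.P237.Sharp
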