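import Vale.Agent.P237.Sharp.Avg

/-!
P237: Gaussian integrals of powers of the norm, and the splitting of the space along an orthonormal
list.
-/

noncomputable section

open MeasureTheory Set Metric
open scoped RealInnerProductSpace

namespace Vale.Agent.P237.Sharp

open Asymp

variable {n : ℕ} {ι : Type*} [Fintype ι]

/-- The Gaussian weight. -/
def gw {V : Type*} [Norm V] (x : V) : ℝ := Real.exp (-(‖x‖ ^ 2) / 2)

/-- The total Gaussian mass. -/
def gz (ι : Type*) [Fintype ι] : ℝ := ∫ x : EuclideanSpace ℝ ι, gw x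

/-- The radial Gaussian integral. -/
def gJ (p : ℕ) : ℝ := ∫ r in Ioi (0 : ℝ), r ^ p * Real.exp (-(r ^ 2) / 2)

lemma gJ_eq (p : ℕ) :
    gJ p = (1 / 2 : ℝ) ^ (-((p : ℝ) + 1) / 2) * (1 / 2) * Real.Gamma (((p : ℝ) + 1) / 2) := by
  have hp : (0 : ℝ) ≤ p := Nat.cast_nonneg p
  rw [← integral_rpow_mul_exp_neg_mul_rpow two_pos (show (-1 : ℝ) < p by linarith)
    (show (0 : ℝ) < 1 / 2 by norm_num)]
  refine setIntegral_congr_fun measurableSet_Ioi fun r _ => ?_
  simp only [Real.rpow_natCast, Real.rpow_two]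
  congr 2
  ring

lemma gJ_pos (p : ℕ) : 0 < gJ p := by
  rw [gJ_eq]
  have := Real.Gamma_pos_of_pos (show (0 : ℝ) < ((p : ℝ) + 1) / 2 by positivity)
  positivity

lemma gJ_add_two (p : ℕ) : gJ (p + 2) = ((p : ℝ) + 1) * gJ p := by
  rw [gJ_eq, gJ_eq]
  push_cast
  rw [show ((p : ℝ) + 2 + 1) / 2 = ((p : ℝ) + 1) / 2 + 1 by ring,
    Real.Gamma_add_one (by positivity),
    show -((p : ℝ) + 2 + 1) / 2 = -((p : ℝ) + 1) / 2 + -1 by ring,
    Real.rpow_add (by norm_num), Real.rpow_neg_one]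
  ring

lemma gJ_succ (p : ℕ) : gJ (p + 1) * Real.Gamma (((p : ℝ) + 1) / 2) =
    √2 * Real.Gamma (((p : ℝ) + 2) / 2) * gJ p := by
  have h : (1 / 2 : ℝ) ^ (-((p : ℝ) + 1 + 1) / 2) = (1 / 2 : ℝ) ^ (-((p : ℝ) + 1) / 2) * √2 := by
    rw [show -((p : ℝ) + 1 + 1) / 2 = -((p : ℝ) + 1) / 2 + -(1 / 2) by ring,
      Real.rpow_add (by norm_num), Real.rpow_neg (by norm_num), ← Real.inv_rpow (by norm_num),
      ← Real.sqrt_eq_rpow]
    norm_num
  rw [gJ_eq, gJ_eq]
  push_cast
  rw [h, show ((p : ℝ) + 1 + 1) / 2 = ((p : ℝ) + 2) / 2 by ring]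
  ring

lemma integrable_norm_pow_gw (q : ℕ) :
    Integrable fun x : EuclideanSpace ℝ ι => ‖x‖ ^ q * gw x := by
  rcases isEmpty_or_nonempty ι with h | h
  · rw [volume_euclideanSpace_eq_dirac]
    exact integrable_dirac ENNReal.coe_lt_top
  refine (integrable_fun_norm_addHaar (μ := volume)
    (f := fun r : ℝ => r ^ q * Real.exp (-(r ^ 2) / 2))).2 ?_
  refine (integrableOn_rpow_mul_exp_neg_mul_sq (show (0 : ℝ) < 1 / 2 by norm_num)
    (show (-1 : ℝ) < ((Module.finrank ℝ (EuclideanSpace ℝ ι) - 1 + q : ℕ) : ℝ) by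
      exact lt_of_lt_of_le (by norm_num) (Nat.cast_nonneg _))).congr_fun (fun r _ => ?_)
    measurableSet_Ioi
  simp only [Real.rpow_natCast, smul_eq_mul, pow_add]
  ring_nf

/-- The radial formula, without a factor in the dimension. -/
lemma integral_norm_pow_gw [Nonempty ι] (q : ℕ) :
    (∫ x : EuclideanSpace ℝ ι, ‖x‖ ^ q * gw x) * gJ (Fintype.card ι - 1) =
      gz ι * gJ (Fintype.card ι - 1 + q) := by
  have h : ∀ q : ℕ, ∫ x : EuclideanSpace ℝ ι, ‖x‖ ^ q * gw x =
      ((Fintype.card ι : ℝ) * volume.real (ball (0 : EuclideanSpace ℝ ι) 1)) *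
        gJ (Fintype.card ι - 1 + q) := by
    intro q
    show ∫ x : EuclideanSpace ℝ ι, (fun r : ℝ => r ^ q * Real.exp (-(r ^ 2) / 2)) ‖x‖ = _
    rw [integral_fun_norm_addHaar volume (fun r : ℝ => r ^ q * Real.exp (-(r ^ 2) / 2)),
      finrank_euclideanSpace]
    simp only [nsmul_eq_mul, smul_eq_mul, gJ, pow_add, mul_assoc]
  have h0 := h 0
  simp only [pow_zero, one_mul, add_zero] at h0
  rw [gz, h0, h q]
  ring

lemma gz_pos : 0 < gz ι := by
  rcases isEmpty_or_nonempty ι with h | h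
  · rw [gz, volume_euclideanSpace_eq_dirac, integral_dirac]
    exact Real.exp_pos _
  · refine integral_pos_of_integrable_nonneg_nonzero (x := 0) ?_ ?_ (fun x => (Real.exp_pos _).le)
      (Real.exp_pos _).ne'
    · unfold gw; fun_prop
    · simpa using integrable_norm_pow_gw (ι := ι) 0

/-- The moments of the squared norm of a Gaussian vector. -/
def gmom (d : ℝ) (j : ℕ) : ℝ := ∏ i ∈ Finset.range j, (d + 2 * i)

theorem integral_norm_sq_pow_gw (j : ℕ) :
    ∫ x : EuclideanSpace ℝ ι, (‖x‖ ^ 2) ^ j * gw x = gmom (Fintype.card ι) j * gz ι := by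
  rcases isEmpty_or_nonempty ι with h | h
  · cases j with
    | zero => simp [gmom, gz]
    | succ j => simp [gmom, gz, volume_euclideanSpace_eq_dirac, Finset.prod_range_succ',
        Fintype.card_eq_zero]
  have hd : 1 ≤ Fintype.card ι := Fintype.card_pos
  refine mul_right_cancel₀ (gJ_pos (Fintype.card ι - 1)).ne' ?_
  simp only [← pow_mul]
  rw [integral_norm_pow_gw]
  induction j with
  | zero => simp [gmom]
  | succ j ih =>
    rw [show Fintype.card ι - 1 + 2 * (j + 1) = Fintype.card ι - 1 + 2 * j + 2 by ring, gJ_add_two,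
      gmom, Finset.prod_range_succ, Nat.cast_add, Nat.cast_sub hd, Nat.cast_mul]
    rw [gmom] at ih
    push_cast
    linear_combination ((Fintype.card ι : ℝ) + 2 * j) * ih

/-- Centred moments of the squared norm. -/
theorem integral_centred_gw (p : ℕ) (a : ℝ) :
    ∫ x : EuclideanSpace ℝ ι, (‖x‖ ^ 2 + a) ^ p * gw x =
      (∑ j ∈ Finset.range (p + 1), gmom (Fintype.card ι) j * a ^ (p - j) * p.choose j) * gz ι := by
  simp only [add_pow, Finset.sum_mul]
  rw [integral_finsetSum _ fun j _ => by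
    convert! (integrable_norm_pow_gw (ι := ι) (2 * j)).const_mul (a ^ (p - j) * p.choose j) using 1
    funext x
    rw [pow_mul]
    ring]
  refine Finset.sum_congr rfl fun j _ => ?_
  rw [show gmom (Fintype.card ι) j * a ^ (p - j) * (p.choose j : ℝ) * gz ι =
    (a ^ (p - j) * p.choose j) * (gmom (Fintype.card ι) j * gz ι) by ring,
    ← integral_norm_sq_pow_gw, ← integral_const_mul]
  exact integral_congr_ae (ae_of_all _ fun x => by ring)

theorem integrable_centred_gw (p : ℕ) (a : ℝ) :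
    Integrable fun x : EuclideanSpace ℝ ι => (‖x‖ ^ 2 + a) ^ p * gw x := by
  simp only [add_pow, Finset.sum_mul]
  refine integrable_finsetSum _ fun j _ => ?_
  convert! (integrable_norm_pow_gw (ι := ι) (2 * j)).const_mul (a ^ (p - j) * p.choose j) using 1
  funext x
  rw [pow_mul]
  ring

/-- The coordinates along an orthonormal list and across it. -/
theorem exists_split {es : List (E n)} (h : Ortho es) (hk : es.length ≤ n) :
    ∃ Φ : E n ≃ᵐ EuclideanSpace ℝ {i : Fin n // (i : ℕ) < es.length} ×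
        EuclideanSpace ℝ {i : Fin n // ¬(i : ℕ) < es.length},
      MeasurePreserving Φ volume (volume.prod volume) ∧
      (∀ x, ‖(Φ x).2‖ ^ 2 = ‖perp es x‖ ^ 2) ∧
      ∀ x, ‖(Φ x).1‖ ^ 2 + ‖(Φ x).2‖ ^ 2 = ‖x‖ ^ 2 := by
  set v : Fin n → E n := fun i => if hi : (i : ℕ) < es.length then es.get ⟨i, hi⟩ else 0
  have hv : ∀ j : Fin es.length, v ⟨j, lt_of_lt_of_le j.2 hk⟩ = es.get j := fun j => by simp [v]
  have hon : Orthonormal ℝ (({i : Fin n | (i : ℕ) < es.length}).domRestrict v) := by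
    constructor
    · rintro ⟨i, hi⟩
      simp only [mem_ofPred_eq] at hi
      simpa [domRestrict, v, hi] using h.2 _ (List.getElem_mem hi)
    · rintro ⟨i, hi⟩ ⟨j, hj⟩ hij
      simp only [mem_ofPred_eq] at hi hj
      have := ZE.inner_get h (i := ⟨i, hi⟩) (j := ⟨j, hj⟩) fun e =>
        hij (Subtype.ext (Fin.ext (by simpa using congrArg Fin.val e)))
      simpa [domRestrict, v, hi, hj] using this
  obtain ⟨b, hb⟩ := hon.exists_orthonormalBasis_extension_of_card_eq (by simp)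
  let Φ := b.measurableEquiv.trans ((MeasurableEquiv.toLp 2 (Fin n → ℝ)).symm.trans
    ((MeasurableEquiv.piEquivPiSubtypeProd (fun _ : Fin n => ℝ)
      (fun i : Fin n => (i : ℕ) < es.length)).trans
      ((MeasurableEquiv.toLp 2 _).prodCongr (MeasurableEquiv.toLp 2 _))))
  have hP : ∀ x, ‖(Φ x).1‖ ^ 2 + ‖(Φ x).2‖ ^ 2 = ‖x‖ ^ 2 := by
    intro x
    rw [EuclideanSpace.norm_sq_eq, EuclideanSpace.norm_sq_eq, ← b.repr.norm_map x,
      EuclideanSpace.norm_sq_eq]
    exact Fintype.sum_subtype_add_sum_subtype (fun i : Fin n => (i : ℕ) < es.length)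
      fun i => ‖b.repr x i‖ ^ 2
  refine ⟨Φ, ?_, fun x => ?_, hP⟩
  · exact (((PiLp.volume_preserving_toLp _).prod (PiLp.volume_preserving_toLp _)).comp
      ((volume_preserving_piEquivPiSubtypeProd (fun _ : Fin n => ℝ) _).comp
        ((EuclideanSpace.volume_preserving_symm_measurableEquiv_toLp _).comp
          b.measurePreserving_measurableEquiv)))
  · have h1 : ‖(Φ x).1‖ ^ 2 = (es.map fun e => ⟪e, x⟫ ^ 2).sum := by
      rw [EuclideanSpace.norm_sq_eq]
      show ∑ i : {i : Fin n // (i : ℕ) < es.length}, ‖b.repr x i.1‖ ^ 2 = _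
      rw [← Fin.sum_univ_fun_getElem es fun e => ⟪e, x⟫ ^ 2]
      refine Fintype.sum_equiv
        ⟨fun i => ⟨i.1, i.2⟩, fun j => ⟨⟨j, lt_of_lt_of_le j.2 hk⟩, j.2⟩, fun i => rfl,
          fun j => rfl⟩ _ _ fun i => ?_
      rw [OrthonormalBasis.repr_apply_apply, Real.norm_eq_abs, sq_abs, hb _ i.2]
      simp [v, i.2]
    linarith [hP x, h.norm_perp_sq x]

end Vale.Agent.P237.Sharp
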