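import Vale.Agent.P237.Sharp.Avg

/-!
P237: Petty's inequality down to any multiple of `1 / n` in the excess, from the shape of the loss.
-/

noncomputable section

open MeasureTheory Set Filter
open scoped RealInnerProductSpace Topology

namespace Vale.Agent.P237.Sharp

open Asymp

variable {n N : ℕ} {c : Fin N → ℝ} {u : Fin N → E n}

/-- The test of the loss: its mean under the frame exceeds that over the sphere by little more
than `δ`. -/
lemma loss_test (hR : RadialTest) (hn : 2 ≤ n) {δ γ ε : ℝ} (hT : FrameTested δ c u) {m₀ : ℕ}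
    (hγ0 : 0 < γ) (hγ1 : γ ≤ 1 / 2) (hε0 : 0 ≤ ε) (hε : ε ≤ γ / 16)
    {G : E n → ℝ} (hGm : Measurable G) (hG : ∀ θ, 0 ≤ G θ ∧ G θ ≤ ε)
    (hG2 : sphAvg (fun θ => G θ ^ 2) ≤ ε / n)
    (hbad : sphAvg ({θ | ¬GoodDir c u θ}.indicator fun _ => 1) ≤ ε / n)
    (hshape : ∀ θ, GoodDir c u θ → lossFun c u m₀ θ ≤ ε ∧ ∀ v, ‖v‖ = 1 →
      lossFun c u m₀ v ≤ lossFun c u m₀ θ + G θ * √(1 - ⟪v, θ⟫ ^ 2) +
        (1 - γ) * (1 - |⟪v, θ⟫|)) :
    (1 + γ / 2) * (∑ i, c i / n * lossFun c u m₀ (u i) - sphAvg (lossFun c u m₀)) ≤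
      δ + (1 + 64 * (1 + 4 / γ) / γ) * (ε / n) := by
  classical
  obtain ⟨hF, hδ, hw, hu, hw1, htest⟩ := hT
  have hn0 : (0 : ℝ) < n := by exact_mod_cast (show 0 < n by omega)
  set t := 1 + γ / 2 with ht
  set L := lossFun c u m₀
  have hL0 : ∀ v, 0 ≤ L v := lossFun_nonneg hF m₀
  -- some direction is good
  obtain ⟨θ₀, hθ₀⟩ : ∃ θ, GoodDir c u θ := by
    by_contra hne
    push Not at hne
    rw [show {θ : E n | ¬GoodDir c u θ} = univ from eq_univ_of_forall hne, indicator_univ,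
      sphAvg_const, le_div_iff₀ hn0] at hbad
    have : (2 : ℝ) ≤ n := by exact_mod_cast hn
    linarith
  set S := {θ | GoodDir c u θ}
  have hS : MeasurableSet S := measurableSet_goodDir c u
  set p := S.indicator fun θ => 1 - t * L θ
  set g := S.indicator fun θ => t * G θ
  set h := fun v => 1 - t * L v
  set a := γ / 4
  have hsq : ∀ v θ : E n, 0 ≤ √(1 - ⟪v, θ⟫ ^ 2) ∧ √(1 - ⟪v, θ⟫ ^ 2) ≤ 1 := fun v θ =>
    ⟨Real.sqrt_nonneg _, Real.sqrt_le_one.2 (sub_le_self _ (sq_nonneg _))⟩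
  have habs : ∀ v θ : E n, ‖v‖ = 1 → ‖θ‖ = 1 → |⟪v, θ⟫| ≤ 1 := fun v θ hv hθ => by
    simpa [hv, hθ] using abs_real_inner_le_norm v θ
  have hpθ : ∀ θ, GoodDir c u θ → 1 - γ / 8 ≤ 1 - t * L θ := fun θ hθ => by
    have := mul_le_mul_of_nonneg_left ((hshape θ hθ).1.trans hε) (show 0 ≤ t by linarith)
    nlinarith
  have hkey : ∀ θ v, GoodDir c u θ → ‖v‖ = 1 →
      a * (1 - |⟪v, θ⟫|) + (1 - t * L θ) * |⟪v, θ⟫| - t * G θ * √(1 - ⟪v, θ⟫ ^ 2) ≤ h v := by
    intro θ v hθ hv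
    have h1 := mul_le_mul_of_nonneg_left ((hshape θ hθ).2 v hv) (show 0 ≤ t by linarith)
    have h2 := hpθ θ hθ
    have hy := habs v θ hv hθ.1
    have h3 : 0 ≤ ((1 - t * L θ) - a - t * (1 - γ)) * (1 - |⟪v, θ⟫|) := by
      refine mul_nonneg ?_ (by linarith)
      have : 1 - γ / 8 - a - t * (1 - γ) = γ / 8 + γ ^ 2 / 2 := by simp only [a, ht]; ring
      nlinarith
    simp only [h]
    nlinarith
  have hh0 : ∀ v, ‖v‖ = 1 → 0 ≤ h v := fun v hv => by
    refine le_trans ?_ (hkey θ₀ v hθ₀ hv)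
    have h1 := mul_le_mul (mul_le_mul_of_nonneg_left ((hG θ₀).2.trans hε) (show 0 ≤ t by linarith))
      (hsq v θ₀).2 (hsq v θ₀).1 (by positivity)
    have h2 := mul_nonneg (show 0 ≤ 1 - t * L θ₀ - a by simp only [a]; linarith [hpθ θ₀ hθ₀])
      (abs_nonneg ⟪v, θ₀⟫)
    have h3 : t * (γ / 16) ≤ a := by simp only [a, ht]; nlinarith
    nlinarith
  have hpm : Measurable p := (measurable_const.sub ((measurable_lossFun c u m₀).const_mul t)).indicator hS
  have hgm : Measurable g := (hGm.const_mul t).indicator hS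
  have hpb : ∀ θ, 0 ≤ p θ ∧ p θ ≤ 1 := fun θ => by
    by_cases hθ : θ ∈ S
    · simp only [p, indicator_of_mem hθ]
      exact ⟨by linarith [hpθ θ hθ], sub_le_self _ (mul_nonneg (by linarith) (hL0 θ))⟩
    · simp [p, indicator_of_notMem hθ]
  have hgb : ∀ θ, 0 ≤ g θ ∧ g θ ≤ t * ε := fun θ => by
    by_cases hθ : θ ∈ S
    · simp only [g, indicator_of_mem hθ]
      exact ⟨mul_nonneg (by linarith) (hG θ).1, mul_le_mul_of_nonneg_left (hG θ).2 (by linarith)⟩
    · simp only [g, indicator_of_notMem hθ]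
      exact ⟨le_rfl, by positivity⟩
  have hmain := hR n N (fun i => c i / n) u δ a 1 (t * ε) h p g hn ⟨hδ, hw, hu, hw1, htest⟩
    (by positivity) hh0 hpm hgm hpb hgb (fun θ v _ hv hp => by
      have hθ : θ ∈ S := by by_contra h; simp [p, indicator_of_notMem h] at hp
      simpa only [p, g, indicator_of_mem hθ] using hkey θ v hθ hv)
  -- the averages
  have hgI : DirInt fun θ => g θ ^ 2 := .of_bounded (hgm.pow_const 2) (B := (t * ε) ^ 2) fun θ _ => by
    rw [abs_of_nonneg (sq_nonneg _)]; exact pow_le_pow_left₀ (hgb θ).1 (hgb θ).2 2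
  have hGI : DirInt fun θ => G θ ^ 2 := .of_bounded (hGm.pow_const 2) (B := ε ^ 2) fun θ _ => by
    rw [abs_of_nonneg (sq_nonneg _)]; exact pow_le_pow_left₀ (hG θ).1 (hG θ).2 2
  have hg2 : sphAvg (fun θ => g θ ^ 2) ≤ 4 * (ε / n) := by
    refine le_trans (sphAvg_mono hgI (g := fun θ => 4 * G θ ^ 2) (hGI.const_mul 4) (by omega)
      fun θ _ => ?_) ?_
    · by_cases hθ : θ ∈ S
      · simp only [g, indicator_of_mem hθ, mul_pow]
        gcongr; nlinarith
      · simp only [g, indicator_of_notMem hθ]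
        rw [zero_pow two_ne_zero]; positivity
    · rw [sphAvg_const_mul]; linarith
  have hbI : DirInt ({θ | ¬GoodDir c u θ}.indicator fun _ => (1 : ℝ)) :=
    .of_bounded (measurable_const.indicator hS.compl) (B := 1) fun θ _ => by
      by_cases hθ : GoodDir c u θ <;> simp [indicator, hθ]
  have hLI : DirInt L := dirInt_lossFun c u m₀
  have hpI : DirInt p := .of_bounded hpm fun θ _ => by
    rw [abs_of_nonneg (hpb θ).1]; exact (hpb θ).2
  have hp : 1 - t * sphAvg L - ε / n ≤ sphAvg p := by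
    have h1 : sphAvg (fun _ : E n => (1 : ℝ)) ≤
        sphAvg fun θ => p θ + (t * L θ + {θ | ¬GoodDir c u θ}.indicator (fun _ => 1) θ) := by
      refine sphAvg_mono (.of_bounded measurable_const (B := 1) (by simp))
        (hpI.add ((hLI.const_mul t).add hbI)) (by omega) fun θ _ => ?_
      have := mul_nonneg (show 0 ≤ t by linarith) (hL0 θ)
      by_cases hθ : GoodDir c u θ <;> simp [p, S, indicator, hθ, this]
    rw [sphAvg_const, sphAvg_add hpI ((hLI.const_mul t).add hbI),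
      sphAvg_add (hLI.const_mul t) hbI, sphAvg_const_mul] at h1
    linarith
  have hsum : ∑ i, c i / n * h (u i) = 1 - t * ∑ i, c i / n * L (u i) := by
    simp only [h, mul_sub, mul_one, Finset.sum_sub_distrib, hw1, Finset.mul_sum, mul_left_comm]
  rw [hsum] at hmain
  have hI : 0 ≤ ∑ i, c i / n * L (u i) := Finset.sum_nonneg fun i _ => mul_nonneg (hw i) (hL0 _)
  have h2 : 4 * (1 + 1 / a) / a * sphAvg (fun θ => g θ ^ 2) ≤ 64 * (1 + 4 / γ) / γ * (ε / n) := by
    refine (mul_le_mul_of_nonneg_left hg2 (by positivity)).trans_eq ?_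
    simp only [a]; field_simp; ring
  nlinarith [mul_nonneg hδ (mul_nonneg (show 0 ≤ t by linarith) hI)]

theorem globalPetty (hR : RadialTest) (hG : GoodMost) (hS : LossShape) (hI : StepIneq)
    (hB : BottomBound) : GlobalPetty := by
  obtain ⟨γ, hγ0, hγ1, hshape⟩ := hS
  obtain ⟨C, hC, hstep⟩ := hI
  intro c₀ hc₀
  set K := 1 + 64 * (1 + 4 / γ) / γ with hKdef
  have hK : 1 ≤ K := by
    have : 0 ≤ 64 * (1 + 4 / γ) / γ := by positivity
    linarith
  set μ := γ / 16 * min c₀ 1 with hμ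
  have hμ0 : 0 < μ := by have := lt_min hc₀ one_pos; positivity
  -- the cut
  have hlim : Tendsto (fun m : ℕ => C * (m : ℝ) ^ (-(1 / 3) : ℝ)) atTop (𝓝 0) := by
    simpa using ((tendsto_rpow_neg_atTop (y := 1 / 3) (by norm_num)).comp
      tendsto_natCast_atTop_atTop).const_mul C
  obtain ⟨m₀, hm₀, hm1⟩ :=
    ((hlim.eventually (eventually_le_nhds hμ0)).and (eventually_ge_atTop 1)).exists
  set ε := min (γ / 16) (μ / K)
  have hε : 0 < ε := lt_min (by positivity) (div_pos hμ0 (by linarith))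
  obtain ⟨n₁, hn₁⟩ := hG ε hε
  obtain ⟨n₂, hn₂⟩ := hshape ε hε
  obtain ⟨δ₁, hδ₁, n₃, hn₃⟩ := hB m₀ μ hm1 hμ0
  refine ⟨γ / 16, min δ₁ (γ / 16), by positivity, lt_min hδ₁ (by positivity),
    n₁ + n₂ + n₃ + m₀ + 2, fun n N c u δ hn hT hc hδ => ?_⟩
  have hn0 : (0 : ℝ) < n := by exact_mod_cast (show 0 < n by omega)
  have hδ0 : 0 ≤ δ := hT.2.1
  obtain ⟨G, hGm, hGb, hG2, hGs⟩ := hn₂ n N c u m₀ (by omega) hT.1 hm1 (by omega)
  have h1 := loss_test hR (by omega) hT hγ0 hγ1 hε.le (min_le_left _ _) hGm hGb hG2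
    (hn₁ n N c u (by omega) hT.1) hGs
  have h2 := hn₃ n N c u δ (by omega) hT (hδ.trans (min_le_left _ _))
  have h3 := hstep n N c u m₀ hm1 (by omega) hT.1
  set D := ∑ i, c i / n * lossFun c u m₀ (u i) - sphAvg (lossFun c u m₀)
  have h4 : (n : ℝ) * (1 + γ / 2) * D ≤ n * δ + μ := by
    refine le_trans (le_of_eq (mul_assoc _ _ _)) ((mul_le_mul_of_nonneg_left h1 hn0.le).trans ?_)
    rw [← hKdef, mul_add, show (n : ℝ) * (K * (ε / n)) = K * ε by field_simp]
    have := (le_div_iff₀' (show 0 < K by linarith)).1 (min_le_right (γ / 16) (μ / K))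
    change K * ε ≤ μ at this
    linarith
  have h5 : (n : ℝ) * D ≤ n * δ * (1 - γ / 3) + μ := by
    refine le_of_mul_le_mul_left ?_ (show 0 < 1 + γ / 2 by linarith)
    nlinarith [mul_nonneg (mul_nonneg hn0.le hδ0) (mul_nonneg hγ0.le (show 0 ≤ 1 - γ by linarith)),
      mul_nonneg hγ0.le hμ0.le]
  have hμc : μ ≤ γ / 16 * (n * δ) :=
    mul_le_mul_of_nonneg_left ((min_le_left _ _).trans hc) (by positivity)
  have hμ1 : μ ≤ γ / 16 := mul_le_of_le_one_right (by positivity) (min_le_right _ _)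
  have hlog : n * δ * (1 - γ / 16) ≤ n * Real.log (1 + δ) := by
    rw [mul_assoc]
    refine mul_le_mul_of_nonneg_left ?_ hn0.le
    refine le_trans ?_ (Real.one_sub_inv_le_log_of_pos (show 0 < 1 + δ by linarith))
    rw [le_sub_comm, inv_le_iff_one_le_mul₀ (by linarith)]
    nlinarith [mul_le_mul_of_nonneg_left (hδ.trans (min_le_right _ _)) hδ0,
      mul_nonneg (mul_nonneg hδ0 hδ0) hγ0.le]
  have hV := zonoVol_pos (show 0 < n by omega) hT.1
  have hball := ballVol_pos n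
  rw [Gain, ← Real.log_le_log_iff (by positivity) (by positivity),
    Real.log_mul (Real.exp_pos _).ne' hball.ne', Real.log_exp,
    Real.log_mul (by positivity) hV.ne', Real.log_pow]
  nlinarith [mul_le_mul_of_nonneg_left hμ1 (mul_nonneg hn0.le hδ0)]

end Vale.Agent.P237.Sharp
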