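import Vale.Agent.P237.Sharp.KernelSeries

/-!
P237: the higher part of the energy is small against the excess.

For each truncation of the kernel the test function is `1 - t F`; its curvature is controlled by
the recursion of the coefficients and its gradient by duality, term by term in the series.
-/

noncomputable section

open MeasureTheory Set Filter Finset
open scoped RealInnerProductSpace Topology

namespace Vale.Agent.P237.Sharp

namespace Kernel

variable {n N : ℕ}

/-- A point of the great circle through `θ` in the direction `h`. -/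
def geo (θ h : E n) (s : ℝ) : E n := Real.cos s • θ + Real.sin s • h

/-- Sturm comparison against a sinusoid. -/
lemma sturm {q q1 q2 : ℝ → ℝ} {b : ℝ} (hq : ∀ s, HasDerivAt q (q1 s) s)
    (hq1 : ∀ s, HasDerivAt q1 (q2 s) s) (hpos : ∀ s, 0 ≤ q2 s + q s) (hb : 0 ≤ b) (hbπ : b ≤ Real.pi) :
    q 0 * Real.cos b + q1 0 * Real.sin b ≤ q b := by
  have hd : ∀ s, HasDerivAt (fun s => q1 s * Real.sin (b - s) + q s * Real.cos (b - s))
      ((q2 s + q s) * Real.sin (b - s)) s := fun s => by
    have hsub := (hasDerivAt_id' s).const_sub b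
    exact (((hq1 s).fun_mul hsub.sin).add ((hq s).fun_mul hsub.cos)).congr_deriv (by ring)
  have hmono : MonotoneOn (fun s => q1 s * Real.sin (b - s) + q s * Real.cos (b - s)) (Set.Icc 0 b) :=
    monotoneOn_of_hasDerivWithinAt_nonneg (convex_Icc _ _)
      (fun s _ => (hd s).continuousAt.continuousWithinAt) (fun s _ => (hd s).hasDerivWithinAt)
      fun s hs => by
        rw [interior_Icc] at hs
        exact mul_nonneg (hpos s)
          (Real.sin_nonneg_of_nonneg_of_le_pi (by linarith [hs.2]) (by linarith [hs.1]))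
  have h := hmono ⟨le_rfl, hb⟩ ⟨hb, le_rfl⟩ hb
  simp only [sub_zero, sub_self, Real.sin_zero, Real.cos_zero, mul_zero, mul_one, zero_add] at h
  linarith

/-- The mean of the truncated kernel. -/
def meanK (n K : ℕ) : ℝ := ∑ l ∈ range K, bcoef l * mom n (l + 2)

/-- The truncated potential. -/
def potK (K : ℕ) (w : Fin N → ℝ) (u : Fin N → E n) (x : E n) : ℝ :=
  n * (∑ i, w i * phiK K ⟪u i, x⟫ - meanK n K)

/-- Its tangential gradient. -/
def gradK (K : ℕ) (w : Fin N → ℝ) (u : Fin N → E n) (x : E n) : E n :=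
  (n : ℝ) • ∑ i, ∑ l ∈ range K,
    (w i * bcoef l * (2 * l + 4) * ⟪u i, x⟫ ^ (2 * l + 3)) • (u i - ⟪u i, x⟫ • x)

/-- The truncated energy. -/
def valK (K : ℕ) (w : Fin N → ℝ) (u : Fin N → E n) : ℝ :=
  n * (∑ i, ∑ j, w i * w j * phiK K ⟪u i, u j⟫ - meanK n K)

lemma continuous_phiK (K : ℕ) : Continuous (phiK K) := by unfold phiK; fun_prop

lemma continuous_potK (K : ℕ) (w : Fin N → ℝ) (u : Fin N → E n) : Continuous (potK K w u) := by
  unfold potK phiK; fun_prop

lemma continuous_gradK (K : ℕ) (w : Fin N → ℝ) (u : Fin N → E n) : Continuous (gradK K w u) := by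
  unfold gradK; fun_prop

lemma sum_potK (K : ℕ) {w : Fin N → ℝ} (u : Fin N → E n) (hw : ∑ i, w i = 1) :
    ∑ i, w i * potK K w u (u i) = valK K w u := by
  simp only [potK, valK, mul_sub, Finset.sum_sub_distrib, ← Finset.sum_mul, hw, one_mul,
    Finset.mul_sum]
  congr 1
  exact Finset.sum_congr rfl fun i _ => Finset.sum_congr rfl fun j _ => by
    rw [real_inner_comm (u i) (u j)]; ring

lemma integral_phiK (hn : 1 ≤ n) (K : ℕ) {v : E n} (hv : ‖v‖ = 1) :
    ∫ θ, phiK K ⟪v, θ⟫ ∂sph n = meanK n K := by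
  simp only [phiK, meanK]
  rw [integral_finsetSum _ fun l _ => integrable_cont hn (by fun_prop)]
  exact Finset.sum_congr rfl fun l _ => by rw [integral_const_mul, mom_eq hn _ hv]

lemma meanK_nonneg (hn : 1 ≤ n) (K : ℕ) : 0 ≤ meanK n K :=
  Finset.sum_nonneg fun l _ => mul_nonneg (bcoef_nonneg l) (mom_nonneg hn _)

lemma meanK_le (hn : 10 ≤ n) (K : ℕ) : meanK n K ≤ 6 / (n : ℝ) ^ 2 := by
  have h1 : 1 ≤ n := by omega
  have h2 : ∀ l ∈ range K, bcoef l * mom n (l + 2) ≤ (1 / 3) * (((l : ℝ) + 3) * mom n (l + 2)) :=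
    fun l _ => by
      rw [← mul_assoc]
      refine mul_le_mul_of_nonneg_right ((bcoef_le l).trans ?_) (mom_nonneg h1 _)
      rw [div_le_iff₀ (by positivity)]
      nlinarith [(Nat.cast_nonneg l : (0 : ℝ) ≤ l)]
  refine (Finset.sum_le_sum h2).trans ?_
  rw [← Finset.mul_sum]
  have := mul_le_mul_of_nonneg_left (mom_tail hn K) (show (0 : ℝ) ≤ 1 / 3 by norm_num)
  linarith [show 1 / 3 * (18 / (n : ℝ) ^ 2) = 6 / (n : ℝ) ^ 2 by ring]

lemma potK_curv (hn : 1 ≤ n) (K : ℕ) {w : Fin N → ℝ} {u : Fin N → E n} (hw : ∀ i, 0 ≤ w i)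
    (hu : ∀ i, ‖u i‖ = 1) {M : ℝ} (hM : ∀ e, ‖e‖ = 1 → ∑ i, w i * ⟪u i, e⟫ ^ 4 ≤ M)
    {θ v : E n} (hθ : ‖θ‖ = 1) (hv : ‖v‖ = 1) :
    (10 * n * M - potK K w u θ) * |⟪v, θ⟫| - ‖gradK K w u θ‖ * √(1 - ⟪v, θ⟫ ^ 2) ≤
      10 * n * M - potK K w u v := by
  set L := 10 * (n : ℝ) * M with hL
  -- reduce to a point in the hemisphere of `θ`
  obtain ⟨v', hv', hy, hF⟩ : ∃ v' : E n, ‖v'‖ = 1 ∧ ⟪v', θ⟫ = |⟪v, θ⟫| ∧
      potK K w u v' = potK K w u v := by
    rcases le_or_gt 0 ⟪v, θ⟫ with h | h
    · exact ⟨v, hv, (abs_of_nonneg h).symm, rfl⟩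
    · refine ⟨-v, by rw [norm_neg, hv], by rw [inner_neg_left, abs_of_neg h], ?_⟩
      simp [potK, phiK, pow_mul]
  rw [← hF, ← sq_abs ⟪v, θ⟫, ← hy]
  set y := ⟪v', θ⟫ with hydef
  have hy0 : 0 ≤ y := hy ▸ abs_nonneg _
  have hy1 : y ≤ 1 := (real_inner_le_norm v' θ).trans_eq (by rw [hv', hθ, one_mul])
  have hnorm : ‖v' - y • θ‖ ^ 2 = 1 - y ^ 2 := by
    rw [norm_sub_sq_real, norm_smul, hθ, hv', real_inner_smul_right, ← hydef, Real.norm_eq_abs,
      mul_one, sq_abs]
    ring
  rcases eq_or_ne (v' - y • θ) 0 with h0 | h0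
  · rw [h0, norm_zero] at hnorm
    have hy2 : y = 1 := by nlinarith
    rw [hy2, one_smul, sub_eq_zero] at h0
    simp [hy2, h0]
  set h := ‖v' - y • θ‖⁻¹ • (v' - y • θ) with hh
  have hh1 : ‖h‖ = 1 := by
    rw [hh, norm_smul, norm_inv, norm_norm, inv_mul_cancel₀ (norm_ne_zero_iff.2 h0)]
  have hperp : ⟪θ, h⟫ = 0 := by
    rw [hh, real_inner_smul_right, inner_sub_right, real_inner_smul_right,
      real_inner_self_eq_norm_sq, hθ, real_inner_comm v' θ]
    ring
  have hsq : ‖v' - y • θ‖ = √(1 - y ^ 2) := by rw [← hnorm, Real.sqrt_sq (norm_nonneg _)]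
  set b := Real.arccos y with hb
  have hgeo : geo θ h b = v' := by
    rw [geo, hb, Real.cos_arccos (by linarith) hy1, Real.sin_arccos, ← hsq, hh, smul_smul,
      mul_inv_cancel₀ (norm_ne_zero_iff.2 h0), one_smul, add_sub_cancel]
  set π2 := Real.pi / 2 with hπ2
  have hgd : ∀ (a : E n) (s : ℝ),
      HasDerivAt (fun s => ⟪a, geo θ h s⟫) ⟪a, geo θ h (s + π2)⟫ s := fun a s => by
    have h1 := ((Real.hasDerivAt_cos s).mul_const ⟪a, θ⟫).add
      ((Real.hasDerivAt_sin s).mul_const ⟪a, h⟫)
    simp only [geo, inner_add_right, real_inner_smul_right, hπ2, Real.cos_add_pi_div_two,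
      Real.sin_add_pi_div_two]
    exact h1
  have hgg : ∀ s, geo θ h (s + π2 + π2) = -geo θ h s := fun s => by
    simp only [geo, hπ2, Real.cos_add_pi_div_two, Real.sin_add_pi_div_two, neg_smul]
    abel
  set T := fun (i : Fin N) (s : ℝ) => ⟪u i, geo θ h s⟫ with hT
  set B := fun (i : Fin N) (s : ℝ) => ⟪u i, geo θ h (s + π2)⟫ with hB
  set q := fun s => L - potK K w u (geo θ h s) with hq
  set q1 := fun s => -((n : ℝ) * ∑ i, w i * ∑ l ∈ range K,
    bcoef l * ((2 * l + 4) * T i s ^ (2 * l + 3) * B i s)) with hq1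
  set q2 := fun s => -((n : ℝ) * ∑ i, w i * ∑ l ∈ range K,
    bcoef l * ((2 * l + 4) * ((2 * l + 3) * T i s ^ (2 * l + 2) * B i s ^ 2
      - T i s ^ (2 * (l + 2))))) with hq2
  have hTd : ∀ i s, HasDerivAt (T i) (B i s) s := fun i s => hgd (u i) s
  have hBd : ∀ i s, HasDerivAt (B i) (-T i s) s := fun i s => by
    have h1 := (hgd (u i) (s + π2)).comp_add_const s π2
    rw [hgg, inner_neg_right] at h1
    exact h1
  have hd0 : ∀ s, HasDerivAt q (q1 s) s := fun s => by
    simp only [hq, hq1, potK]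
    refine ((((HasDerivAt.fun_sum fun i _ => ((HasDerivAt.fun_sum fun l _ =>
      ((hTd i s).fun_pow (2 * (l + 2))).const_mul (bcoef l)).const_mul (w i))).sub_const
        (meanK n K)).const_mul (n : ℝ)).const_sub L).congr_deriv ?_
    congr 1
    congr 1
    refine Finset.sum_congr rfl fun i _ => ?_
    congr 1
    refine Finset.sum_congr rfl fun l _ => ?_
    rw [show 2 * (l + 2) - 1 = 2 * l + 3 by omega]
    push_cast
    ring
  have hd1 : ∀ s, HasDerivAt q1 (q2 s) s := fun s => by
    simp only [hq1, hq2]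
    refine (((HasDerivAt.fun_sum fun i _ => ((HasDerivAt.fun_sum fun l _ =>
      ((((hTd i s).fun_pow (2 * l + 3)).const_mul (2 * (l : ℝ) + 4)).fun_mul (hBd i s)).const_mul
        (bcoef l)).const_mul (w i))).const_mul (n : ℝ)).fun_neg).congr_deriv ?_
    congr 1
    congr 1
    refine Finset.sum_congr rfl fun i _ => ?_
    congr 1
    refine Finset.sum_congr rfl fun l _ => ?_
    rw [show 2 * l + 3 - 1 = 2 * l + 2 by omega]
    push_cast
    ring
  have hpair : ∀ s, ‖geo θ h s‖ = 1 ∧ ⟪geo θ h s, geo θ h (s + π2)⟫ = 0 := fun s => by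
    constructor
    · have : ‖geo θ h s‖ ^ 2 = 1 ^ 2 := by
        rw [geo, norm_add_sq_real, norm_smul, norm_smul, hθ, hh1, real_inner_smul_left,
          real_inner_smul_right, hperp, Real.norm_eq_abs, Real.norm_eq_abs, mul_one, mul_one,
          sq_abs, sq_abs]
        linear_combination Real.cos_sq_add_sin_sq s
      exact (pow_left_inj₀ (norm_nonneg _) zero_le_one two_ne_zero).1 this
    · simp only [geo, hπ2, Real.cos_add_pi_div_two, Real.sin_add_pi_div_two, inner_add_left,
        inner_add_right, real_inner_smul_left, real_inner_smul_right, real_inner_self_eq_norm_sq,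
        hθ, hh1, hperp, real_inner_comm θ h]
      ring
  have hpos : ∀ s, 0 ≤ q2 s + q s := fun s => by
    have e : q2 s + q s = L - n * ∑ i, w i * curv K (T i s) (B i s ^ 2) + n * meanK n K := by
      have e1 : ∀ i, curv K (T i s) (B i s ^ 2) = (∑ l ∈ range K, bcoef l * ((2 * l + 4) *
          ((2 * l + 3) * T i s ^ (2 * l + 2) * B i s ^ 2 - T i s ^ (2 * (l + 2))))) +
            phiK K (T i s) := fun i => by
        rw [curv, phiK, ← Finset.sum_add_distrib]
        exact Finset.sum_congr rfl fun l _ => by ring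
      have e2 : ∑ i, w i * curv K (T i s) (B i s ^ 2) = (∑ i, w i * ∑ l ∈ range K, bcoef l *
          ((2 * l + 4) * ((2 * l + 3) * T i s ^ (2 * l + 2) * B i s ^ 2 - T i s ^ (2 * (l + 2))))) +
            ∑ i, w i * phiK K (T i s) := by
        rw [← Finset.sum_add_distrib]
        exact Finset.sum_congr rfl fun i _ => by rw [e1 i, mul_add]
      rw [e2]
      simp only [hq, hq2, potK, hT]
      ring
    have hbound : ∀ i, curv K (T i s) (B i s ^ 2) ≤ 8 * T i s ^ 4 + 2 * B i s ^ 4 := fun i => by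
      have hbes : T i s ^ 2 + B i s ^ 2 ≤ 1 := by
        have h0 := sq_nonneg ‖u i - T i s • geo θ h s - B i s • geo θ h (s + π2)‖
        rw [norm_sub_sq_real, norm_sub_sq_real, norm_smul, norm_smul, inner_sub_left,
          real_inner_smul_right, real_inner_smul_right, real_inner_smul_left, real_inner_smul_right,
          (hpair s).1, (hpair (s + π2)).1, (hpair s).2, hu, Real.norm_eq_abs, Real.norm_eq_abs,
          mul_one, mul_one, sq_abs, sq_abs] at h0
        simp only [hT, hB] at h0 ⊢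
        linarith
      refine (curv_le K (sq_nonneg _) (by linarith)).trans (le_of_eq ?_)
      ring
    have h4 : ∑ i, w i * curv K (T i s) (B i s ^ 2) ≤ 10 * M := by
      calc ∑ i, w i * curv K (T i s) (B i s ^ 2)
          ≤ ∑ i, w i * (8 * T i s ^ 4 + 2 * B i s ^ 4) :=
            Finset.sum_le_sum fun i _ => mul_le_mul_of_nonneg_left (hbound i) (hw i)
        _ = 8 * (∑ i, w i * T i s ^ 4) + 2 * (∑ i, w i * B i s ^ 4) := by
            rw [Finset.mul_sum, Finset.mul_sum, ← Finset.sum_add_distrib]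
            exact Finset.sum_congr rfl fun i _ => by ring
        _ ≤ 10 * M := by linarith [hM _ (hpair s).1, hM _ (hpair (s + π2)).1]
    rw [e, hL]
    have := mul_le_mul_of_nonneg_left h4 (Nat.cast_nonneg n : (0 : ℝ) ≤ n)
    have := mul_nonneg (Nat.cast_nonneg n : (0 : ℝ) ≤ n) (meanK_nonneg hn K)
    linarith
  have hst := sturm hd0 hd1 hpos (Real.arccos_nonneg y) (Real.arccos_le_pi y)
  rw [← hb] at hst
  have hq0 : q 0 = L - potK K w u θ := by simp [hq, geo]
  have hqb : q b = L - potK K w u v' := by simp [hq, hgeo]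
  have hq10 : q1 0 = -⟪gradK K w u θ, h⟫ := by
    simp only [hq1, gradK, real_inner_smul_left, sum_inner, inner_sub_left, hperp, hT, hB, geo,
      hπ2, zero_add, Real.cos_zero, Real.sin_zero, Real.cos_pi_div_two, Real.sin_pi_div_two,
      one_smul, zero_smul, add_zero, mul_zero, sub_zero, Finset.mul_sum]
    congr 1
    exact Finset.sum_congr rfl fun i _ => Finset.sum_congr rfl fun l _ => by ring
  have hsin : Real.sin b = √(1 - y ^ 2) := by rw [hb, Real.sin_arccos]
  rw [hq0, hqb, hq10, hb, Real.cos_arccos (by linarith) hy1, ← hb, hsin] at hst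
  have hle := mul_le_mul_of_nonneg_right
    ((real_inner_le_norm (gradK K w u θ) h).trans_eq (by rw [hh1, mul_one]))
    (Real.sqrt_nonneg (1 - y ^ 2))
  linarith

/-- Products over index tuples. -/
def tens {j : ℕ} (f : (Fin j → Fin n) × Fin n) (x y : E n) : ℝ := (∏ k, x (f.1 k)) * y f.2

lemma tens_sum {j : ℕ} (x y x' y' : E n) :
    ∑ f : (Fin j → Fin n) × Fin n, tens f x y * tens f x' y' = ⟪x, x'⟫ ^ j * ⟪y, y'⟫ := by
  have h1 : ∀ a b : E n, ⟪a, b⟫ = ∑ c, a c * b c := fun a b => by
    simp [PiLp.inner_apply, mul_comm]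
  rw [h1 x x', h1 y y', Finset.sum_pow', Fintype.piFinset_univ, Finset.sum_mul_sum,
    Fintype.sum_prod_type]
  refine Finset.sum_congr rfl fun f _ => Finset.sum_congr rfl fun c _ => ?_
  simp only [tens, Finset.prod_mul_distrib]
  ring

lemma continuous_tens {j : ℕ} (f : (Fin j → Fin n) × Fin n) {Y : E n → E n} (hY : Continuous Y) :
    Continuous fun x => tens f x (Y x) := by
  unfold tens; fun_prop

lemma inner_gradK_self (K : ℕ) (w : Fin N → ℝ) (u : Fin N → E n) {x : E n} (hx : ‖x‖ = 1) :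
    ⟪x, gradK K w u x⟫ = 0 := by
  simp [gradK, inner_sum, inner_sub_right, real_inner_smul_right, hx, real_inner_comm x]

lemma gradK_energy (hn : 10 ≤ n) (K : ℕ) {w : Fin N → ℝ} {u : Fin N → E n} (hw : ∑ i, w i = 1)
    (hu : ∀ i, ‖u i‖ = 1) :
    0 ≤ valK K w u ∧
      ∫ x, ‖gradK K w u x‖ ^ 2 ∂sph n ≤ 33 / √(n : ℝ) * valK K w u := by
  have h1 : 1 ≤ n := by omega
  have hnR : (0 : ℝ) < n := by exact_mod_cast (by omega : 0 < n)
  set G := gradK K w u with hG
  have hGc : Continuous G := continuous_gradK K w u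
  set Q := ∫ x, ‖G x‖ ^ 2 ∂sph n
  have hQ0 : 0 ≤ Q := integral_nonneg fun x => sq_nonneg _
  -- the pieces attached to one power
  set A := fun (l : ℕ) (f : (Fin (2 * l + 3) → Fin n) × Fin n) => ∫ v, tens f v v ∂sph n with hA
  set T := fun (l : ℕ) (f : (Fin (2 * l + 3) → Fin n) × Fin n) =>
    (∑ i, w i * tens f (u i) (u i)) - A l f with hT
  set Z := fun (l : ℕ) (f : (Fin (2 * l + 3) → Fin n) × Fin n) =>
    ∫ x, tens f x (G x) ∂sph n with hZ
  have hpair : ∀ (l : ℕ) (c : (Fin (2 * l + 3) → Fin n) × Fin n → ℝ) (Y : E n → E n),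
      Continuous Y → ∑ f, c f * ∫ x, tens f x (Y x) ∂sph n =
        ∫ x, ∑ f, c f * tens f x (Y x) ∂sph n := by
    intro l c Y hY
    rw [integral_finsetSum _ fun f _ => (integrable_cont h1 (continuous_tens f hY)).const_mul _]
    simp only [integral_const_mul]
  have hTT : ∀ l, ∑ f, T l f ^ 2 =
      (∑ i, ∑ j, w i * w j * ⟪u i, u j⟫ ^ (2 * (l + 2))) - mom n (l + 2) := by
    intro l
    have e : ∀ x y : E n, ∑ f : (Fin (2 * l + 3) → Fin n) × Fin n, tens f x x * tens f y y =
        ⟪x, y⟫ ^ (2 * (l + 2)) := fun x y => by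
      rw [tens_sum, ← pow_succ]
      congr 1
    have hUA : ∀ x : E n, ‖x‖ = 1 → ∑ f, tens f x x * A l f = mom n (l + 2) := by
      intro x hx
      simp only [hA]
      rw [hpair l _ (fun x => x) continuous_id']
      simp only [e]
      exact mom_eq h1 _ hx
    have hAA : ∑ f, A l f * A l f = mom n (l + 2) := by
      conv_lhs => enter [2, f]; arg 2; simp only [hA]
      rw [hpair l _ (fun x => x) continuous_id', integral_congr_ae (g := fun _ => mom n (l + 2)) ?_]
      · simp
      filter_upwards [sph_ae_norm h1] with x hx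
      simp only [mul_comm (A l _)]
      exact hUA x hx
    have hexp : ∀ f, T l f ^ 2 = (∑ i, ∑ j, w i * w j * (tens f (u i) (u i) * tens f (u j) (u j)))
        - 2 * (∑ i, w i * (tens f (u i) (u i) * A l f)) + A l f * A l f := fun f => by
      have e1 : ∑ i, ∑ j, w i * w j * (tens f (u i) (u i) * tens f (u j) (u j)) =
          (∑ i, w i * tens f (u i) (u i)) ^ 2 := by
        rw [sq, Finset.sum_mul_sum]
        exact Finset.sum_congr rfl fun i _ => Finset.sum_congr rfl fun j _ => by ring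
      have e2 : ∑ i, w i * (tens f (u i) (u i) * A l f) = (∑ i, w i * tens f (u i) (u i)) * A l f := by
        rw [Finset.sum_mul]; exact Finset.sum_congr rfl fun i _ => by ring
      rw [e1, e2, hT]; ring
    rw [Finset.sum_congr rfl fun f _ => hexp f, Finset.sum_add_distrib, Finset.sum_sub_distrib,
      ← Finset.mul_sum, hAA]
    rw [Finset.sum_comm]
    conv_lhs => enter [1, 1, 2, i]; rw [Finset.sum_comm]; simp only [← Finset.mul_sum, e]
    rw [Finset.sum_comm (γ := (Fin (2 * l + 3) → Fin n) × Fin n)]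
    simp only [← Finset.mul_sum, hUA _ (hu _), ← Finset.sum_mul, hw]
    ring
  have hS : valK K w u = n * ∑ l ∈ range K, bcoef l * ∑ f, T l f ^ 2 := by
    simp only [hTT, valK, meanK, phiK, mul_sub (bcoef _), Finset.sum_sub_distrib, Finset.mul_sum]
    congr 1
    conv_lhs =>
      arg 2
      arg 1
      simp only [Finset.mul_sum]
    rw [Finset.sum_comm (s := range K)]
    congr 1
    refine Finset.sum_congr rfl fun i _ => ?_
    rw [Finset.sum_comm (s := range K)]
    exact Finset.sum_congr rfl fun j _ => Finset.sum_congr rfl fun l _ => by ring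
  refine ⟨hS ▸ mul_nonneg hnR.le (Finset.sum_nonneg fun l _ =>
    mul_nonneg (bcoef_nonneg l) (Finset.sum_nonneg fun f _ => sq_nonneg _)), ?_⟩
  -- the duality
  have hAZ : ∀ l, ∑ f, A l f * Z l f = 0 := by
    intro l
    simp only [hZ]
    rw [hpair l _ G hGc]
    refine integral_eq_zero_of_ae ?_
    filter_upwards [sph_ae_norm h1] with x hx
    have h : ∑ f, A l f * tens f x (G x) = ∫ v, ∑ f : (Fin (2 * l + 3) → Fin n) × Fin n, tens f x (G x) * tens f v v ∂sph n := by
      rw [← hpair l _ (fun x => x) continuous_id']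
      exact Finset.sum_congr rfl fun f _ => mul_comm _ _
    rw [h]
    simp only [tens_sum]
    exact integral_odd_coord (inner_gradK_self K w u hx) (fun t => t ^ (2 * l + 3))
  have hQeq : Q = n * ∑ l ∈ range K, bcoef l * ((2 * l + 4) * ∑ f, T l f * Z l f) := by
    have hTZ : ∀ l, ∑ f, T l f * Z l f =
        ∫ x, ∑ i, w i * (⟪u i, x⟫ ^ (2 * l + 3) * ⟪u i, G x⟫) ∂sph n := fun l => by
      have : ∑ f, T l f * Z l f = ∑ f, (∑ i, w i * tens f (u i) (u i)) * Z l f := by
        simp only [hT, sub_mul, Finset.sum_sub_distrib, hAZ, sub_zero]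
      rw [this, hZ, hpair l _ G hGc]
      refine integral_congr_ae (Eventually.of_forall fun x => ?_)
      simp only [Finset.sum_mul]
      rw [Finset.sum_comm]
      exact Finset.sum_congr rfl fun i _ => by
        simp only [mul_assoc]; rw [← Finset.mul_sum, tens_sum]
    simp only [hTZ, ← integral_const_mul]
    rw [← integral_finsetSum _ fun l _ => integrable_cont h1 (by fun_prop), ← integral_const_mul]
    refine integral_congr_ae ?_
    filter_upwards [sph_ae_norm h1] with x hx
    have h0 : ⟪x, G x⟫ = 0 := inner_gradK_self K w u hx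
    rw [← real_inner_self_eq_norm_sq]
    have hGx : G x = gradK K w u x := rfl
    nth_rewrite 1 [hGx]
    rw [gradK]
    simp only [real_inner_smul_left, sum_inner, inner_sub_left, h0, ← hG, mul_zero, sub_zero,
      Finset.mul_sum]
    rw [Finset.sum_comm]
    exact Finset.sum_congr rfl fun l _ => Finset.sum_congr rfl fun i _ => by ring
  set ρ := fun l : ℕ => ((√(n : ℝ))⁻¹ * mom n (l + 1) + √(n : ℝ) * mom n (l + 2)) / 2 with hρ
  have hmom : ∀ l x, ‖x‖ = 1 → ∫ y, |⟪x, y⟫| ^ (2 * l + 3) ∂sph n ≤ ρ l := by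
    intro l x hx
    have hs : 0 < √(n : ℝ) := Real.sqrt_pos.2 hnR
    have e : ρ l = ∫ y, ((√(n : ℝ))⁻¹ * ⟪x, y⟫ ^ (2 * (l + 1)) +
        √(n : ℝ) * ⟪x, y⟫ ^ (2 * (l + 2))) / 2 ∂sph n := by
      rw [integral_div, integral_add (integrable_cont h1 (by fun_prop))
        (integrable_cont h1 (by fun_prop)), integral_const_mul, integral_const_mul, mom_eq h1 _ hx,
        mom_eq h1 _ hx]
    rw [e]
    refine integral_mono (integrable_cont h1 (by fun_prop)) (integrable_cont h1 (by fun_prop))
      fun y => ?_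
    rw [show 2 * (l + 1) = 2 * l + 2 by omega, show 2 * (l + 2) = 2 * l + 2 + 2 by omega,
      pow_add _ (2 * l + 2) 2, pow_succ _ (2 * l + 2)]
    have hp : |⟪x, y⟫| ^ (2 * l + 2) = ⟪x, y⟫ ^ (2 * l + 2) := (Even.pow_abs ⟨l + 1, by ring⟩ _)
    rw [hp]
    set p := ⟪x, y⟫ ^ (2 * l + 2)
    have hp0 : 0 ≤ p := hp ▸ by positivity
    have h2 : |⟪x, y⟫| ≤ ((√(n : ℝ))⁻¹ + √(n : ℝ) * |⟪x, y⟫| ^ 2) / 2 := by
      rw [le_div_iff₀ two_pos, ← mul_le_mul_iff_of_pos_left hs]
      rw [mul_add, mul_inv_cancel₀ hs.ne']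
      nlinarith [sq_nonneg (√(n : ℝ) * |⟪x, y⟫| - 1)]
    have h3 := mul_le_mul_of_nonneg_left h2 hp0
    rw [sq_abs] at h3
    linarith
  have hZZ : ∀ l, ∑ f, Z l f ^ 2 ≤ ρ l * Q := by
    intro l
    have e : ∑ f, Z l f ^ 2 =
        ∫ x, ∫ y, ⟪x, y⟫ ^ (2 * l + 3) * ⟪G x, G y⟫ ∂sph n ∂sph n := by
      calc ∑ f, Z l f ^ 2 = ∑ f, Z l f * ∫ x, tens f x (G x) ∂sph n := by simp [hZ, sq]
        _ = ∫ x, ∑ f, Z l f * tens f x (G x) ∂sph n := hpair l _ G hGc
        _ = _ := by
          refine integral_congr_ae (Eventually.of_forall fun x => ?_)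
          have := hpair l (fun f => tens f x (G x)) G hGc
          simp only [tens_sum] at this
          dsimp only
          rw [← this]
          exact Finset.sum_congr rfl fun f _ => mul_comm _ _
    set P := fun x y : E n => |⟪x, y⟫| ^ (2 * l + 3) * ‖G y‖ ^ 2 with hP
    obtain ⟨Bd, hBd⟩ := (isCompact_sphere (0 : E n) 1).exists_bound_of_continuousOn
      (show Continuous fun y => ‖G y‖ ^ 2 by fun_prop).continuousOn
    have hI : Integrable (Function.uncurry P) ((sph n).prod (sph n)) := by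
      refine Integrable.of_bound (show Continuous (Function.uncurry P) by
        unfold Function.uncurry; fun_prop).aestronglyMeasurable Bd ?_
      filter_upwards [Measure.quasiMeasurePreserving_fst.ae (sph_ae_norm h1),
        Measure.quasiMeasurePreserving_snd.ae (sph_ae_norm h1)] with z hz1 hz2
      simp only [Function.uncurry, hP, norm_mul, norm_pow, Real.norm_eq_abs, abs_abs]
      have h := hBd z.2 (mem_sphere_zero_iff_norm.2 hz2)
      simp only [norm_pow, Real.norm_eq_abs] at h
      refine le_trans (mul_le_of_le_one_left (by positivity) ?_) h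
      exact pow_le_one₀ (abs_nonneg _)
        ((abs_real_inner_le_norm z.1 z.2).trans_eq (by rw [hz1, hz2, one_mul]))
    have hswap := integral_integral_swap hI
    have hsecond : ∫ x, ∫ y, P x y ∂sph n ∂sph n ≤ ρ l * Q := by
      rw [hswap, ← integral_const_mul]
      refine integral_mono_ae hI.integral_prod_right
        ((integrable_cont h1 (by fun_prop)).const_mul _) ?_
      filter_upwards [sph_ae_norm h1] with y hy
      simp only [hP]
      rw [integral_mul_const]
      refine mul_le_mul_of_nonneg_right ?_ (sq_nonneg _)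
      simp only [real_inner_comm y]
      exact hmom l y hy
    have hfirst : ∫ x, ∫ y, P y x ∂sph n ∂sph n ≤ ρ l * Q := by
      rw [← hswap] ; exact hsecond
    rw [e]
    have hJ : Integrable (Function.uncurry fun x y => P y x) ((sph n).prod (sph n)) := hI.swap
    calc ∫ x, ∫ y, ⟪x, y⟫ ^ (2 * l + 3) * ⟪G x, G y⟫ ∂sph n ∂sph n
        ≤ ∫ x, ∫ y, (P y x + P x y) / 2 ∂sph n ∂sph n := by
          have hIc : Integrable (Function.uncurry fun x y : E n => (P y x + P x y) / 2)
              ((sph n).prod (sph n)) := (hJ.add hI).div_const 2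
          have hLc : Integrable (Function.uncurry fun x y : E n =>
              ⟪x, y⟫ ^ (2 * l + 3) * ⟪G x, G y⟫) ((sph n).prod (sph n)) := by
            refine hIc.mono' (show Continuous _ by unfold Function.uncurry; fun_prop).aestronglyMeasurable
              (Eventually.of_forall fun z => ?_)
            simp only [Function.uncurry, hP, norm_mul, norm_pow, Real.norm_eq_abs,
              real_inner_comm z.1 z.2]
            have := abs_real_inner_le_norm (G z.1) (G z.2)
            nlinarith [mul_le_mul_of_nonneg_left this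
              (pow_nonneg (abs_nonneg ⟪z.1, z.2⟫) (2 * l + 3)),
              mul_nonneg (pow_nonneg (abs_nonneg ⟪z.1, z.2⟫) (2 * l + 3))
                (sq_nonneg (‖G z.1‖ - ‖G z.2‖))]
          refine integral_mono hLc.integral_prod_left hIc.integral_prod_left fun x => ?_
          refine integral_mono (integrable_cont h1 (by fun_prop))
            (integrable_cont h1 (by simp only [hP]; fun_prop)) fun y => ?_
          simp only [hP, real_inner_comm x y]
          have := abs_real_inner_le_norm (G x) (G y)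
          refine (le_abs_self _).trans ?_
          rw [abs_mul, abs_pow]
          nlinarith [mul_le_mul_of_nonneg_left this
            (pow_nonneg (abs_nonneg ⟪x, y⟫) (2 * l + 3)),
            mul_nonneg (pow_nonneg (abs_nonneg ⟪x, y⟫) (2 * l + 3))
              (sq_nonneg (‖G x‖ - ‖G y‖))]
      _ = ((∫ x, ∫ y, P y x ∂sph n ∂sph n) + ∫ x, ∫ y, P x y ∂sph n ∂sph n) / 2 := by
          simp only [integral_div]
          congr 1
          exact integral_integral_add hJ hI
      _ ≤ ρ l * Q := by linarith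
  -- conclusion
  set r := 33 / ((n : ℝ) * √(n : ℝ)) with hr
  have hrho : ∑ l ∈ range K, bcoef l * (2 * (l : ℝ) + 4) ^ 2 * ρ l ≤ r := by
    have h := mom_tail' hn K
    have hterm : ∀ l ∈ range K, bcoef l * (2 * (l : ℝ) + 4) ^ 2 * ρ l ≤
        3 / 2 * (((l : ℝ) + 2) * ((√(n : ℝ))⁻¹ * mom n (l + 1) + √(n : ℝ) * mom n (l + 2))) := by
      intro l _
      have hb : bcoef l * (2 * (l : ℝ) + 4) ^ 2 ≤ 3 * ((l : ℝ) + 2) := by
        refine (mul_le_mul_of_nonneg_right (bcoef_le l) (sq_nonneg _)).trans ?_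
        rw [div_mul_eq_mul_div, one_mul, div_le_iff₀ (by positivity)]
        nlinarith [(Nat.cast_nonneg l : (0 : ℝ) ≤ l)]
      have hρ0 : 0 ≤ ρ l := by
        have := mom_nonneg h1 (l + 1)
        have := mom_nonneg h1 (l + 2)
        simp only [hρ]; positivity
      refine (mul_le_mul_of_nonneg_right hb hρ0).trans (le_of_eq ?_)
      simp only [hρ]; ring
    refine (Finset.sum_le_sum hterm).trans ?_
    rw [← Finset.mul_sum, hr]
    linarith [show 3 / 2 * (22 / ((n : ℝ) * √(n : ℝ))) = 33 / ((n : ℝ) * √(n : ℝ)) by ring]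
  set lam := (n : ℝ) * r with hlam
  have hlam0 : 0 < lam := by rw [hlam, hr]; positivity
  have hTZ : ∀ l ∈ range K, bcoef l * ((2 * (l : ℝ) + 4) * ∑ f, T l f * Z l f) ≤
      (lam * (bcoef l * ∑ f, T l f ^ 2) + bcoef l * (2 * (l : ℝ) + 4) ^ 2 * ρ l * Q / lam) / 2 := by
    intro l _
    have h2 : (2 * (l : ℝ) + 4) * ∑ f, T l f * Z l f ≤
        (lam * ∑ f, T l f ^ 2 + (2 * (l : ℝ) + 4) ^ 2 / lam * ∑ f, Z l f ^ 2) / 2 := by
      rw [Finset.mul_sum, Finset.mul_sum, Finset.mul_sum, ← Finset.sum_add_distrib, Finset.sum_div]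
      refine Finset.sum_le_sum fun f _ => ?_
      rw [le_div_iff₀ two_pos, ← mul_le_mul_iff_of_pos_left hlam0]
      have e : lam * ((2 * (l : ℝ) + 4) ^ 2 / lam * Z l f ^ 2) =
          (2 * (l : ℝ) + 4) ^ 2 * Z l f ^ 2 := by field_simp
      rw [mul_add, e]
      nlinarith [sq_nonneg (lam * T l f - (2 * (l : ℝ) + 4) * Z l f)]
    have h3 := mul_le_mul_of_nonneg_left (hZZ l)
      (show (0 : ℝ) ≤ (2 * (l : ℝ) + 4) ^ 2 / lam by positivity)
    refine (mul_le_mul_of_nonneg_left (h2.trans (div_le_div_of_nonneg_right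
      (add_le_add le_rfl h3) zero_le_two)) (bcoef_nonneg l)).trans (le_of_eq ?_)
    ring
  have hsum := mul_le_mul_of_nonneg_left (Finset.sum_le_sum hTZ) hnR.le
  rw [← hQeq, ← Finset.sum_div, Finset.sum_add_distrib, ← Finset.mul_sum, ← Finset.sum_div,
    ← Finset.sum_mul] at hsum
  have h5 : (n : ℝ) * ((∑ l ∈ range K, bcoef l * (2 * (l : ℝ) + 4) ^ 2 * ρ l) * Q / lam) ≤ Q := by
    rw [mul_div_assoc', div_le_iff₀ hlam0, hlam]
    nlinarith [mul_le_mul_of_nonneg_left (mul_le_mul_of_nonneg_right hrho hQ0) hnR.le]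
  have h6 : 33 / √(n : ℝ) = lam := by rw [hlam, hr]; field_simp
  have h7 : lam * valK K w u = n * (lam * ∑ l ∈ range K, bcoef l * ∑ f, T l f ^ 2) := by
    rw [hS]; ring
  rw [h6, h7]
  linarith

end Kernel

open Kernel in
theorem fourBound_of_radialTest (hR : RadialTest) : FourBound := by
  refine ⟨5280, by norm_num, fun n N w u δ M hn htest hM => ?_⟩
  have h1 : 1 ≤ n := by omega
  obtain ⟨hδ, hw0, hu, hw1, -⟩ := id htest
  have hnR : (10 : ℝ) ≤ n := by exact_mod_cast hn
  have hs : 0 < √(n : ℝ) := Real.sqrt_pos.2 (by linarith)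
  have hM0 : 0 ≤ M := le_trans (Finset.sum_nonneg fun i _ => mul_nonneg (hw0 i) (by positivity))
    (hM (EuclideanSpace.single ⟨0, by omega⟩ 1) (by simp))
  set D := (n : ℝ) * M + (√(n : ℝ))⁻¹ with hD
  have hD0 : 0 < D := by positivity
  set t := (2640 * D)⁻¹ with ht
  have ht0 : 0 < t := by positivity
  have htnM : t * (n * M) ≤ 1 / 2640 := by
    rw [ht, inv_mul_le_iff₀ (by positivity)]
    have : 0 ≤ (√(n : ℝ))⁻¹ := by positivity
    linarith
  have htsqrt : t / √(n : ℝ) ≤ 1 / 2640 := by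
    rw [div_eq_mul_inv t, ht, inv_mul_le_iff₀ (by positivity)]
    have : 0 ≤ (n : ℝ) * M := by positivity
    linarith
  have key : ∀ K, valK K w u ≤ 5280 * δ * D := by
    intro K
    set L := 10 * (n : ℝ) * M with hL
    set a := 1 - t * L with ha
    have ha1 : 1 / 2 ≤ a := by rw [ha, hL]; linarith
    have hpot : ∀ x : E n, ‖x‖ = 1 → t * potK K w u x ≤ 1 ∧ -1 ≤ t * potK K w u x := by
      intro x hx
      have hup : potK K w u x ≤ n * M := by
        rw [potK]
        refine mul_le_mul_of_nonneg_left ?_ (by linarith)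
        have h4 : ∑ i, w i * phiK K ⟪u i, x⟫ ≤ ∑ i, w i * ⟪u i, x⟫ ^ 4 :=
          Finset.sum_le_sum fun i _ => mul_le_mul_of_nonneg_left (phiK_le_four K
            ((abs_real_inner_le_norm (u i) x).trans_eq (by rw [hu i, hx, one_mul]))) (hw0 i)
        linarith [hM x hx, meanK_nonneg h1 K]
      have hlo : -((n : ℝ) * (6 / (n : ℝ) ^ 2)) ≤ potK K w u x := by
        rw [potK, ← mul_neg]
        refine mul_le_mul_of_nonneg_left ?_ (by linarith)
        have : 0 ≤ ∑ i, w i * phiK K ⟪u i, x⟫ :=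
          Finset.sum_nonneg fun i _ => mul_nonneg (hw0 i) (phiK_nonneg K _)
        linarith [meanK_le hn K]
      constructor
      · linarith [mul_le_mul_of_nonneg_left hup ht0.le]
      · have h6 : t * ((n : ℝ) * (6 / (n : ℝ) ^ 2)) ≤ 1 := by
          have e : t * ((n : ℝ) * (6 / (n : ℝ) ^ 2)) = t / √(n : ℝ) * (6 / √(n : ℝ)) := by
            field_simp
            rw [Real.sq_sqrt (by linarith)]
          rw [e]
          have h6' : 6 / √(n : ℝ) ≤ 6 := div_le_self (by norm_num) (Real.one_le_sqrt.2 (by linarith))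
          calc t / √(n : ℝ) * (6 / √(n : ℝ)) ≤ 1 / 2640 * 6 :=
                mul_le_mul htsqrt h6' (by positivity) (by norm_num)
            _ ≤ 1 := by norm_num
        linarith [mul_le_mul_of_nonneg_left hlo ht0.le]
    set Bd := (n : ℝ) * ∑ i, ∑ l ∈ range K, |w i * bcoef l * (2 * l + 4)| * 2 with hBd
    have hGb : ∀ x : E n, ‖x‖ = 1 → ‖gradK K w u x‖ ≤ Bd := by
      intro x hx
      rw [gradK, norm_smul, Real.norm_eq_abs, Nat.abs_cast, hBd]
      refine mul_le_mul_of_nonneg_left ((norm_sum_le _ _).trans (Finset.sum_le_sum fun i _ =>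
        (norm_sum_le _ _).trans (Finset.sum_le_sum fun l _ => ?_))) (by linarith)
      have hi : |⟪u i, x⟫| ≤ 1 := (abs_real_inner_le_norm (u i) x).trans_eq (by rw [hu i, hx, one_mul])
      rw [norm_smul, Real.norm_eq_abs, abs_mul, abs_pow]
      refine mul_le_mul (mul_le_of_le_one_right (abs_nonneg _) (pow_le_one₀ (abs_nonneg _) hi)) ?_
        (norm_nonneg _) (abs_nonneg _)
      calc ‖u i - ⟪u i, x⟫ • x‖ ≤ ‖u i‖ + ‖⟪u i, x⟫ • x‖ := norm_sub_le _ _
        _ ≤ 2 := by rw [norm_smul, hu i, hx, Real.norm_eq_abs]; linarith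
    have hBd0 : 0 ≤ Bd :=
      (norm_nonneg _).trans (hGb (EuclideanSpace.single ⟨0, by omega⟩ 1) (by simp))
    set p := fun θ : E n => if ‖θ‖ = 1 then 1 - t * potK K w u θ else 0 with hp
    set g := fun θ : E n => if ‖θ‖ = 1 then t * ‖gradK K w u θ‖ else 0 with hg
    have hset : MeasurableSet {θ : E n | ‖θ‖ = 1} :=
      measurableSet_eq_fun measurable_norm measurable_const
    have hpm : Measurable p := Measurable.ite hset
      (continuous_const.sub (continuous_const.mul (continuous_potK K w u))).measurable measurable_const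
    have hgm : Measurable g := Measurable.ite hset
      (continuous_const.mul (continuous_gradK K w u).norm).measurable measurable_const
    have htest' := hR n N w u δ a 2 (t * Bd) (fun v => 1 - t * potK K w u v) p g (by omega) htest
      (by linarith) (fun v hv => by linarith [(hpot v hv).1]) hpm hgm
      (fun θ => by
        simp only [hp]; split_ifs with h
        · exact ⟨by linarith [(hpot θ h).1], by linarith [(hpot θ h).2]⟩
        · exact ⟨le_rfl, zero_le_two⟩)
      (fun θ => by
        simp only [hg]; split_ifs with h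
        · exact ⟨by positivity, mul_le_mul_of_nonneg_left (hGb θ h) ht0.le⟩
        · exact ⟨le_rfl, by positivity⟩)
      (fun θ v hθ hv _ => by
        simp only [hp, hg, if_pos hθ]
        have h := mul_le_mul_of_nonneg_left (potK_curv h1 K hw0 hu hM hθ hv) ht0.le
        rw [ha, hL]
        linarith)
    have hmean : sphAvg p = 1 := by
      rw [sphAvg_eq hpm, integral_congr_ae (g := fun θ => 1 - t * potK K w u θ) ?_]
      · have h0 : ∫ θ, potK K w u θ ∂sph n = 0 := by
          simp only [potK]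
          rw [integral_const_mul, integral_sub (integrable_cont h1 (by unfold phiK; fun_prop))
            (integrable_const _),
            integral_finsetSum _ fun i _ => integrable_cont h1 (by unfold phiK; fun_prop)]
          simp only [integral_const_mul, integral_phiK h1 K (hu _), ← Finset.sum_mul, hw1]
          simp
        rw [integral_sub (integrable_const _) ((integrable_cont h1 (continuous_potK K w u)).const_mul _),
          integral_const_mul, h0]
        simp
      · filter_upwards [sph_ae_norm h1] with θ hθ using if_pos hθ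
    have hgq : sphAvg (fun θ => g θ ^ 2) = t ^ 2 * ∫ θ, ‖gradK K w u θ‖ ^ 2 ∂sph n := by
      rw [sphAvg_eq (hgm.pow_const 2), ← integral_const_mul]
      refine integral_congr_ae ?_
      filter_upwards [sph_ae_norm h1] with θ hθ
      simp only [hg, if_pos hθ]; ring
    have hsum : ∑ i, w i * (1 - t * potK K w u (u i)) = 1 - t * valK K w u := by
      simp only [mul_sub, mul_one, Finset.sum_sub_distrib, hw1, ← sum_potK K u hw1, Finset.mul_sum]
      congr 1
      exact Finset.sum_congr rfl fun i _ => by ring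
    rw [hmean, hgq, hsum] at htest'
    obtain ⟨hV, hE⟩ := gradK_energy hn K hw1 hu
    set V := valK K w u
    set Q := ∫ θ, ‖gradK K w u θ‖ ^ 2 ∂sph n
    have hQ0 : 0 ≤ Q := integral_nonneg fun θ => sq_nonneg _
    have hcoef : 4 * (1 + 2 / a) / a ≤ 40 := by
      have h2a : 2 / a ≤ 4 := by rw [div_le_iff₀ (by linarith)]; linarith
      rw [div_le_iff₀ (by linarith)]
      nlinarith
    have e1 : 4 * (1 + 2 / a) / a * (t ^ 2 * Q) ≤ 40 * (t ^ 2 * (33 / √(n : ℝ) * V)) :=
      mul_le_mul hcoef (mul_le_mul_of_nonneg_left hE (sq_nonneg t))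
        (mul_nonneg (sq_nonneg t) hQ0) (by norm_num)
    have e2 : 40 * (t ^ 2 * (33 / √(n : ℝ) * V)) = 1320 * (t / √(n : ℝ)) * (t * V) := by ring
    have e3 : 1320 * (t / √(n : ℝ)) * (t * V) ≤ 1 / 2 * (t * V) :=
      mul_le_mul_of_nonneg_right (by linarith) (by positivity)
    have h8 : t * V ≤ 2 * δ := by
      have : 0 ≤ δ * (t * V) := by positivity
      linarith
    have h9 := mul_le_mul_of_nonneg_left h8 (show (0 : ℝ) ≤ 2640 * D by positivity)
    rw [ht, ← mul_assoc, mul_inv_cancel₀ (by positivity), one_mul] at h9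
    linarith
  refine le_of_tendsto (f := fun K => (n : ℝ) * (∑ i, ∑ j, w i * w j * phiK K ⟪u i, u j⟫ - phiMean n))
    (x := atTop) ?_ (Eventually.of_forall fun K => le_trans ?_ (key K))
  · rw [fourVal]
    refine ((tendsto_finsetSum _ fun i _ => tendsto_finsetSum _ fun j _ =>
      (phiK_tendsto ?_).const_mul _).sub_const _).const_mul _
    exact (abs_real_inner_le_norm (u i) (u j)).trans_eq (by rw [hu i, hu j, one_mul])
  · rw [valK]
    refine mul_le_mul_of_nonneg_left (sub_le_sub_left ?_ _) (by linarith)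
    have hcphi : Continuous phi := by unfold phi; fun_prop
    rw [phiMean, sphAvg_eq (by unfold phi; fun_prop)]
    have hK : meanK n K = ∫ θ : E n, (∑ j, phiK K (θ j)) / n ∂sph n := by
      rw [integral_div, integral_finsetSum _ fun j _ => integrable_cont h1 (by unfold phiK; fun_prop)]
      simp only [← single_inner, integral_phiK h1 K (show ‖EuclideanSpace.single _ (1 : ℝ)‖ = 1 by simp),
        Finset.sum_const, Finset.card_univ, Fintype.card_fin, nsmul_eq_mul]
      field_simp
    rw [hK]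
    refine integral_mono_ae (integrable_cont h1 (by unfold phiK; fun_prop))
      (integrable_cont h1 (by fun_prop)) ?_
    filter_upwards [sph_ae_norm h1] with θ hθ
    gcongr with j
    refine phiK_le_phi K ?_
    rw [← single_inner j θ]
    exact (abs_real_inner_le_norm _ θ).trans_eq (by simp [hθ])

end Vale.Agent.P237.Sharp
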