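import Vale.Agent.P237.Sharp.KernelGrad
import Vale.Agent.P237.Sharp.KernelFour

/-!
P237: the block of the two kernels.
-/

namespace Vale.Agent.P237.Sharp

theorem fourBound (hR : RadialTest) (_hM : SphereMoments) : FourBound :=
  fourBound_of_radialTest hR

end Vale.Agent.P237.Sharp
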