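import Vale.Agent.P237.Sharp.KernelSign

/-!
P237: the energy of a zonoid through the two kernels.
-/

noncomputable section

open MeasureTheory Set Filter
open scoped RealInnerProductSpace Real

namespace Vale.Agent.P237.Sharp

namespace Kernel

variable {n N : ℕ}

lemma abs_inner_le_one {u v : E n} (hu : ‖u‖ = 1) (hv : ‖v‖ = 1) : |⟪u, v⟫| ≤ 1 :=
  (abs_real_inner_le_norm u v).trans_eq (by rw [hu, hv, one_mul])

lemma meanAbs_pos (hn : 1 ≤ n) : 0 < meanAbs n := by
  unfold meanAbs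
  exact div_pos (mul_pos two_pos (kappa_pos' _))
    (mul_pos (by exact_mod_cast hn) (kappa_pos' _))

lemma covDev_eq (hn : 1 ≤ n) {w : Fin N → ℝ} {u : Fin N → E n} (hw : ∑ i, w i = 1)
    (hu : ∀ i, ‖u i‖ = 1) :
    covDev w u = n * (∑ i, ∑ j, w i * w j * ⟪u i, u j⟫ ^ 2) - 1 := by
  have hn0 : (n : ℝ) ≠ 0 := by exact_mod_cast (by omega : n ≠ 0)
  set M := fun j k : Fin n => ∑ i, w i * (u i j * u i k) with hM
  have hdiag : ∑ j, M j j = 1 := by
    simp only [hM]
    rw [Finset.sum_comm]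
    simp only [← Finset.mul_sum, ← sq, sum_coord_sq, hu, one_pow, mul_one, hw]
  have hsq : ∑ j, ∑ k, M j k ^ 2 = ∑ i, ∑ i', w i * w i' * ⟪u i, u i'⟫ ^ 2 := by
    simp only [hM, sq, Finset.sum_mul_sum, PiLp.inner_apply, RCLike.inner_apply, conj_trivial,
      Finset.mul_sum, Finset.sum_mul]
    conv_lhs => enter [2, j]; rw [Finset.sum_comm]
    rw [Finset.sum_comm]
    refine Finset.sum_congr rfl fun i _ => ?_
    conv_lhs => enter [2, j]; rw [Finset.sum_comm]
    rw [Finset.sum_comm]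
    exact Finset.sum_congr rfl fun i' _ => Finset.sum_congr rfl fun j _ =>
      Finset.sum_congr rfl fun k _ => by ring
  have hexp : ∑ j, ∑ k, (M j k - if j = k then (n : ℝ)⁻¹ else 0) ^ 2 =
      (∑ j, ∑ k, M j k ^ 2) - (n : ℝ)⁻¹ := by
    have e : ∀ j k : Fin n, (M j k - if j = k then (n : ℝ)⁻¹ else 0) ^ 2 =
        M j k ^ 2 + if j = k then (n : ℝ)⁻¹ ^ 2 - 2 * (n : ℝ)⁻¹ * M j j else 0 := fun j k => by
      split_ifs with h
      · subst h; ring
      · ring
    simp only [e, Finset.sum_add_distrib, Finset.sum_ite_eq, Finset.mem_univ, if_true,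
      Finset.sum_sub_distrib, ← Finset.mul_sum, hdiag, Finset.sum_const, Finset.card_univ,
      Fintype.card_fin, nsmul_eq_mul]
    field_simp
    ring
  show (n : ℝ) * ∑ j, ∑ k, (M j k - if j = k then (n : ℝ)⁻¹ else 0) ^ 2 = _
  rw [hexp, hsq, mul_sub, mul_inv_cancel₀ hn0]

lemma norm_gradH_sq (w : Fin N → ℝ) (u : Fin N → E n) {θ : E n} (hθ : ‖θ‖ = 1) :
    ‖gradH w u θ‖ ^ 2 = ((meanAbs n)⁻¹) ^ 2 *
      (∑ i, ∑ j, w i * w j * ⟪u i, u j⟫ * (Real.sign ⟪u i, θ⟫ * Real.sign ⟪u j, θ⟫) -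
        (∑ i, w i * |⟪u i, θ⟫|) ^ 2) := by
  set X := ∑ i, (w i * Real.sign ⟪u i, θ⟫) • u i with hX
  have hXθ : ⟪X, θ⟫ = ∑ i, w i * |⟪u i, θ⟫| := by
    simp only [hX, sum_inner, real_inner_smul_left, mul_assoc, sign_mul_self]
  have hsplit : gradH w u θ = (meanAbs n)⁻¹ • (X - ⟪X, θ⟫ • θ) := by
    rw [gradH, hX]
    simp only [smul_sub, smul_smul, Finset.sum_sub_distrib, sum_inner, real_inner_smul_left,
      Finset.sum_smul, mul_assoc]
  rw [hsplit, norm_smul, mul_pow, Real.norm_eq_abs, sq_abs, norm_sub_sq_real, norm_smul, hθ,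
    mul_one, Real.norm_eq_abs, sq_abs, real_inner_smul_right, ← real_inner_self_eq_norm_sq, ← hXθ]
  congr 1
  simp only [hX, sum_inner, inner_sum, real_inner_smul_left, real_inner_smul_right]
  rw [Finset.sum_comm]
  rw [show ∀ a b : ℝ, a - 2 * (b * b) + b ^ 2 = a - b ^ 2 from fun a b => by ring]
  congr 1
  exact Finset.sum_congr rfl fun i _ => Finset.sum_congr rfl fun j _ => by ring

lemma phiMean_eq (hn : 1 ≤ n) (hmean : ∀ v : E n, ‖v‖ = 1 → ∫ θ, |⟪v, θ⟫| ∂sph n = meanAbs n) :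
    phiMean n = π / 2 * meanAbs n ^ 2 - (n : ℝ)⁻¹ := by
  have hcont : ∀ e : E n, Continuous fun θ : E n => ⟪e, θ⟫ * Real.arcsin ⟪e, θ⟫ := fun e => by
    fun_prop
  have hval : ∀ e : E n, ‖e‖ = 1 →
      ∫ θ, ⟪e, θ⟫ * Real.arcsin ⟪e, θ⟫ ∂sph n = π / 2 * meanAbs n ^ 2 := by
    intro e he
    set f := fun (θ φ : E n) => ⟪e, θ⟫ * (Real.sign ⟪θ, φ⟫ * Real.sign ⟪e, φ⟫) with hf
    have hm : Measurable (Function.uncurry f) :=
      (show Continuous fun z : E n × E n => ⟪e, z.1⟫ by fun_prop).measurable.mul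
        ((measurable_sign.comp (show Continuous fun z : E n × E n => ⟪z.1, z.2⟫ by fun_prop).measurable).mul
          (measurable_sign.comp (show Continuous fun z : E n × E n => ⟪e, z.2⟫ by fun_prop).measurable))
    have hI : Integrable (Function.uncurry f) ((sph n).prod (sph n)) := by
      refine Integrable.of_bound hm.aestronglyMeasurable 1 ?_
      filter_upwards [Measure.quasiMeasurePreserving_fst.ae (sph_ae_norm hn)] with z hz
      simp only [Function.uncurry, hf, Real.norm_eq_abs, abs_mul]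
      exact mul_le_one₀ (abs_inner_le_one he hz) (by positivity)
        (mul_le_one₀ (abs_sign_le _) (abs_nonneg _) (abs_sign_le _))
    have h := integral_integral_swap hI
    have hL : ∫ θ, ∫ φ, f θ φ ∂sph n ∂sph n =
        2 / π * ∫ θ, ⟪e, θ⟫ * Real.arcsin ⟪e, θ⟫ ∂sph n := by
      rw [← integral_const_mul]
      refine integral_congr_ae ?_
      filter_upwards [sph_ae_norm hn] with θ hθ
      simp only [hf]
      rw [integral_const_mul, sign_corr hn hθ he, real_inner_comm e θ]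
      ring
    have hR : ∫ φ, ∫ θ, f θ φ ∂sph n ∂sph n = meanAbs n ^ 2 := by
      rw [integral_congr_ae (g := fun φ => |⟪e, φ⟫| * meanAbs n) ?_, integral_mul_const,
        hmean e he, sq]
      filter_upwards [sph_ae_norm hn] with φ hφ
      have hc := integral_coord_mul hn (e := e) hφ measurable_sign (C := 1) fun t _ => abs_sign_le t
      simp only [sign_mul_self, hmean φ hφ] at hc
      have e1 : ∀ θ : E n, f θ φ = Real.sign ⟪e, φ⟫ * (Real.sign ⟪φ, θ⟫ * ⟪e, θ⟫) := fun θ => by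
        simp only [hf, real_inner_comm θ φ]; ring
      simp only [e1]
      rw [integral_const_mul, hc, ← mul_assoc, sign_mul_self]
    rw [hL, hR] at h
    have := Real.pi_pos
    field_simp at h ⊢
    linarith
  have hn0 : (n : ℝ) ≠ 0 := by exact_mod_cast (by omega : n ≠ 0)
  rw [phiMean, sphAvg_eq (by simp only [phi]; fun_prop), integral_div,
    integral_finsetSum _ fun j _ => integrable_cont hn (by simp only [phi]; fun_prop)]
  have hj : ∀ j : Fin n, ∫ θ : E n, phi (θ j) ∂sph n = π / 2 * meanAbs n ^ 2 - (n : ℝ)⁻¹ := by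
    intro j
    simp only [← single_inner j, phi]
    rw [integral_sub (integrable_cont hn (by fun_prop)) (integrable_cont hn (by fun_prop)),
      hval _ (by simp), ← mom_one hn, ← mom_eq hn 1 (v := EuclideanSpace.single j (1 : ℝ)) (by simp)]
  simp only [hj, Finset.sum_const, Finset.card_univ, Fintype.card_fin, nsmul_eq_mul]
  field_simp

end Kernel

open Kernel in
theorem gradKernel (hM : SphereMoments) : GradKernel := by
  intro n N w u hn hw0 hw1 hu
  have h1 : 1 ≤ n := by omega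
  have hπ := Real.pi_pos
  have hnR : (0 : ℝ) < n := by exact_mod_cast (by omega : 0 < n)
  set a := meanAbs n with ha
  have ha0 : 0 < a := meanAbs_pos h1
  have hmean : ∀ v : E n, ‖v‖ = 1 → ∫ θ, |⟪v, θ⟫| ∂sph n = a := fun v hv => by
    rw [← sphAvg_eq (by fun_prop)]; exact (hM n v hn hv).2.2.2.1
  set e0 : E n := EuclideanSpace.single ⟨0, by omega⟩ 1
  have hlow : √(2 / (π * n)) ≤ a := (hM n e0 hn (by simp [e0])).2.2.2.2.1
  have ha2 : 2 / (π * n) ≤ a ^ 2 := by
    rw [← Real.sq_sqrt (show (0 : ℝ) ≤ 2 / (π * n) by positivity)]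
    exact pow_le_pow_left₀ (Real.sqrt_nonneg _) hlow 2
  set P := fun θ : E n => ∑ i, ∑ j, w i * w j * ⟪u i, u j⟫ *
    (Real.sign ⟪u i, θ⟫ * Real.sign ⟪u j, θ⟫) with hP
  set H := fun θ : E n => ∑ i, w i * |⟪u i, θ⟫| with hH
  have hPterm : ∀ i j, Integrable (fun θ : E n => w i * w j * ⟪u i, u j⟫ *
      (Real.sign ⟪u i, θ⟫ * Real.sign ⟪u j, θ⟫)) (sph n) := fun i j => by
    refine (integrable_of_bound h1 ?_ 1 fun θ _ => ?_).const_mul _
    · exact (measurable_sign.comp (by fun_prop)).mul (measurable_sign.comp (by fun_prop))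
    · rw [abs_mul]; exact mul_le_one₀ (abs_sign_le _) (abs_nonneg _) (abs_sign_le _)
  have hPi : Integrable P (sph n) :=
    integrable_finsetSum _ fun i _ => integrable_finsetSum _ fun j _ => hPterm i j
  have hHc : Continuous H := by fun_prop
  set S := ∑ i, ∑ j, w i * w j * (⟪u i, u j⟫ * Real.arcsin ⟪u i, u j⟫) with hS
  have hIP : ∫ θ, P θ ∂sph n = 2 / π * S := by
    rw [hP, integral_finsetSum _ fun i _ => integrable_finsetSum _ fun j _ => hPterm i j, hS,
      Finset.mul_sum]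
    refine Finset.sum_congr rfl fun i _ => ?_
    rw [integral_finsetSum _ fun j _ => hPterm i j, Finset.mul_sum]
    refine Finset.sum_congr rfl fun j _ => ?_
    rw [integral_const_mul, sign_corr h1 (hu i) (hu j)]
    ring
  have hIH : ∫ θ, H θ ∂sph n = a := by
    rw [hH, integral_finsetSum _ fun i _ => integrable_cont h1 (by fun_prop)]
    simp only [integral_const_mul, hmean _ (hu _), ← Finset.sum_mul, hw1, one_mul]
  have hIH2 : a ^ 2 ≤ ∫ θ, H θ ^ 2 ∂sph n := by
    have h : 0 ≤ ∫ θ, (H θ - a) ^ 2 ∂sph n := integral_nonneg fun θ => sq_nonneg _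
    have e : ∀ θ, (H θ - a) ^ 2 = H θ ^ 2 - (2 * a) * H θ + a ^ 2 := fun θ => by ring
    simp only [e] at h
    rw [integral_add (integrable_cont h1 (by fun_prop)) (integrable_const _),
      integral_sub (integrable_cont h1 (by fun_prop)) (integrable_cont h1 (by fun_prop)),
      integral_const_mul, hIH, integral_const] at h
    simp at h
    linarith
  have hgm : Measurable fun θ : E n => ‖gradH w u θ‖ ^ 2 := by
    unfold gradH
    refine (Measurable.norm ?_).pow_const 2
    have hs : Measurable fun θ : E n =>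
        ∑ i, (w i * Real.sign ⟪u i, θ⟫) • (u i - ⟪u i, θ⟫ • θ) := by
      refine Finset.univ.measurable_fun_sum fun i _ => ?_
      exact ((measurable_const.mul (measurable_sign.comp (by fun_prop))).smul
      (show Continuous fun θ : E n => u i - ⟪u i, θ⟫ • θ by fun_prop).measurable)
    exact hs.const_smul (meanAbs n)⁻¹
  have hQ : gradQ w u = a⁻¹ ^ 2 * (2 / π * S - ∫ θ, H θ ^ 2 ∂sph n) := by
    rw [gradQ, sphAvg_eq hgm, integral_congr_ae (g := fun θ => a⁻¹ ^ 2 * (P θ - H θ ^ 2)) ?_,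
      integral_const_mul, integral_sub hPi (integrable_cont h1 (by fun_prop)), hIP]
    filter_upwards [sph_ae_norm h1] with θ hθ using norm_gradH_sq w u hθ
  have hCS : ∫ θ, H θ ^ 2 ∂sph n ≤ 2 / π * S := by
    rw [← hIP]
    refine integral_mono_ae (integrable_cont h1 (by fun_prop)) hPi ?_
    filter_upwards [sph_ae_norm h1] with θ hθ
    have h := norm_gradH_sq w u hθ
    have h0 : (0 : ℝ) < a⁻¹ ^ 2 := by positivity
    have := nonneg_of_mul_nonneg_right (h ▸ sq_nonneg ‖gradH w u θ‖) h0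
    simp only [hP, hH]
    linarith
  have hrhs : covDev w u + fourVal w u = n * S - π * n / 2 * a ^ 2 := by
    rw [covDev_eq h1 hw1 hu, fourVal, phiMean_eq h1 hmean, hS, ← ha]
    simp only [phi, mul_sub, Finset.sum_sub_distrib]
    field_simp
    ring
  rw [hQ, hrhs]
  have hSge : π * a ^ 2 / 2 ≤ S := by
    have := hIH2.trans hCS
    rw [div_mul_eq_mul_div, le_div_iff₀ hπ] at this
    linarith
  have hk : 2 / (π * a ^ 2) ≤ n := by
    rw [div_le_iff₀ (by positivity)] at ha2 ⊢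
    linarith
  have h3 : a⁻¹ ^ 2 * (2 / π * S - ∫ θ, H θ ^ 2 ∂sph n) ≤ 2 / (π * a ^ 2) * S - 1 := by
    have h4 := mul_le_mul_of_nonneg_left hIH2 (sq_nonneg a⁻¹)
    rw [← mul_pow, inv_mul_cancel₀ ha0.ne', one_pow] at h4
    have e : a⁻¹ ^ 2 * (2 / π * S) = 2 / (π * a ^ 2) * S := by field_simp
    rw [mul_sub, e]
    linarith
  refine h3.trans ?_
  have e2 : 2 / (π * a ^ 2) * (π * a ^ 2 / 2) = 1 := by field_simp
  nlinarith [mul_nonneg (sub_nonneg.2 hk) (sub_nonneg.2 hSge)]

end Vale.Agent.P237.Sharp
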