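import Vale.Agent.P237.Sharp.KernelSphere

/-!
P237: the truncated series of the kernel, its convergence and its curvature.
-/

noncomputable section

open MeasureTheory Set Filter Finset
open scoped RealInnerProductSpace Topology

namespace Vale.Agent.P237.Sharp.Kernel

/-- The coefficients of `(1 - x)^(-1/2)`. -/
def dcoef : ℕ → ℝ
  | 0 => 1
  | j + 1 => dcoef j * (2 * j + 1) / (2 * j + 2)

lemma dcoef_pos : ∀ j, 0 < dcoef j
  | 0 => one_pos
  | j + 1 => by have := dcoef_pos j; rw [dcoef]; positivity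

lemma dcoef_le_one : ∀ j, dcoef j ≤ 1
  | 0 => le_rfl
  | j + 1 => by
    have := dcoef_le_one j
    rw [dcoef, div_le_one (by positivity)]
    nlinarith [dcoef_pos j, (Nat.cast_nonneg j : (0 : ℝ) ≤ j)]

lemma dcoef_rec (j : ℕ) : (2 * (j : ℝ) + 2) * dcoef (j + 1) = (2 * j + 1) * dcoef j := by
  rw [dcoef]; field_simp

/-- The coefficient of `t ^ (2 i + 4)` in the kernel. -/
def bcoef (i : ℕ) : ℝ := dcoef (i + 1) / (2 * i + 3)

lemma bcoef_nonneg (i : ℕ) : 0 ≤ bcoef i := by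
  have := dcoef_pos (i + 1); rw [bcoef]; positivity

lemma bcoef_le (i : ℕ) : bcoef i ≤ 1 / (2 * i + 3) := by
  rw [bcoef]; gcongr; exact dcoef_le_one _

/-- The truncated kernel. -/
def phiK (K : ℕ) (t : ℝ) : ℝ := ∑ i ∈ range K, bcoef i * t ^ (2 * (i + 2))

/-- The truncated series of the arcsine. -/
def asinK (K : ℕ) (t : ℝ) : ℝ := ∑ j ∈ range K, dcoef j / (2 * j + 1) * t ^ (2 * j + 1)

/-- Its derivative. -/
def derK (K : ℕ) (t : ℝ) : ℝ := ∑ j ∈ range K, dcoef j * t ^ (2 * j)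

/-- The second derivative. -/
def der2K (K : ℕ) (t : ℝ) : ℝ := ∑ j ∈ range K, dcoef j * ((2 * j : ℕ) * t ^ (2 * j - 1))

lemma phiK_eq (K : ℕ) (t : ℝ) : phiK K t = t * asinK (K + 1) t - t ^ 2 := by
  rw [asinK, sum_range_succ', mul_add, mul_sum, phiK]
  have : ∀ j ∈ range K, t * (dcoef (j + 1) / (2 * ((j + 1 : ℕ) : ℝ) + 1) * t ^ (2 * (j + 1) + 1)) =
      bcoef j * t ^ (2 * (j + 2)) := fun j _ => by
    rw [bcoef]; push_cast; ring
  rw [sum_congr rfl this]
  simp [dcoef]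
  ring

lemma hasDerivAt_asinK (K : ℕ) (t : ℝ) : HasDerivAt (asinK K) (derK K t) t := by
  refine (HasDerivAt.fun_sum fun j _ => ((hasDerivAt_pow (2 * j + 1) t).const_mul
    (dcoef j / (2 * j + 1)))).congr_deriv (sum_congr rfl fun j _ => ?_)
  rw [Nat.add_sub_cancel]
  push_cast
  field_simp

lemma hasDerivAt_derK (K : ℕ) (t : ℝ) : HasDerivAt (derK K) (der2K K t) t :=
  HasDerivAt.fun_sum fun j _ => (hasDerivAt_pow (2 * j) t).const_mul (dcoef j)

lemma derK_ode : ∀ (K : ℕ) (t : ℝ),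
    (1 - t ^ 2) * der2K (K + 1) t - t * derK (K + 1) t =
      -((2 * (K + 1) : ℕ) * dcoef (K + 1) * t ^ (2 * K + 1))
  | 0, t => by simp [der2K, derK, dcoef]
  | K + 1, t => by
    have ih := derK_ode K t
    have hr := dcoef_rec (K + 1)
    rw [der2K, derK, sum_range_succ, sum_range_succ _ (K + 1), ← der2K, ← derK,
      show 2 * (K + 1) - 1 = 2 * K + 1 by omega]
    push_cast at ih hr ⊢
    linear_combination ih + t ^ (2 * (K + 1) + 1) * hr

lemma derK_zero (K : ℕ) : derK (K + 1) 0 = 1 := by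
  simp [derK, sum_range_succ', dcoef]

/-- The product of the derivative with the square root is close to one. -/
lemma sqrt_mul_derK (K : ℕ) {r t : ℝ} (hr : r < 1) (ht : 0 ≤ t) (htr : t ≤ r) :
    √(1 - t ^ 2) * derK (K + 1) t ≤ 1 ∧
      1 - r ^ (2 * (K + 1)) / √(1 - r ^ 2) ≤ √(1 - t ^ 2) * derK (K + 1) t := by
  have hpos : ∀ s ∈ Set.Icc 0 r, 0 < 1 - s ^ 2 := fun s hs => by nlinarith [hs.1, hs.2]
  set E := fun s : ℝ => √(1 - s ^ 2) * derK (K + 1) s with hE
  have hd : ∀ s ∈ Set.Icc 0 r, HasDerivAt E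
      (-((2 * (K + 1) : ℕ) * dcoef (K + 1) * s ^ (2 * K + 1)) / √(1 - s ^ 2)) s := fun s hs => by
    have h1 := (((hasDerivAt_pow 2 s).const_sub 1).sqrt (hpos s hs).ne').mul
      (hasDerivAt_derK (K + 1) s)
    refine h1.congr_deriv ?_
    rw [← derK_ode K s]
    have h0 : √(1 - s ^ 2) ≠ 0 := (Real.sqrt_pos.2 (hpos s hs)).ne'
    field_simp
    rw [Real.sq_sqrt (hpos s hs).le]
    push_cast
    ring
  have hE0 : E 0 = 1 := by simp [hE, derK_zero]
  have hc : ContinuousOn E (Set.Icc 0 r) := fun s hs => (hd s hs).continuousAt.continuousWithinAt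
  have h1 : AntitoneOn E (Set.Icc 0 r) := by
    refine antitoneOn_of_hasDerivWithinAt_nonpos (convex_Icc _ _) hc
      (fun s hs => (hd s (interior_subset hs)).hasDerivWithinAt) fun s hs => ?_
    have hs' := interior_subset hs
    have := dcoef_pos (K + 1)
    have := hs'.1
    exact div_nonpos_of_nonpos_of_nonneg (by
      have : 0 ≤ ((2 * (K + 1) : ℕ) : ℝ) * dcoef (K + 1) * s ^ (2 * K + 1) := by positivity
      linarith) (Real.sqrt_nonneg _)
  have h2 : MonotoneOn (fun s => E s + s ^ (2 * (K + 1)) / √(1 - r ^ 2)) (Set.Icc 0 r) := by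
    refine monotoneOn_of_hasDerivWithinAt_nonneg (convex_Icc _ _)
      (hc.add (Continuous.continuousOn (by fun_prop)))
      (fun s hs => ((hd s (interior_subset hs)).add
        ((hasDerivAt_pow (2 * (K + 1)) s).div_const _)).hasDerivWithinAt) fun s hs => ?_
    have hs' := interior_subset hs
    have hs0 := hs'.1
    rw [show 2 * (K + 1) - 1 = 2 * K + 1 by omega, neg_div, le_neg_add_iff_add_le, add_zero]
    refine div_le_div₀ (by positivity) ?_ (Real.sqrt_pos.2 (hpos r ⟨hs0.trans hs'.2, le_rfl⟩))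
      (Real.sqrt_le_sqrt (by nlinarith [hs'.2]))
    rw [mul_right_comm]
    exact mul_le_of_le_one_right (by positivity) (dcoef_le_one _)
  have m0 : (0 : ℝ) ∈ Set.Icc 0 r := ⟨le_rfl, ht.trans htr⟩
  have h3 := h1 m0 ⟨ht, htr⟩ ht
  have h4 := h2 m0 ⟨ht, htr⟩ ht
  refine ⟨h3.trans_eq hE0, ?_⟩
  simp only [hE0] at h4
  rw [zero_pow (by omega), zero_div, add_zero] at h4
  have h5 : t ^ (2 * (K + 1)) / √(1 - r ^ 2) ≤ r ^ (2 * (K + 1)) / √(1 - r ^ 2) := by gcongr
  linarith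

lemma asinK_bounds (K : ℕ) {r : ℝ} (h0 : 0 ≤ r) (h1 : r < 1) :
    asinK (K + 1) r ≤ Real.arcsin r ∧
      Real.arcsin r - r ^ (2 * (K + 1)) / (1 - r ^ 2) ≤ asinK (K + 1) r := by
  have hpos : ∀ s ∈ Set.Icc 0 r, 0 < 1 - s ^ 2 := fun s hs => by nlinarith [hs.1, hs.2]
  set G := fun s : ℝ => Real.arcsin s - asinK (K + 1) s with hG
  set c := r ^ (2 * (K + 1)) / (1 - r ^ 2) with hc
  have hd : ∀ s ∈ Set.Icc 0 r, HasDerivAt G (1 / √(1 - s ^ 2) - derK (K + 1) s) s := fun s hs =>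
    (Real.hasDerivAt_arcsin (by linarith [hs.1]) (by linarith [hs.2])).sub (hasDerivAt_asinK _ s)
  have hcont : ContinuousOn G (Set.Icc 0 r) := fun s hs => (hd s hs).continuousAt.continuousWithinAt
  have hm : MonotoneOn G (Set.Icc 0 r) := by
    refine monotoneOn_of_hasDerivWithinAt_nonneg (convex_Icc _ _) hcont
      (fun s hs => (hd s (interior_subset hs)).hasDerivWithinAt) fun s hs => ?_
    have hs' := interior_subset hs
    have h := (sqrt_mul_derK K h1 hs'.1 hs'.2).1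
    have hq := Real.sqrt_pos.2 (hpos s hs')
    rw [sub_nonneg, le_div_iff₀ hq]
    linarith
  have ha : AntitoneOn (fun s => G s - c * s) (Set.Icc 0 r) := by
    refine antitoneOn_of_hasDerivWithinAt_nonpos (convex_Icc _ _) (hcont.sub
      (Continuous.continuousOn (by fun_prop)))
      (fun s hs => ((hd s (interior_subset hs)).sub ((hasDerivAt_id' s).const_mul c)).hasDerivWithinAt)
      fun s hs => ?_
    have hs' := interior_subset hs
    have h := (sqrt_mul_derK K h1 hs'.1 hs'.2).2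
    have hq := Real.sqrt_pos.2 (hpos s hs')
    have hr' : (0 : ℝ) < 1 - r ^ 2 := hpos r ⟨h0, le_rfl⟩
    have hqr : √(1 - r ^ 2) ≤ √(1 - s ^ 2) := Real.sqrt_le_sqrt (by nlinarith [hs'.1, hs'.2])
    have hc' : r ^ (2 * (K + 1)) / √(1 - r ^ 2) ≤ c * √(1 - s ^ 2) := by
      have e : r ^ (2 * (K + 1)) / √(1 - r ^ 2) = c * √(1 - r ^ 2) := by
        rw [hc]; field_simp; rw [Real.sq_sqrt hr'.le]
      rw [e]
      exact mul_le_mul_of_nonneg_left hqr (by rw [hc]; positivity)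
    rw [mul_one, sub_sub, sub_nonpos, div_le_iff₀ hq]
    nlinarith
  have m0 : (0 : ℝ) ∈ Set.Icc 0 r := ⟨le_rfl, h0⟩
  have e0 : G 0 = 0 := by simp [hG, asinK]
  have h2 := hm m0 ⟨h0, le_rfl⟩ h0
  have h3 := ha m0 ⟨h0, le_rfl⟩ h0
  simp only [e0, mul_zero, sub_zero] at h2 h3
  simp only [hG] at h2 h3
  have hc0 : 0 ≤ c := div_nonneg (by positivity) (hpos r ⟨h0, le_rfl⟩).le
  constructor
  · linarith
  · linarith [mul_le_of_le_one_right hc0 h1.le]

lemma continuous_asinK (K : ℕ) : Continuous (asinK K) :=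
  continuous_iff_continuousAt.2 fun t => (hasDerivAt_asinK K t).continuousAt

lemma asinK_le (K : ℕ) {t : ℝ} (h0 : 0 ≤ t) (h1 : t ≤ 1) :
    asinK (K + 1) t ≤ Real.arcsin t := by
  have hcl : IsClosed {s : ℝ | asinK (K + 1) s ≤ Real.arcsin s} :=
    isClosed_le (continuous_asinK _) Real.continuous_arcsin
  have hsub : Set.Ico (0 : ℝ) 1 ⊆ {s : ℝ | asinK (K + 1) s ≤ Real.arcsin s} := fun s hs =>
    (asinK_bounds K hs.1 hs.2).1
  exact (hcl.closure_subset_iff.2 hsub) (by rw [closure_Ico zero_ne_one]; exact ⟨h0, h1⟩)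

lemma asinK_tendsto {t : ℝ} (h0 : 0 ≤ t) (h1 : t ≤ 1) :
    Tendsto (fun K => asinK (K + 1) t) atTop (𝓝 (Real.arcsin t)) := by
  rcases h1.lt_or_eq with h | rfl
  · have hq : Tendsto (fun K : ℕ => Real.arcsin t - t ^ (2 * (K + 1)) / (1 - t ^ 2)) atTop
        (𝓝 (Real.arcsin t)) := by
      have hp : Tendsto (fun K : ℕ => t ^ (2 * (K + 1))) atTop (𝓝 0) := by
        simp only [pow_mul]
        exact (tendsto_pow_atTop_nhds_zero_of_lt_one (sq_nonneg t) (by nlinarith)).comp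
          (tendsto_add_atTop_nat 1)
      simpa using (hp.div_const (1 - t ^ 2)).const_sub (Real.arcsin t)
    exact tendsto_of_tendsto_of_tendsto_of_le_of_le hq tendsto_const_nhds
      (fun K => (asinK_bounds K h0 h).2) fun K => asinK_le K h0 h.le
  · refine tendsto_order.2 ⟨fun a ha => ?_, fun a ha =>
      Eventually.of_forall fun K => (asinK_le K zero_le_one le_rfl).trans_lt ha⟩
    have hn : ∀ᶠ r in 𝓝[<] (1 : ℝ), a < Real.arcsin r ∧ r ∈ Set.Ioo (0 : ℝ) 1 :=
      ((Real.continuous_arcsin.continuousWithinAt.eventually (lt_mem_nhds ha))).and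
        (Ioo_mem_nhdsLT (by norm_num))
    obtain ⟨r, hra, hr⟩ := hn.exists
    have hp : Tendsto (fun K : ℕ => Real.arcsin r - r ^ (2 * (K + 1)) / (1 - r ^ 2)) atTop
        (𝓝 (Real.arcsin r)) := by
      have hp : Tendsto (fun K : ℕ => r ^ (2 * (K + 1))) atTop (𝓝 0) := by
        simp only [pow_mul]
        exact (tendsto_pow_atTop_nhds_zero_of_lt_one (sq_nonneg r) (by nlinarith [hr.1, hr.2])).comp
          (tendsto_add_atTop_nat 1)
      simpa using (hp.div_const (1 - r ^ 2)).const_sub (Real.arcsin r)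
    filter_upwards [(tendsto_order.1 hp).1 a hra] with K hK
    refine hK.trans_le ((asinK_bounds K hr.1.le hr.2).2.trans ?_)
    refine sum_le_sum fun j _ => mul_le_mul_of_nonneg_left ?_ ?_
    · exact pow_le_pow_left₀ hr.1.le hr.2.le _
    · have := dcoef_pos j; positivity

lemma phi_abs (t : ℝ) : phi |t| = phi t := by
  rcases abs_choice t with h | h <;> rw [h]
  simp [phi, Real.arcsin_neg]

lemma phiK_abs (K : ℕ) (t : ℝ) : phiK K |t| = phiK K t := by
  simp [phiK, pow_mul, sq_abs]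

lemma phiK_le_phi (K : ℕ) {t : ℝ} (ht : |t| ≤ 1) : phiK K t ≤ phi t := by
  rw [← phiK_abs, ← phi_abs, phiK_eq, phi]
  exact sub_le_sub_right (mul_le_mul_of_nonneg_left (asinK_le K (abs_nonneg t) ht) (abs_nonneg t)) _

lemma phiK_tendsto {t : ℝ} (ht : |t| ≤ 1) :
    Tendsto (fun K => phiK K t) atTop (𝓝 (phi t)) := by
  rw [← phi_abs, phi]
  simp only [← phiK_abs _ t, phiK_eq]
  exact ((asinK_tendsto (abs_nonneg t) ht).const_mul _).sub tendsto_const_nhds

lemma phiK_nonneg (K : ℕ) (t : ℝ) : 0 ≤ phiK K t :=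
  sum_nonneg fun i _ => mul_nonneg (bcoef_nonneg i) (by rw [pow_mul]; positivity)

lemma phiK_le_four (K : ℕ) {t : ℝ} (ht : |t| ≤ 1) : phiK K t ≤ t ^ 4 := by
  have hsum : ∑ i ∈ range K, bcoef i ≤ 1 := by
    have h := phiK_le_phi K (t := 1) (by simp)
    simp only [phiK, phi, one_pow, mul_one, one_mul, Real.arcsin_one] at h
    linarith [Real.pi_le_four]
  calc phiK K t ≤ ∑ i ∈ range K, bcoef i * t ^ 4 := sum_le_sum fun i _ => by
        refine mul_le_mul_of_nonneg_left ?_ (bcoef_nonneg i)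
        rw [show 2 * (i + 2) = 2 * i + 4 by omega, pow_add, pow_mul]
        refine mul_le_of_le_one_left (by positivity) (pow_le_one₀ (sq_nonneg t) ?_)
        rw [← sq_abs]; nlinarith [abs_nonneg t]
    _ ≤ t ^ 4 := by rw [← sum_mul]; exact mul_le_of_le_one_left (by positivity) hsum

/-- The second derivative of the truncated kernel along a great circle, plus the value. -/
def curv (K : ℕ) (t B : ℝ) : ℝ :=
  ∑ i ∈ range K, bcoef i * ((2 * (i : ℝ) + 4) * (2 * i + 3) * t ^ (2 * i + 2) * B -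
    (2 * i + 3) * t ^ (2 * (i + 2)))

lemma curv_core : ∀ (K : ℕ) (t : ℝ),
    (1 - t ^ 2) * ∑ i ∈ range K, bcoef i * ((2 * (i : ℝ) + 4) * (2 * i + 3) * t ^ (2 * i + 2))
      - ∑ i ∈ range K, bcoef i * ((2 * (i : ℝ) + 3) * t ^ (2 * (i + 2))) ≤
      2 * t ^ 2 - bcoef K * ((2 * (K : ℝ) + 4) * (2 * K + 3) * t ^ (2 * K + 2))
  | 0, t => by simp [bcoef, dcoef]; ring_nf; rfl
  | K + 1, t => by
    have ih := curv_core K t
    rw [sum_range_succ, sum_range_succ]
    have key : bcoef (K + 1) * ((2 * (K : ℝ) + 6) * (2 * K + 5)) ≤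
        bcoef K * ((2 * K + 5) * (2 * K + 3)) := by
      have hr := dcoef_rec (K + 1)
      push_cast at hr
      have h1 : dcoef (K + 2) = (2 * (K : ℝ) + 3) * dcoef (K + 1) / (2 * K + 4) := by
        rw [eq_div_iff (by positivity)]
        linear_combination hr
      have := dcoef_pos (K + 1)
      simp only [bcoef, show K + 1 + 1 = K + 2 from rfl, h1]
      push_cast
      rw [show 2 * ((K : ℝ) + 1) + 3 = 2 * K + 5 by ring]
      field_simp
      nlinarith [(Nat.cast_nonneg K : (0 : ℝ) ≤ K)]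
    have h2 := mul_le_mul_of_nonneg_right key (show (0 : ℝ) ≤ t ^ (2 * K + 4) by
      rw [show 2 * K + 4 = 2 * (K + 2) by omega, pow_mul]; positivity)
    push_cast
    rw [show 2 * (K + 2) = 2 * K + 4 by omega, show 2 * (K + 1) + 2 = 2 * K + 4 by omega]
    linear_combination ih + h2

lemma curv_le (K : ℕ) {t B : ℝ} (hB : 0 ≤ B) (hB1 : B ≤ 1 - t ^ 2) :
    curv K t B ≤ 8 * t ^ 4 + 2 * B ^ 2 := by
  set A := ∑ i ∈ range K, bcoef i * ((2 * (i : ℝ) + 4) * (2 * i + 3) * t ^ (2 * i + 2))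
  set B0 := ∑ i ∈ range K, bcoef i * ((2 * (i : ℝ) + 3) * t ^ (2 * (i + 2))) with hB0
  have he : curv K t B = A * B - B0 := by
    rw [curv, Finset.sum_mul, ← sum_sub_distrib]
    exact sum_congr rfl fun i _ => by ring
  have hB0' : 0 ≤ B0 := sum_nonneg fun i _ => mul_nonneg (bcoef_nonneg i)
    (mul_nonneg (by positivity) (by rw [pow_mul]; positivity))
  have hcore : (1 - t ^ 2) * A - B0 ≤ 2 * t ^ 2 := by
    have h := curv_core K t
    have : 0 ≤ bcoef K * ((2 * (K : ℝ) + 4) * (2 * K + 3) * t ^ (2 * K + 2)) :=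
      mul_nonneg (bcoef_nonneg K) (mul_nonneg (by positivity)
        (by rw [show 2 * K + 2 = 2 * (K + 1) by omega, pow_mul]; positivity))
    linarith
  have hT : (1 - t ^ 2) * curv K t B ≤ B * (2 * t ^ 2) := by
    rw [he]
    nlinarith [mul_le_mul_of_nonneg_left hcore hB, mul_le_mul_of_nonneg_right hB1 hB0']
  rcases lt_or_eq_of_le (show t ^ 2 ≤ 1 by linarith) with h | h
  · rcases le_or_gt (t ^ 2) (1 / 2) with h2 | h2
    · rcases le_or_gt (curv K t B) 0 with h3 | h3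
      · nlinarith [sq_nonneg B, pow_nonneg (sq_nonneg t) 2]
      · nlinarith [sq_nonneg (t ^ 2 - B)]
    · have h4 : curv K t B ≤ 2 * t ^ 2 := by
        refine le_of_mul_le_mul_left (hT.trans ?_) (show (0 : ℝ) < 1 - t ^ 2 by linarith)
        exact mul_le_mul_of_nonneg_right hB1 (by positivity)
      nlinarith [sq_nonneg B]
  · have : B = 0 := by linarith
    rw [he, this]
    nlinarith

/-- The weighted odd moments are of order `n ^ (-3/2)`. -/
lemma mom_tail {n : ℕ} (hn : 10 ≤ n) (K : ℕ) :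
    ∑ i ∈ range K, ((i : ℝ) + 3) * mom n (i + 2) ≤ 18 / (n : ℝ) ^ 2 := by
  have hnR : (10 : ℝ) ≤ n := by exact_mod_cast hn
  have h1 : 1 ≤ n := by omega
  set c : ℕ → ℝ := fun i => ((n : ℝ) + 2 * i + 2) * (i + 3) * mom n (i + 2) with hc
  have hterm : ∀ i ∈ range K, ((n : ℝ) - 5) * (((i : ℝ) + 3) * mom n (i + 2)) ≤ c i - c (i + 1) :=
    fun i _ => by
      have h := mom_succ h1 (i + 2)
      have := mom_nonneg h1 (i + 2)
      simp only [hc]
      rw [show i + 2 + 1 = i + 1 + 2 by omega] at h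
      push_cast at h ⊢
      nlinarith
  have h := sum_le_sum hterm
  rw [← mul_sum, sum_range_sub'] at h
  have hc0 : c 0 = 9 / n := by
    have h2 := mom_succ h1 1
    rw [mom_one h1] at h2
    simp only [hc, zero_add, Nat.cast_zero, mul_zero, add_zero]
    push_cast at h2
    have hn0 : (n : ℝ) ≠ 0 := by positivity
    field_simp at h2 ⊢
    linear_combination 3 * h2
  have hcK : 0 ≤ c K := mul_nonneg (by positivity) (mom_nonneg h1 _)
  have hS : 0 ≤ ∑ i ∈ range K, ((i : ℝ) + 3) * mom n (i + 2) :=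
    sum_nonneg fun i _ => mul_nonneg (by positivity) (mom_nonneg h1 _)
  set S := ∑ i ∈ range K, ((i : ℝ) + 3) * mom n (i + 2)
  have h' : ((n : ℝ) - 5) * S ≤ 9 / n := by rw [← hc0]; linarith
  rw [le_div_iff₀ (by positivity)] at h' ⊢
  nlinarith [mul_nonneg (mul_nonneg hS (by positivity : (0 : ℝ) ≤ n)) (by linarith : (0 : ℝ) ≤ n - 10)]

lemma mom_tail' {n : ℕ} (hn : 10 ≤ n) (K : ℕ) :
    ∑ i ∈ range K, ((i : ℝ) + 2) * ((√(n : ℝ))⁻¹ * mom n (i + 1) + √(n : ℝ) * mom n (i + 2)) ≤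
      22 / ((n : ℝ) * √(n : ℝ)) := by
  have hnR : (10 : ℝ) ≤ n := by exact_mod_cast hn
  have h1 : 1 ≤ n := by omega
  have hs : 0 < √(n : ℝ) := Real.sqrt_pos.2 (by linarith)
  have hA : ∑ i ∈ range K, ((i : ℝ) + 2) * mom n (i + 1) ≤ 4 / n := by
    rcases K with _ | K
    · simp; positivity
    · rw [sum_range_succ']
      have h := mom_tail hn K
      have e : ∑ i ∈ range K, (((i + 1 : ℕ) : ℝ) + 2) * mom n (i + 1 + 1) =
          ∑ i ∈ range K, ((i : ℝ) + 3) * mom n (i + 2) :=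
        sum_congr rfl fun i _ => by push_cast; ring
      rw [e]
      simp only [Nat.cast_zero, zero_add, mom_one h1]
      have : 18 / (n : ℝ) ^ 2 ≤ 2 / n := by rw [div_le_div_iff₀ (by positivity) (by positivity)]; nlinarith
      have e2 : 4 / (n : ℝ) = 2 / n + 2 / n := by ring
      rw [← div_eq_mul_inv]
      linarith
  have hB : ∑ i ∈ range K, ((i : ℝ) + 2) * mom n (i + 2) ≤ 18 / (n : ℝ) ^ 2 :=
    (sum_le_sum fun i _ => mul_le_mul_of_nonneg_right (by linarith) (mom_nonneg h1 _)).trans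
      (mom_tail hn K)
  have e : ∀ i : ℕ, ((i : ℝ) + 2) * ((√(n : ℝ))⁻¹ * mom n (i + 1) + √(n : ℝ) * mom n (i + 2)) =
      (√(n : ℝ))⁻¹ * (((i : ℝ) + 2) * mom n (i + 1)) + √(n : ℝ) * (((i : ℝ) + 2) * mom n (i + 2)) :=
    fun i => by ring
  simp only [e, sum_add_distrib, ← mul_sum]
  have hsq : √(n : ℝ) ^ 2 = n := Real.sq_sqrt (by linarith)
  calc _ ≤ (√(n : ℝ))⁻¹ * (4 / n) + √(n : ℝ) * (18 / (n : ℝ) ^ 2) := by gcongr
    _ = _ := by field_simp; rw [hsq]; ring

end Vale.Agent.P237.Sharp.Kernel
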