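import Vale.Agent.P237.Sharp.KernelSphere

/-!
P237: the correlation of two signs of coordinates of a uniform direction.
-/

noncomputable section

open MeasureTheory Set Filter
open scoped RealInnerProductSpace Real

namespace Vale.Agent.P237.Sharp.Kernel

variable {n : ℕ}

lemma measurable_sign : Measurable Real.sign := by
  unfold Real.sign
  exact Measurable.ite (measurableSet_lt measurable_id measurable_const) measurable_const
    (Measurable.ite (measurableSet_lt measurable_const measurable_id) measurable_const measurable_const)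

lemma abs_sign_le (x : ℝ) : |Real.sign x| ≤ 1 := by
  rcases Real.sign_apply_eq x with h | h | h <;> simp [h]

lemma sign_mul_self (x : ℝ) : Real.sign x * x = |x| := by
  rcases lt_trichotomy x 0 with h | h | h
  · rw [Real.sign_of_neg h, abs_of_neg h]; ring
  · simp [h]
  · rw [Real.sign_of_pos h, abs_of_pos h]; ring

lemma sign_pos_mul {r : ℝ} (hr : 0 < r) (x : ℝ) : Real.sign (r * x) = Real.sign x := by
  rcases lt_trichotomy x 0 with h | h | h
  · rw [Real.sign_of_neg h, Real.sign_of_neg (mul_neg_of_pos_of_neg hr h)]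
  · simp [h]
  · rw [Real.sign_of_pos h, Real.sign_of_pos (mul_pos hr h)]

lemma integral_sign_cos {α : ℝ} (h0 : 0 ≤ α) (hπ : α ≤ π) :
    (∫ β in (-(π / 2))..(3 * π / 2), Real.sign (Real.cos β) * Real.sign (Real.cos (β + α))) =
      2 * π - 4 * α := by
  set f := fun β => Real.sign (Real.cos β) * Real.sign (Real.cos (β + α))
  have hm : Measurable f :=
    (measurable_sign.comp (by fun_prop)).mul (measurable_sign.comp (by fun_prop))
  have hint : ∀ a b : ℝ, IntervalIntegrable f volume a b := fun a b =>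
    (intervalIntegrable_const (c := (1 : ℝ))).mono_fun hm.aestronglyMeasurable
      (Eventually.of_forall fun β => by
        simp only [f, Real.norm_eq_abs, abs_mul, abs_one]
        exact mul_le_one₀ (abs_sign_le _) (abs_nonneg _) (abs_sign_le _))
  have hconst : ∀ a b c : ℝ, a ≤ b → (∀ β ∈ Set.Ioo a b, f β = c) →
      (∫ β in a..b, f β) = (b - a) * c := by
    intro a b c hab h
    rw [intervalIntegral.integral_congr_ae (g := fun _ => c) ?_, intervalIntegral.integral_const,
      smul_eq_mul]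
    have : ∀ᵐ β : ℝ, β ≠ b := by simp [ae_iff]
    filter_upwards [this] with β hβ hmem
    rw [Set.uIoc_of_le hab] at hmem
    exact h β ⟨hmem.1, lt_of_le_of_ne hmem.2 hβ⟩
  rw [← intervalIntegral.integral_add_adjacent_intervals (hint _ (π / 2 - α)) (hint _ _),
    ← intervalIntegral.integral_add_adjacent_intervals (hint (π / 2 - α) (π / 2)) (hint _ _),
    ← intervalIntegral.integral_add_adjacent_intervals (hint (π / 2) (3 * π / 2 - α)) (hint _ _),
    hconst _ _ 1 (by linarith) ?_, hconst _ _ (-1) (by linarith) ?_, hconst _ _ 1 (by linarith) ?_,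
    hconst _ _ (-1) (by linarith) ?_]
  · ring
  all_goals rintro β ⟨h1, h2⟩
  · simp only [f]
    rw [Real.sign_of_neg (Real.cos_neg_of_pi_div_two_lt_of_lt (by linarith) (by linarith)),
      Real.sign_of_pos ?_]
    · ring
    · rw [← Real.cos_sub_two_pi]
      exact Real.cos_pos_of_mem_Ioo ⟨by linarith, by linarith⟩
  · simp only [f]
    rw [Real.sign_of_neg (Real.cos_neg_of_pi_div_two_lt_of_lt (by linarith) (by linarith)),
      Real.sign_of_neg (Real.cos_neg_of_pi_div_two_lt_of_lt (by linarith) (by linarith))]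
    ring
  · simp only [f]
    rw [Real.sign_of_pos (Real.cos_pos_of_mem_Ioo ⟨by linarith, by linarith⟩),
      Real.sign_of_neg (Real.cos_neg_of_pi_div_two_lt_of_lt (by linarith) (by linarith))]
    ring
  · simp only [f]
    rw [Real.sign_of_pos (Real.cos_pos_of_mem_Ioo ⟨by linarith, by linarith⟩),
      Real.sign_of_pos (Real.cos_pos_of_mem_Ioo ⟨by linarith, by linarith⟩)]
    ring

lemma integral_sign_plane {a b α : ℝ} (hab : a ≠ 0 ∨ b ≠ 0) (h0 : 0 ≤ α) (hπ : α ≤ π) :
    (∫ β in (0 : ℝ)..2 * π, Real.sign (a * Real.cos β + b * Real.sin β) *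
      Real.sign (a * Real.cos (β + α) + b * Real.sin (β + α))) = 2 * π - 4 * α := by
  set z : ℂ := ⟨a, b⟩
  have hz : z ≠ 0 := fun h => by
    rcases hab with h' | h'
    · exact h' (congrArg Complex.re h)
    · exact h' (congrArg Complex.im h)
  have hr : 0 < ‖z‖ := norm_pos_iff.2 hz
  have ha : a = ‖z‖ * Real.cos z.arg := by rw [Complex.norm_mul_cos_arg]
  have hb : b = ‖z‖ * Real.sin z.arg := by rw [Complex.norm_mul_sin_arg]
  have e : ∀ β : ℝ, Real.sign (a * Real.cos β + b * Real.sin β) =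
      Real.sign (Real.cos (β - z.arg)) := fun β => by
    rw [ha, hb, ← sign_pos_mul hr (Real.cos (β - z.arg)), Real.cos_sub]
    ring_nf
  simp only [e, show ∀ β, β + α - z.arg = β - z.arg + α from fun β => by ring]
  have hper : Function.Periodic
      (fun β => Real.sign (Real.cos β) * Real.sign (Real.cos (β + α))) (2 * π) := fun β => by
    simp only [Real.cos_add_two_pi, show β + 2 * π + α = β + α + 2 * π by ring]
  rw [intervalIntegral.integral_comp_sub_right
    (fun β => Real.sign (Real.cos β) * Real.sign (Real.cos (β + α))) z.arg,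
    ← integral_sign_cos h0 hπ]
  have h := hper.intervalIntegral_add_eq (0 - z.arg) (-(π / 2))
  rw [show 0 - z.arg + 2 * π = 2 * π - z.arg by ring,
    show -(π / 2) + 2 * π = 3 * π / 2 by ring] at h
  exact h

/-- A point of the circle spanned by `e` and `f`. -/
def circ (e f : E n) (a : ℝ) : E n := Real.cos a • e + Real.sin a • f

lemma norm_circ {e f : E n} (he : ‖e‖ = 1) (hf : ‖f‖ = 1) (hef : ⟪e, f⟫ = 0) (a : ℝ) :
    ‖circ e f a‖ = 1 := by
  have : ‖circ e f a‖ ^ 2 = 1 ^ 2 := by
    rw [circ, norm_add_sq_real, norm_smul, norm_smul, he, hf, real_inner_smul_left,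
      real_inner_smul_right, hef, Real.norm_eq_abs, Real.norm_eq_abs, mul_one, mul_one, sq_abs,
      sq_abs]
    linear_combination Real.cos_sq_add_sin_sq a
  exact (pow_left_inj₀ (norm_nonneg _) zero_le_one two_ne_zero).1 this

lemma inner_circ {e f : E n} (he : ‖e‖ = 1) (hf : ‖f‖ = 1) (hef : ⟪e, f⟫ = 0) (a b : ℝ) :
    ⟪circ e f a, circ e f b⟫ = Real.cos (a - b) := by
  simp only [circ, inner_add_left, inner_add_right, real_inner_smul_left, real_inner_smul_right,
    real_inner_self_eq_norm_sq, he, hf, hef, real_inner_comm e f]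
  rw [Real.cos_sub]
  ring

lemma refl_circ {e f : E n} (he : ‖e‖ = 1) (hf : ‖f‖ = 1) (hef : ⟪e, f⟫ = 0) (c x : ℝ) :
    refl (circ e f (c + π / 2)) (circ e f x) = circ e f (2 * c - x) := by
  rw [refl_apply (norm_circ he hf hef _), inner_circ he hf hef,
    show c + π / 2 - x = (c - x) + π / 2 by ring, Real.cos_add_pi_div_two,
    show 2 * c - x = c + (c - x) by ring]
  have e1 : Real.cos x = Real.cos c * Real.cos (c - x) + Real.sin c * Real.sin (c - x) := by
    rw [← Real.cos_sub]; ring_nf
  have e2 : Real.sin x = Real.sin c * Real.cos (c - x) - Real.cos c * Real.sin (c - x) := by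
    rw [← Real.sin_sub]; ring_nf
  simp only [circ, e1, e2, Real.cos_add, Real.sin_add, Real.cos_pi_div_two, Real.sin_pi_div_two]
  module

lemma sign_corr_circ (hn : 1 ≤ n) {e f : E n} (he : ‖e‖ = 1) (hf : ‖f‖ = 1) (hef : ⟪e, f⟫ = 0)
    {α : ℝ} (h0 : 0 ≤ α) (hπ : α ≤ π) :
    ∫ θ, Real.sign ⟪circ e f 0, θ⟫ * Real.sign ⟪circ e f α, θ⟫ ∂sph n = 1 - 2 * α / π := by
  set F := ∫ θ, Real.sign ⟪circ e f 0, θ⟫ * Real.sign ⟪circ e f α, θ⟫ ∂sph n
  have hinv : ∀ β, ∫ θ, Real.sign ⟪circ e f β, θ⟫ * Real.sign ⟪circ e f (β + α), θ⟫ ∂sph n = F := by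
    intro β
    rw [← integral_isometry (refl (circ e f ((β + α) / 2 + π / 2)))]
    simp only [inner_refl, refl_circ he hf hef]
    rw [show 2 * ((β + α) / 2) - β = α by ring, show 2 * ((β + α) / 2) - (β + α) = 0 by ring]
    exact integral_congr_ae (Eventually.of_forall fun θ => mul_comm _ _)
  have h2π : (0 : ℝ) ≤ 2 * π := by positivity
  have hm : Measurable (Function.uncurry fun (β : ℝ) (θ : E n) =>
      Real.sign ⟪circ e f β, θ⟫ * Real.sign ⟪circ e f (β + α), θ⟫) := by
    refine (measurable_sign.comp ?_).mul (measurable_sign.comp ?_) <;>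
      exact (Continuous.inner (by unfold circ; fun_prop) (by fun_prop)).measurable
  have hI : Integrable (Function.uncurry fun (β : ℝ) (θ : E n) =>
      Real.sign ⟪circ e f β, θ⟫ * Real.sign ⟪circ e f (β + α), θ⟫)
      ((volume.restrict (Set.Ioc (0 : ℝ) (2 * π))).prod (sph n)) :=
    Integrable.of_bound hm.aestronglyMeasurable 1 (Eventually.of_forall fun z => by
      simp only [Function.uncurry, Real.norm_eq_abs, abs_mul]
      exact mul_le_one₀ (abs_sign_le _) (abs_nonneg _) (abs_sign_le _))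
  have h1 : (∫ β in (0 : ℝ)..2 * π,
      ∫ θ, Real.sign ⟪circ e f β, θ⟫ * Real.sign ⟪circ e f (β + α), θ⟫ ∂sph n) = 2 * π * F := by
    simp only [hinv, intervalIntegral.integral_const, smul_eq_mul, sub_zero]
  rw [intervalIntegral.integral_of_le h2π, integral_integral_swap hI] at h1
  simp only [← intervalIntegral.integral_of_le h2π] at h1
  have he0 : e ≠ 0 := fun h => by simp [h] at he
  rw [integral_congr_ae (g := fun _ => 2 * π - 4 * α) ?_] at h1
  · simp at h1
    have := Real.pi_pos
    field_simp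
    linarith
  · filter_upwards [sph_ae_inner_ne hn he0] with θ hθ
    simp only [circ, inner_add_left, real_inner_smul_left]
    simpa only [mul_comm] using
      integral_sign_plane (a := ⟪e, θ⟫) (b := ⟪f, θ⟫) (Or.inl hθ) h0 hπ

/-- The identity of Grothendieck. -/
theorem sign_corr (hn : 1 ≤ n) {u v : E n} (hu : ‖u‖ = 1) (hv : ‖v‖ = 1) :
    ∫ θ, Real.sign ⟪u, θ⟫ * Real.sign ⟪v, θ⟫ ∂sph n = 2 / π * Real.arcsin ⟪u, v⟫ := by
  have hu0 : u ≠ 0 := fun h => by simp [h] at hu
  have hπ := Real.pi_pos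
  have hdeg : ∫ θ, Real.sign ⟪u, θ⟫ * Real.sign ⟪u, θ⟫ ∂sph n = 1 := by
    rw [integral_congr_ae (g := fun _ => (1 : ℝ)) ?_]
    · simp
    · filter_upwards [sph_ae_inner_ne hn hu0] with θ hθ
      rcases Real.sign_apply_eq_of_ne_zero _ hθ with h | h <;> simp [h]
  have habs : |⟪u, v⟫| ≤ 1 := (abs_real_inner_le_norm u v).trans_eq (by rw [hu, hv, one_mul])
  obtain ⟨hlo, hhi⟩ := abs_le.1 habs
  set f0 := v - ⟪u, v⟫ • u with hf0
  have hperp : ⟪u, f0⟫ = 0 := by
    rw [hf0, inner_sub_right, real_inner_smul_right, real_inner_self_eq_norm_sq, hu]; ring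
  have hn2 : ‖f0‖ ^ 2 = 1 - ⟪u, v⟫ ^ 2 := by
    rw [hf0, norm_sub_sq_real, norm_smul, hu, hv, real_inner_smul_right, real_inner_comm u v,
      Real.norm_eq_abs, mul_one, sq_abs]
    ring
  rcases eq_or_ne f0 0 with h | h
  · have hv' : v = ⟪u, v⟫ • u := by rwa [hf0, sub_eq_zero] at h
    have ht : ⟪u, v⟫ ^ 2 = 1 := by rw [h, norm_zero] at hn2; linarith
    rcases (sq_eq_one_iff.1 ht) with ht | ht <;> rw [ht] at hv' ⊢ <;> subst hv'
    · simp only [one_smul, hdeg, Real.arcsin_one]; field_simp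
    · simp only [neg_smul, one_smul, inner_neg_left, Real.sign_neg, mul_neg, integral_neg, hdeg,
        Real.arcsin_neg, Real.arcsin_one]
      field_simp
  · set f := ‖f0‖⁻¹ • f0 with hf
    have hf1 : ‖f‖ = 1 := by
      rw [hf, norm_smul, norm_inv, norm_norm, inv_mul_cancel₀ (norm_ne_zero_iff.2 h)]
    have hef : ⟪u, f⟫ = 0 := by rw [hf, real_inner_smul_right, hperp, mul_zero]
    set α := Real.arccos ⟪u, v⟫ with hα
    have hsin : Real.sin α = ‖f0‖ := by
      rw [hα, Real.sin_arccos, ← hn2, Real.sqrt_sq (norm_nonneg _)]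
    have hv' : circ u f α = v := by
      rw [circ, hα, Real.cos_arccos hlo hhi, ← hα, hsin, hf, smul_smul,
        mul_inv_cancel₀ (norm_ne_zero_iff.2 h), one_smul, hf0, add_sub_cancel]
    have h0 : circ u f 0 = u := by simp [circ]
    have h := sign_corr_circ hn hu hf1 hef (α := α) (Real.arccos_nonneg _) (Real.arccos_le_pi _)
    rw [hv', h0] at h
    rw [h, hα, Real.arccos_eq_pi_div_two_sub_arcsin]
    field_simp
    ring

end Vale.Agent.P237.Sharp.Kernel
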