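import Vale.Agent.P237.Sharp.Pins
import Vale.Agent.P237.CapBound

/-!
P237: the uniform measure on the sphere, its invariance and its moments.
-/

noncomputable section

open MeasureTheory Set Filter
open scoped RealInnerProductSpace ENNReal

namespace Vale.Agent.P237.Sharp.Kernel

open Asymp

variable {n : ℕ}

lemma measurable_dir : Measurable (dir (n := n)) :=
  measurable_norm.inv.smul measurable_id

/-- The uniform probability measure on the unit sphere. -/
def sph (n : ℕ) : Measure (E n) :=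
  ENNReal.ofReal (kappa n)⁻¹ • (volume.restrict (Metric.closedBall (0 : E n) 1)).map dir

lemma kappa_pos' (n : ℕ) : 0 < kappa n :=
  ENNReal.toReal_pos (Metric.measure_ball_pos volume _ one_pos).ne' measure_ball_lt_top.ne

instance : IsProbabilityMeasure (sph n) := by
  constructor
  rw [sph, Measure.smul_apply, Measure.map_apply measurable_dir MeasurableSet.univ, preimage_univ,
    Measure.restrict_apply_univ, smul_eq_mul,
    ← ENNReal.ofReal_toReal (measure_closedBall_lt_top (μ := volume) (x := (0 : E n)) (r := 1)).ne,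
    volume_closedBall_toReal _ zero_le_one, one_pow, one_mul,
    ← ENNReal.ofReal_mul (inv_nonneg.2 (kappa_pos' n).le), inv_mul_cancel₀ (kappa_pos' n).ne',
    ENNReal.ofReal_one]

lemma sphAvg_eq {f : E n → ℝ} (hf : Measurable f) : sphAvg f = ∫ θ, f θ ∂sph n := by
  rw [sph, integral_smul_measure, integral_map measurable_dir.aemeasurable hf.aestronglyMeasurable,
    ENNReal.toReal_ofReal (inv_nonneg.2 (kappa_pos' n).le), smul_eq_mul, sphAvg]

lemma sph_ae_norm (hn : 1 ≤ n) : ∀ᵐ θ ∂sph n, ‖θ‖ = 1 := by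
  have : NeZero n := ⟨by omega⟩
  refine Measure.ae_smul_measure ?_ _
  rw [ae_map_iff measurable_dir.aemeasurable (measurableSet_eq_fun measurable_norm measurable_const)]
  refine ae_restrict_of_ae ?_
  have h0 : ∀ᵐ x : E n, x ≠ 0 := by
    simp [ae_iff]
  filter_upwards [h0] with x hx
  rw [dir, norm_smul, norm_inv, norm_norm, inv_mul_cancel₀ (norm_ne_zero_iff.2 hx)]

lemma integrable_of_bound (hn : 1 ≤ n) {f : E n → ℝ} (hf : Measurable f) (C : ℝ)
    (hC : ∀ θ : E n, ‖θ‖ = 1 → |f θ| ≤ C) : Integrable f (sph n) :=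
  Integrable.of_bound hf.aestronglyMeasurable C <| by
    filter_upwards [sph_ae_norm hn] with θ hθ using hC θ hθ

lemma integrable_cont (hn : 1 ≤ n) {f : E n → ℝ} (hf : Continuous f) : Integrable f (sph n) := by
  obtain ⟨C, hC⟩ := (isCompact_sphere (0 : E n) 1).exists_bound_of_continuousOn hf.continuousOn
  exact integrable_of_bound hn hf.measurable C fun θ hθ => by
    simpa using hC θ (mem_sphere_zero_iff_norm.2 hθ)

lemma map_isometry (R : E n ≃ₗᵢ[ℝ] E n) : (sph n).map R = sph n := by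
  have hR : Measurable R := R.continuous.measurable
  rw [sph, Measure.map_smul, Measure.map_map hR measurable_dir]
  congr 1
  have h := (LinearIsometryEquiv.measurePreserving R).restrict_preimage
    (measurableSet_closedBall (x := (0 : E n)) (ε := 1))
  have hpre : R ⁻¹' Metric.closedBall 0 1 = Metric.closedBall 0 1 := by ext x; simp
  rw [hpre] at h
  have hc : R ∘ dir = dir ∘ R := by
    funext x; simp [dir, map_smul]
  rw [hc, ← Measure.map_map measurable_dir hR, h.map_eq]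

lemma integral_isometry (R : E n ≃ₗᵢ[ℝ] E n) (f : E n → ℝ) :
    ∫ θ, f (R θ) ∂sph n = ∫ θ, f θ ∂sph n := by
  conv_rhs => rw [← map_isometry R]
  exact (R.toHomeomorph.measurableEmbedding.integral_map f).symm

/-- The reflection that flips `w`. -/
def refl (w : E n) : E n ≃ₗᵢ[ℝ] E n := Submodule.reflection (ℝ ∙ w)ᗮ

lemma refl_apply {w : E n} (hw : ‖w‖ = 1) (x : E n) : refl w x = x - (2 * ⟪w, x⟫) • w := by
  rw [refl, Submodule.reflection_orthogonal_apply, Submodule.reflection_singleton_apply]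
  simp only [RCLike.ofReal_real_eq_id, id, hw, one_pow, div_one, neg_sub, two_smul, mul_smul,
    two_mul, add_smul]

lemma inner_refl (w x y : E n) : ⟪x, refl w y⟫ = ⟪refl w x, y⟫ := by
  conv_lhs => rw [← Submodule.reflection_reflection (ℝ ∙ w)ᗮ x]
  exact LinearIsometryEquiv.inner_map_map (refl w) (refl w x) y

/-- The distribution of one coordinate does not depend on the axis. -/
lemma integral_inner_congr {u v : E n} (h : ‖u‖ = ‖v‖) (G : ℝ → ℝ) :
    ∫ θ, G ⟪u, θ⟫ ∂sph n = ∫ θ, G ⟪v, θ⟫ ∂sph n := by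
  rw [← integral_isometry (refl (u - v)) (fun θ => G ⟪u, θ⟫)]
  simp only [inner_refl]
  rw [refl, Submodule.reflection_sub h]

lemma integral_odd_coord {e h : E n} (he : ⟪e, h⟫ = 0) (G : ℝ → ℝ) :
    ∫ θ, G ⟪e, θ⟫ * ⟪h, θ⟫ ∂sph n = 0 := by
  rcases eq_or_ne h 0 with rfl | hh
  · simp
  set R := refl h
  have h1 : R h = -h := Submodule.reflection_orthogonalComplement_singleton_eq_neg h
  have h2 : R e = e := by
    refine Submodule.reflection_mem_subspace_eq_self ?_
    rw [Submodule.mem_orthogonal_singleton_iff_inner_left]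
    exact he
  have := integral_isometry R (fun θ => G ⟪e, θ⟫ * ⟪h, θ⟫)
  simp only [R, inner_refl] at this
  rw [show refl h e = e from h2, show refl h h = -h from h1] at this
  simp only [inner_neg_left, mul_neg, integral_neg] at this
  linarith

lemma integral_coord_mul (hn : 1 ≤ n) {e φ : E n} (hφ : ‖φ‖ = 1) {G : ℝ → ℝ} (hG : Measurable G)
    {C : ℝ} (hC : ∀ t, |t| ≤ 1 → |G t| ≤ C) :
    ∫ θ, G ⟪φ, θ⟫ * ⟪e, θ⟫ ∂sph n = ⟪e, φ⟫ * ∫ θ, G ⟪φ, θ⟫ * ⟪φ, θ⟫ ∂sph n := by
  set h := e - ⟪e, φ⟫ • φ with hh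
  have hperp : ⟪φ, h⟫ = 0 := by
    rw [hh, inner_sub_right, real_inner_smul_right, real_inner_self_eq_norm_sq, hφ,
      real_inner_comm φ e]
    ring
  have hi : ∀ a : E n, Integrable (fun θ => G ⟪φ, θ⟫ * ⟪a, θ⟫) (sph n) := fun a => by
    refine integrable_of_bound hn ((hG.comp (by fun_prop)).mul (by fun_prop)) (C * ‖a‖) fun θ hθ => ?_
    rw [abs_mul]
    have h1 : |⟪φ, θ⟫| ≤ 1 := (abs_real_inner_le_norm φ θ).trans_eq (by rw [hφ, hθ, one_mul])
    exact mul_le_mul (hC _ h1) ((abs_real_inner_le_norm a θ).trans_eq (by rw [hθ, mul_one]))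
      (abs_nonneg _) ((abs_nonneg _).trans (hC _ h1))
  have hsplit : ∀ θ : E n, G ⟪φ, θ⟫ * ⟪e, θ⟫ =
      ⟪e, φ⟫ * (G ⟪φ, θ⟫ * ⟪φ, θ⟫) + G ⟪φ, θ⟫ * ⟪h, θ⟫ := fun θ => by
    rw [hh, inner_sub_left, real_inner_smul_left]
    ring
  simp only [hsplit]
  rw [integral_add ((hi φ).const_mul _) (hi h), integral_odd_coord hperp G, integral_const_mul,
    add_zero]

/-- The hyperplanes through the centre are null. -/
lemma sph_ae_inner_ne (hn : 1 ≤ n) {a : E n} (ha : a ≠ 0) : ∀ᵐ θ ∂sph n, ⟪a, θ⟫ ≠ 0 := by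
  refine Measure.ae_smul_measure ?_ _
  have hm : MeasurableSet {x : E n | ⟪a, x⟫ ≠ 0} := MeasurableSet.compl
    (measurableSet_eq_fun (show Measurable fun θ : E n => ⟪a, θ⟫ by fun_prop) measurable_const)
  rw [ae_map_iff measurable_dir.aemeasurable hm]
  refine ae_restrict_of_ae ?_
  have hn0 : volume ({x : E n | ⟪a, x⟫ = 0}) = 0 := by
    have hset : {x : E n | ⟪a, x⟫ = 0} = ((ℝ ∙ a)ᗮ : Submodule ℝ (E n)) := by
      ext x; simp [Submodule.mem_orthogonal_singleton_iff_inner_right]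
    rw [hset]
    refine Measure.addHaar_submodule volume _ fun htop => ha ?_
    have : a ∈ (ℝ ∙ a)ᗮ := htop ▸ Submodule.mem_top
    rwa [Submodule.mem_orthogonal_singleton_iff_inner_right, inner_self_eq_zero] at this
  have : ∀ᵐ x : E n, ⟪a, x⟫ ≠ 0 := by rw [ae_iff]; simpa using hn0
  filter_upwards [this] with x hx
  have hx0 : x ≠ 0 := fun h => hx (by simp [h])
  rw [dir, real_inner_smul_right]
  exact mul_ne_zero (inv_ne_zero (norm_ne_zero_iff.2 hx0)) hx

/-- The even moments of a coordinate. -/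
def mom (n k : ℕ) : ℝ := sphAvg fun θ : E n => (∑ j, θ j ^ (2 * k)) / n

lemma single_inner (j : Fin n) (θ : E n) : ⟪EuclideanSpace.single j (1 : ℝ), θ⟫ = θ j := by
  simp [EuclideanSpace.inner_single_left]

lemma sum_coord_sq (θ : E n) : ∑ j, θ j ^ 2 = ‖θ‖ ^ 2 := by
  simp [EuclideanSpace.norm_sq_eq]

lemma mom_eq (hn : 1 ≤ n) (k : ℕ) {v : E n} (hv : ‖v‖ = 1) :
    ∫ θ, ⟪v, θ⟫ ^ (2 * k) ∂sph n = mom n k := by
  rw [mom, sphAvg_eq (by fun_prop), integral_div, integral_finsetSum _ fun j _ =>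
    integrable_cont hn (by fun_prop)]
  have h : ∀ j, ∫ θ : E n, θ j ^ (2 * k) ∂sph n = ∫ θ, ⟪v, θ⟫ ^ (2 * k) ∂sph n := fun j => by
    simp only [← single_inner j]
    exact integral_inner_congr (by simp [hv]) (fun t => t ^ (2 * k))
  have hn' : (n : ℝ) ≠ 0 := by exact_mod_cast (by omega : n ≠ 0)
  simp only [h, Finset.sum_const, Finset.card_univ, Fintype.card_fin, nsmul_eq_mul]
  field_simp

lemma mom_zero (hn : 1 ≤ n) : mom n 0 = 1 := by
  rw [← mom_eq hn 0 (v := EuclideanSpace.single ⟨0, by omega⟩ 1) (by simp)]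
  simp

lemma mom_nonneg (hn : 1 ≤ n) (k : ℕ) : 0 ≤ mom n k := by
  rw [← mom_eq hn k (v := EuclideanSpace.single ⟨0, by omega⟩ 1) (by simp)]
  exact integral_nonneg fun θ => by rw [pow_mul]; positivity

/-- Rotation invariance in a coordinate plane, read off at order two. -/
lemma mom_mixed (hn : 1 ≤ n) (k : ℕ) {e f : E n} (he : ‖e‖ = 1) (hf : ‖f‖ = 1) (hef : ⟪e, f⟫ = 0) :
    (2 * (k : ℝ) + 1) * ∫ θ, ⟪e, θ⟫ ^ (2 * k) * ⟪f, θ⟫ ^ 2 ∂sph n = mom n (k + 1) := by
  set j := 2 * (k + 1) with hj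
  set M : ℕ → ℝ := fun i => ∫ θ, ⟪e, θ⟫ ^ (j - i) * ⟪f, θ⟫ ^ i ∂sph n with hM
  have hexp : ∀ s : ℝ, ∑ i ∈ Finset.range (j + 1), s ^ i * ((j.choose i : ℝ) * M i) =
      (1 + s ^ 2) ^ (k + 1) * mom n (k + 1) := by
    intro s
    have hnorm : ‖e + s • f‖ ^ 2 = 1 + s ^ 2 := by
      rw [norm_add_sq_real, he, norm_smul, hf, real_inner_smul_right, hef, Real.norm_eq_abs,
        mul_one, sq_abs]
      ring
    have hne : 0 < ‖e + s • f‖ := by
      have : (0 : ℝ) < ‖e + s • f‖ ^ 2 := by rw [hnorm]; positivity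
      rcases (norm_nonneg (e + s • f)).lt_or_eq with h | h
      · exact h
      · rw [← h] at this; norm_num at this
    have h1 : ∫ θ, ⟪e + s • f, θ⟫ ^ j ∂sph n = ‖e + s • f‖ ^ j * mom n (k + 1) := by
      rw [← mom_eq hn (k + 1) (v := dir (e + s • f))
        (by rw [dir, norm_smul, norm_inv, norm_norm, inv_mul_cancel₀ hne.ne']),
        ← integral_const_mul]
      refine integral_congr_ae (Eventually.of_forall fun θ => ?_)
      simp only [dir, real_inner_smul_left, mul_pow]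
      rw [← mul_assoc, ← mul_pow, mul_inv_cancel₀ hne.ne', one_pow, one_mul]
    rw [show (1 + s ^ 2) ^ (k + 1) = ‖e + s • f‖ ^ j by rw [hj, pow_mul, hnorm], ← h1]
    have h2 : ∀ θ : E n, ⟪e + s • f, θ⟫ ^ j = ∑ i ∈ Finset.range (j + 1),
        s ^ i * (j.choose i : ℝ) * (⟪e, θ⟫ ^ (j - i) * ⟪f, θ⟫ ^ i) := fun θ => by
      rw [inner_add_left, real_inner_smul_left, add_comm, add_pow]
      exact Finset.sum_congr rfl fun i _ => by ring
    simp only [h2]
    rw [integral_finsetSum _ fun i _ => integrable_cont hn (by fun_prop)]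
    exact Finset.sum_congr rfl fun i _ => by rw [integral_const_mul]; ring
  open Polynomial in
  have hpoly : (∑ i ∈ Finset.range (j + 1), C ((j.choose i : ℝ) * M i) * X ^ i) =
      C (mom n (k + 1)) * (expand ℝ 2) ((1 + X) ^ (k + 1)) := by
    refine Polynomial.funext fun s => ?_
    simp only [eval_finsetSum, eval_mul, eval_C, eval_pow, eval_X, expand_eval, eval_add, eval_one]
    rw [mul_comm (mom n (k + 1)), ← hexp s]
    exact Finset.sum_congr rfl fun i _ => mul_comm _ _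
  have h3 := congrArg (fun p => Polynomial.coeff p (1 * 2)) hpoly
  simp only [Polynomial.finsetSum_coeff, Polynomial.coeff_C_mul, Polynomial.coeff_X_pow, one_mul,
    mul_ite, mul_one, mul_zero, Finset.sum_ite_eq, Finset.mem_range] at h3
  have hco : ((Polynomial.expand ℝ 2) ((1 + Polynomial.X) ^ (k + 1))).coeff 2 = ((k + 1 : ℕ) : ℝ) := by
    rw [show (2 : ℕ) = 1 * 2 from rfl, Polynomial.coeff_expand_mul (by norm_num),
      Polynomial.coeff_one_add_X_pow, Nat.choose_one_right]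
  rw [if_pos (by omega), hco] at h3
  rw [hM] at h3
  dsimp only at h3
  rw [show j - 2 = 2 * k by omega, Nat.cast_choose_two ℝ j, hj] at h3
  push_cast at h3
  have hk : (k : ℝ) + 1 ≠ 0 := by positivity
  refine mul_left_cancel₀ hk ?_
  rw [← mul_assoc]
  linear_combination h3

/-- The moments satisfy `(n + 2k) μ_(k+1) = (2k + 1) μ_k`. -/
lemma mom_succ (hn : 1 ≤ n) (k : ℕ) :
    ((n : ℝ) + 2 * k) * mom n (k + 1) = (2 * k + 1) * mom n k := by
  set i₀ : Fin n := ⟨0, by omega⟩
  set e := EuclideanSpace.single i₀ (1 : ℝ) with hedef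
  have he : ‖e‖ = 1 := by simp [hedef]
  have hsum : mom n k = ∑ j : Fin n, ∫ θ, ⟪e, θ⟫ ^ (2 * k) * θ j ^ 2 ∂sph n := by
    rw [← mom_eq hn k he, ← integral_finsetSum _ fun j _ => integrable_cont hn (by fun_prop)]
    refine integral_congr_ae ?_
    filter_upwards [sph_ae_norm hn] with θ hθ
    rw [← Finset.mul_sum, sum_coord_sq, hθ, one_pow, mul_one]
  have hterm : ∀ j : Fin n, (2 * (k : ℝ) + 1) * ∫ θ, ⟪e, θ⟫ ^ (2 * k) * θ j ^ 2 ∂sph n =
      (if j = i₀ then 2 * (k : ℝ) + 1 else 1) * mom n (k + 1) := by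
    intro j
    split_ifs with hj
    · subst hj
      simp only [← single_inner i₀, ← hedef, ← pow_add]
      rw [show 2 * k + 2 = 2 * (k + 1) by omega, mom_eq hn _ he]
    · simp only [← single_inner j, one_mul]
      exact mom_mixed hn k he (by simp) (by simp [hedef, EuclideanSpace.inner_single_left, hj])
  rw [hsum, Finset.mul_sum, Finset.sum_congr rfl fun j _ => hterm j, ← Finset.sum_mul]
  congr 1
  rw [Finset.sum_ite, Finset.filter_eq', if_pos (Finset.mem_univ _), Finset.sum_singleton,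
    Finset.filter_ne', Finset.sum_const, Finset.card_erase_of_mem (Finset.mem_univ _),
    Finset.card_univ, Fintype.card_fin, nsmul_eq_mul, Nat.cast_sub hn]
  push_cast
  ring

lemma mom_one (hn : 1 ≤ n) : mom n 1 = (n : ℝ)⁻¹ := by
  have h := mom_succ hn 0
  rw [mom_zero hn] at h
  simp only [zero_add, Nat.cast_zero, mul_zero, add_zero, mul_one] at h
  exact eq_inv_of_mul_eq_one_right h

end Vale.Agent.P237.Sharp.Kernel
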