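import Vale.Agent.P237.Sharp.Pins
import Vale.Agent.P237.Sharp.TChain
import Vale.Agent.P237.Asymp.GoodSet

/-!
P237: the tilted chain keeps the second moments, is concentrated in good directions, and almost
all directions are good.
-/

noncomputable section

open MeasureTheory Set Filter
open scoped RealInnerProductSpace Topology

namespace Vale.Agent.P237.Sharp

open Asymp

variable {n N : ℕ} {c : Fin N → ℝ} {u : Fin N → E n} {es : List (E n)}

private lemma frame_bilin (hF : Frame c u) (a b : E n) :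
    ∑ i, c i * ⟪u i, a⟫ * ⟪u i, b⟫ = ⟪a, b⟫ := by
  have h := congrArg (fun y => ⟪y, b⟫) (hF.2.2 a)
  simp only [sum_inner, real_inner_smul_left] at h
  exact h

/-- The coefficient of `x` along the new direction. -/
def coef (es : List (E n)) (v x : E n) : ℝ := ‖perp es v‖⁻¹ * ⟪v, perp es x⟫

lemma inner_new_direction (es : List (E n)) (v x : E n) :
    ⟪‖perp es v‖⁻¹ • perp es v, x⟫ = coef es v x := by
  rw [coef, real_inner_smul_left, inner_perp_comm, real_inner_comm v]

lemma inner_perp_nxt (es : List (E n)) (v x w : E n) :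
    ⟪perp (nxt es v) x, w⟫ = ⟪perp es x, w⟫ - coef es v x * coef es v w := by
  rw [nxt, inner_perp_cons, inner_new_direction, inner_new_direction]

lemma prob_mul_coef_mul_coef (es : List (E n)) (x w : E n) (i : Fin N) :
    prob c u es i * (coef es (u i) x * coef es (u i) w) =
      c i * ⟪u i, perp es x⟫ * ⟪u i, perp es w⟫ / ((n : ℝ) - es.length) := by
  by_cases hx : perp es (u i) = 0
  · have h0 : ⟪u i, perp es x⟫ = 0 := by
      rw [real_inner_comm, inner_perp_comm, hx, inner_zero_left]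
    simp [coef, prob, h0]
  · have := norm_ne_zero_iff.2 hx
    simp only [coef, prob]
    field_simp

lemma sum_prob_coef (hF : Frame c u) (h : Ortho es) (x w : E n) :
    ∑ i, prob c u es i * (coef es (u i) x * coef es (u i) w) =
      ⟪perp es x, w⟫ / ((n : ℝ) - es.length) := by
  simp only [prob_mul_coef_mul_coef, ← Finset.sum_div, frame_bilin hF, h.inner_perp_perp]

lemma sum_prob_coef_sq (hF : Frame c u) (h : Ortho es) (x : E n) :
    ∑ i, prob c u es i * coef es (u i) x ^ 2 = ‖perp es x‖ ^ 2 / ((n : ℝ) - es.length) := by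
  have h2 := sum_prob_coef hF h x x
  rw [← h.inner_perp_perp, real_inner_self_eq_norm_sq] at h2
  simpa only [sq] using h2

/-- The drift of the tilted chain. -/
lemma abs_sum_tprob_sub_le (hF : Frame c u) (h : Ortho es) (hlen : es.length < n) (x w : E n) :
    |∑ i, tprob c u es i * (coef es (u i) x * coef es (u i) w) -
        ⟪perp es x, w⟫ / ((n : ℝ) - es.length)| ≤
      3 * winW (n - es.length) *
        ((‖perp es x‖ ^ 2 + ‖perp es w‖ ^ 2) / 2) / ((n : ℝ) - es.length) := by
  rw [← sum_prob_coef hF h x w, ← Finset.sum_sub_distrib]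
  refine (Finset.abs_sum_le_sum_abs _ _).trans ?_
  calc ∑ i, |tprob c u es i * (coef es (u i) x * coef es (u i) w) -
        prob c u es i * (coef es (u i) x * coef es (u i) w)|
      ≤ ∑ i, (3 * winW (n - es.length) / 2 * (prob c u es i * coef es (u i) x ^ 2) +
          3 * winW (n - es.length) / 2 * (prob c u es i * coef es (u i) w ^ 2)) := by
        refine Finset.sum_le_sum fun i _ => ?_
        rw [← sub_mul, abs_mul]
        have hp := prob_nonneg hF hlen.le i
        have hw := winW_nonneg (n - es.length)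
        have h1 : |coef es (u i) x * coef es (u i) w| ≤
            (coef es (u i) x ^ 2 + coef es (u i) w ^ 2) / 2 := by
          rw [abs_mul, ← sq_abs (coef es (u i) x), ← sq_abs (coef es (u i) w)]
          linarith [two_mul_le_add_sq |coef es (u i) x| |coef es (u i) w|]
        refine (mul_le_mul (abs_tprob_sub_prob_le hF h hlen i) h1 (abs_nonneg _)
          (by positivity)).trans_eq ?_
        ring
    _ = _ := by
        rw [Finset.sum_add_distrib, ← Finset.mul_sum, ← Finset.mul_sum, sum_prob_coef_sq hF h,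
          sum_prob_coef_sq hF h]
        ring

/-! ### The second moment -/

private lemma rpow_third {m : ℕ} (hm : 0 < m) :
    ∃ b : ℝ, 0 < b ∧ b ^ 3 = m ∧ (m : ℝ) ^ (-(1 / 3) : ℝ) = b⁻¹ := by
  have h0 : (0 : ℝ) < m := by exact_mod_cast hm
  refine ⟨(m : ℝ) ^ ((1 : ℝ) / 3), Real.rpow_pos_of_pos h0 _, ?_, ?_⟩
  · rw [← Real.rpow_natCast, ← Real.rpow_mul h0.le]
    norm_num
  · rw [Real.rpow_neg h0.le]

/-- The error of one step is the increment of a multiple of the width. -/
private lemma step_le_telescope {m : ℕ} (hm : 2 ≤ m) :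
    3 * winW m / ((m : ℝ) - 1) ≤
      18 * (((m - 1 : ℕ) : ℝ) ^ (-(1 / 3) : ℝ) - (m : ℝ) ^ (-(1 / 3) : ℝ)) := by
  obtain ⟨a, ha, ha3, har⟩ := rpow_third (show 0 < m - 1 by omega)
  obtain ⟨b, hb, hb3, hbr⟩ := rpow_third (show 0 < m by omega)
  have hw : winW m ≤ b⁻¹ := hbr ▸ winW_le_rpow m
  have hm2 : (2 : ℝ) ≤ m := by exact_mod_cast hm
  rw [Nat.cast_sub (by omega : 1 ≤ m), Nat.cast_one] at ha3
  rw [har, hbr]
  have hab : a ≤ b := le_of_pow_le_pow_left₀ three_ne_zero hb.le (by linarith)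
  have h1 : 1 ≤ 3 * b ^ 2 * (b - a) := by
    have : (b - a) * (b ^ 2 + b * a + a ^ 2) = 1 := by linear_combination hb3 - ha3
    have h2 : b ^ 2 + b * a + a ^ 2 ≤ 3 * b ^ 2 := by nlinarith [mul_le_mul hab hab ha.le hb.le]
    nlinarith [mul_le_mul_of_nonneg_left h2 (sub_nonneg.2 hab)]
  calc 3 * winW m / ((m : ℝ) - 1) ≤ 3 * b⁻¹ / ((m : ℝ) / 2) := by
        refine div_le_div₀ (by positivity) (by linarith) (by linarith) (by linarith)
    _ = 6 / b ^ 4 := by rw [← hb3]; field_simp; ring
    _ ≤ 18 * (a⁻¹ - b⁻¹) := by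
        rw [div_le_iff₀ (by positivity), show a⁻¹ - b⁻¹ = (b - a) / (a * b) by field_simp]
        rw [mul_div_assoc', div_mul_eq_mul_div, le_div_iff₀ (by positivity)]
        nlinarith [mul_le_mul_of_nonneg_left h1 (by positivity : (0 : ℝ) ≤ b ^ 2),
          mul_le_mul_of_nonneg_left hab (by positivity : (0 : ℝ) ≤ b)]

/-- The accumulated error between the dimensions `M` and `m`. -/
private def accErr (M m : ℕ) : ℝ :=
  Real.exp (18 * ((M : ℝ) ^ (-(1 / 3) : ℝ) - (m : ℝ) ^ (-(1 / 3) : ℝ))) - 1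

private lemma second_moment_step (hF : Frame c u) (hh : E n) (k : ℕ) : ∀ es : List (E n),
    Ortho es → es.length + k < n →
    |tchain c u k es (fun fs => ‖perp fs hh‖ ^ 2) -
        ((n : ℝ) - es.length - k) / ((n : ℝ) - es.length) * ‖perp es hh‖ ^ 2| ≤
      accErr (n - es.length - k) (n - es.length) *
        (((n : ℝ) - es.length - k) / ((n : ℝ) - es.length) * ‖perp es hh‖ ^ 2) := by
  induction k with
  | zero =>
    intro es _ hl
    have : (n : ℝ) - es.length ≠ 0 := sub_ne_zero.2 (by exact_mod_cast (show es.length ≠ n by omega).symm)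
    simp [tchain, accErr, this]
  | succ k ih =>
    intro es h hl
    set m := n - es.length with hm
    set P := ‖perp es hh‖ ^ 2 with hP
    set M := n - es.length - (k + 1) with hMdef
    have hmR : ((n : ℝ) - es.length) = m := by
      rw [hm, Nat.cast_sub (by omega : es.length ≤ n)]
    set A := accErr M (m - 1) with hA
    set q := ((m : ℝ) - 1 - k) / ((m : ℝ) - 1) with hq
    have hm2 : (2 : ℝ) ≤ m := by exact_mod_cast (show 2 ≤ m by omega)
    have hkm : (k : ℝ) + 2 ≤ m := by exact_mod_cast (show k + 2 ≤ m by omega)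
    have hq0 : 0 ≤ q := div_nonneg (by linarith) (by linarith)
    set Y : Fin N → ℝ := fun i => ‖perp (nxt es (u i)) hh‖ ^ 2 with hY
    have hA0 : 0 ≤ A := by
      rw [hA, accErr, sub_nonneg]
      refine Real.one_le_exp (mul_nonneg (by norm_num) (sub_nonneg.2 ?_))
      exact Real.rpow_le_rpow_of_nonpos (by exact_mod_cast (show 0 < M by omega))
        (by exact_mod_cast (show M ≤ m - 1 by omega)) (by norm_num)
    have hchild : |tchain c u (k + 1) es (fun fs => ‖perp fs hh‖ ^ 2) -
        q * ∑ i, tprob c u es i * Y i| ≤ A * q * ∑ i, tprob c u es i * Y i := by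
      rw [tchain, Finset.mul_sum, Finset.mul_sum, ← Finset.sum_sub_distrib]
      refine (Finset.abs_sum_le_sum_abs _ _).trans (Finset.sum_le_sum fun i _ => ?_)
      by_cases hx : perp es (u i) = 0
      · simp [tprob_eq_zero hx]
      · have h2 := ih _ (h.nxt hx) (by rw [length_nxt]; omega)
        simp only [length_nxt] at h2
        rw [show n - (es.length + 1) - k = M by omega, show n - (es.length + 1) = m - 1 by omega,
          Nat.cast_add, Nat.cast_one, show (n : ℝ) - (es.length + 1) = m - 1 by linarith] at h2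
        rw [show q * (tprob c u es i * Y i) = tprob c u es i * (q * Y i) by ring, ← mul_sub,
          abs_mul, abs_of_nonneg (tprob_nonneg hF h (by omega) i)]
        refine (mul_le_mul_of_nonneg_left h2 (tprob_nonneg hF h (by omega) i)).trans_eq ?_
        simp only [hY, hq, hA]; ring
    have hsum : |∑ i, tprob c u es i * Y i - (1 - 1 / (m : ℝ)) * P| ≤
        3 * winW m / m * P := by
      have hy : ∀ i, tprob c u es i * Y i = tprob c u es i * P -
          tprob c u es i * (coef es (u i) hh * coef es (u i) hh) := by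
        intro i
        by_cases hx : perp es (u i) = 0
        · simp [tprob_eq_zero hx]
        · simp only [hY, hP]
          rw [← real_inner_self_eq_norm_sq, ← real_inner_self_eq_norm_sq,
            (h.nxt hx).inner_perp_perp, h.inner_perp_perp, inner_perp_nxt]
          ring
      have hd := abs_sum_tprob_sub_le hF h (by omega) hh hh
      rw [← h.inner_perp_perp, real_inner_self_eq_norm_sq, hmR, ← hP, ← hm] at hd
      simp only [hy, Finset.sum_sub_distrib, ← Finset.sum_mul, sum_tprob hF h (by omega : es.length < n),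
        one_mul]
      rw [abs_sub_comm] at hd
      rw [show P - ∑ i, tprob c u es i * (coef es (u i) hh * coef es (u i) hh) - (1 - 1 / (m : ℝ)) * P =
        P / m - ∑ i, tprob c u es i * (coef es (u i) hh * coef es (u i) hh) by ring]
      exact hd.trans_eq (by ring)
    set θ := 3 * winW m / ((m : ℝ) - 1) with hθ
    have hθ0 : 0 ≤ θ := div_nonneg (by have := winW_nonneg m; positivity) (by linarith)
    set R := (1 - 1 / (m : ℝ)) * P with hR
    have hR0 : 0 ≤ R := mul_nonneg (sub_nonneg.2 (by rw [div_le_one (by linarith)]; linarith))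
      (sq_nonneg _)
    have hθR : 3 * winW m / m * P = θ * R := by
      rw [hθ, hR]
      field_simp [show (m : ℝ) - 1 ≠ 0 by linarith]
    have htarget : ((n : ℝ) - es.length - ((k + 1 : ℕ) : ℝ)) / ((n : ℝ) - es.length) * P = q * R := by
      rw [hmR, hq, hR]
      push_cast
      field_simp [show (m : ℝ) - 1 ≠ 0 by linarith]
      ring
    have hacc : (1 + A) * (1 + θ) ≤ 1 + accErr M m := by
      simp only [hA, accErr, add_sub_cancel]
      refine (mul_le_mul_of_nonneg_left (Real.add_one_le_exp θ |>.trans' (by linarith))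
        (Real.exp_pos _).le).trans ?_
      rw [← Real.exp_add]
      refine Real.exp_le_exp.2 ?_
      have := step_le_telescope (show 2 ≤ m by omega)
      linarith
    rw [htarget]
    rw [hθR] at hsum
    set T := ∑ i, tprob c u es i * Y i
    have hT : T ≤ (1 + θ) * R := by linarith [(abs_le.1 hsum).2]
    have h1 : |q * T - q * R| ≤ q * (θ * R) := by
      rw [← mul_sub, abs_mul, abs_of_nonneg hq0]
      exact mul_le_mul_of_nonneg_left hsum hq0
    calc |tchain c u (k + 1) es (fun fs => ‖perp fs hh‖ ^ 2) - q * R|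
        ≤ A * q * T + q * (θ * R) := (abs_sub_le _ (q * T) _).trans (add_le_add hchild h1)
      _ ≤ A * q * ((1 + θ) * R) + q * (θ * R) :=
          add_le_add (mul_le_mul_of_nonneg_left hT (mul_nonneg hA0 hq0)) le_rfl
      _ = ((1 + A) * (1 + θ) - 1) * (q * R) := by ring
      _ ≤ accErr M m * (q * R) := mul_le_mul_of_nonneg_right (by linarith) (mul_nonneg hq0 hR0)

theorem secondMoment : SecondMoment := by
  refine ⟨18 * Real.exp 18, by positivity, fun n N c u k h hF hk => ?_⟩
  have h2 := second_moment_step hF h k [] Ortho.nil (by simpa using hk)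
  simp only [perp_nil, List.length_nil, Nat.cast_zero, sub_zero, Nat.sub_zero] at h2
  have hn : (0 : ℝ) < n := by exact_mod_cast (Nat.zero_le k).trans_lt hk
  have hq : ((n : ℝ) - k) / n = 1 - (k : ℝ) / n := by field_simp
  rw [hq] at h2
  refine h2.trans ((mul_le_mul_of_nonneg_right ?_ ?_).trans_eq (mul_assoc _ _ _).symm)
  · rw [← Nat.cast_sub hk.le]
    set s := ((n - k : ℕ) : ℝ) ^ (-(1 / 3) : ℝ) with hs
    have hs0 : 0 ≤ s := by positivity
    have hs1 : s ≤ 1 := Real.rpow_le_one_of_one_le_of_nonpos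
      (by exact_mod_cast (show 1 ≤ n - k by omega)) (by norm_num)
    have h3 : accErr (n - k) n ≤ Real.exp (18 * s) - 1 := by
      rw [accErr, ← hs]
      refine sub_le_sub_right (Real.exp_le_exp.2 ?_) 1
      have : 0 ≤ (n : ℝ) ^ (-(1 / 3) : ℝ) := by positivity
      linarith
    have h4 : Real.exp (18 * s) - 1 ≤ 18 * s * Real.exp (18 * s) := by
      have h5 := Real.add_one_le_exp (-(18 * s))
      have h6 : Real.exp (-(18 * s)) * Real.exp (18 * s) = 1 := by
        rw [← Real.exp_add, neg_add_cancel, Real.exp_zero]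
      nlinarith [mul_le_mul_of_nonneg_right h5 (Real.exp_pos (18 * s)).le]
    have h5 : Real.exp (18 * s) ≤ Real.exp 18 := Real.exp_le_exp.2 (by linarith)
    calc accErr (n - k) n ≤ 18 * s * Real.exp (18 * s) := h3.trans h4
      _ ≤ 18 * s * Real.exp 18 := mul_le_mul_of_nonneg_left h5 (by positivity)
      _ = _ := by ring
  · refine mul_nonneg (sub_nonneg.2 ((div_le_one hn).2 ?_)) (sq_nonneg _)
    exact_mod_cast hk.le

/-! ### Concentration in good directions -/

/-- The sum of the products of the squared coefficients. -/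
def coefSum (x w : E n) (es : List (E n)) : ℝ :=
  (es.map fun e => ⟪e, x⟫ ^ 2 * ⟪e, w⟫ ^ 2).sum

lemma coefSum_le {x w : E n} (hx : ‖x‖ = 1) (hw : ‖w‖ = 1) {τ : ℝ} (hτ : 0 ≤ τ)
    (ho : Ortho es) : coefSum x w es ≤ τ + far τ x es := by
  have hsum : (es.map fun e => ⟪e, w⟫ ^ 2).sum ≤ 1 := by
    have := ho.norm_perp_sq w
    rw [hw] at this
    linarith [sq_nonneg ‖perp es w‖]
  have hbd : ∀ M : ℝ, (∀ e ∈ es, ⟪e, x⟫ ^ 2 ≤ M) → 0 ≤ M → coefSum x w es ≤ M := by
    intro M hM hM0
    refine le_trans ?_ (mul_le_of_le_one_right hM0 hsum)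
    rw [coefSum, ← List.sum_map_mul_left]
    exact List.sum_le_sum fun e he => mul_le_mul_of_nonneg_right (hM e he) (sq_nonneg _)
  by_cases hf : ∃ e ∈ es, τ * ‖x‖ ^ 2 < ⟪e, x⟫ ^ 2
  · rw [far, indicator_of_mem (show es ∈ {gs : List (E n) | ∃ e ∈ gs, τ * ‖x‖ ^ 2 < ⟪e, x⟫ ^ 2}
      from hf)]
    have h1 := hbd 1 (fun e he => by
      have := abs_real_inner_le_norm e x
      rw [ho.2 e he, hx, one_mul] at this
      nlinarith [sq_abs ⟪e, x⟫, abs_nonneg ⟪e, x⟫]) zero_le_one
    linarith
  · rw [far, indicator_of_notMem (show es ∉ {gs : List (E n) | ∃ e ∈ gs, τ * ‖x‖ ^ 2 < ⟪e, x⟫ ^ 2}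
      from hf)]
    have h1 := hbd τ (fun e he => le_of_not_gt fun h => hf ⟨e, he, by simpa [hx] using h⟩) hτ
    linarith

lemma abs_inner_perp_le_one {x w : E n} (hx : ‖x‖ = 1) (hw : ‖w‖ = 1) (ho : Ortho es) :
    |⟪perp es x, w⟫| ≤ 1 :=
  calc |⟪perp es x, w⟫| ≤ ‖perp es x‖ * ‖w‖ := abs_real_inner_le_norm _ _
    _ ≤ 1 := by rw [hw, mul_one]; exact (ho.norm_perp_le x).trans_eq hx

/-- The squared deviation, less twice the sum of the squared products of the coefficients. -/
private def devFun (θ h : E n) (es : List (E n)) : ℝ :=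
  (⟪perp es θ, h⟫ - (1 - (es.length : ℝ) / n) * ⟪θ, h⟫) ^ 2 - 2 * coefSum θ h es

private lemma devFun_step (hF : Frame c u) (ho : Ortho es) (hlen : es.length < n) {θ h : E n}
    (hθ : ‖θ‖ = 1) (hh : ‖h‖ = 1) :
    ∑ i, tprob c u es i * devFun θ h (nxt es (u i)) ≤
      devFun θ h es + (12 * winW (n - es.length) + 2 / ((n : ℝ) - es.length)) /
        ((n : ℝ) - es.length) := by
  set X := ⟪perp es θ, h⟫ with hX
  set T := ⟪θ, h⟫ with hT
  set m : ℝ := (n : ℝ) - es.length with hm
  set w := winW (n - es.length) with hw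
  have hm1 : 1 ≤ m := by
    rw [hm, le_sub_iff_add_le, add_comm]
    exact_mod_cast hlen
  have hn : (0 : ℝ) < n := by exact_mod_cast (Nat.zero_le es.length).trans_lt hlen
  set Z : Fin N → ℝ := fun i => coef es (u i) θ * coef es (u i) h with hZ
  set D := X - (1 - (es.length : ℝ) / n) * T with hD
  set a : ℝ := 1 - 1 / m with ha
  have ha0 : 0 ≤ a := sub_nonneg.2 (by rw [div_le_one (by linarith)]; exact hm1)
  have ha1 : a ≤ 1 := sub_le_self _ (by positivity)
  have hql : (1 - ((es.length + 1 : ℕ) : ℝ) / n) = a * (1 - (es.length : ℝ) / n) := by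
    rw [ha, hm]
    field_simp [show (n : ℝ) - es.length ≠ 0 by linarith]
    push_cast
    ring
  have hterm : ∀ i, devFun θ h (nxt es (u i)) =
      (a * D + (X / m - Z i)) ^ 2 - 2 * Z i ^ 2 - 2 * coefSum θ h es := by
    intro i
    simp only [devFun, length_nxt, hql, inner_perp_nxt, ← hX, ← hT]
    simp only [coefSum, nxt, List.map_cons, List.sum_cons, inner_new_direction, hD, hZ, ha]
    ring
  have hXb : |X| ≤ 1 := abs_inner_perp_le_one hθ hh ho
  have hTb : |T| ≤ 1 := (abs_real_inner_le_norm _ _).trans (by rw [hθ, hh]; norm_num)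
  have hDb : |D| ≤ 2 := by
    refine (abs_sub _ _).trans ?_
    rw [abs_mul]
    have h1 : |1 - (es.length : ℝ) / n| ≤ 1 := by
      have e1 : (es.length : ℝ) / n ≤ 1 := (div_le_one hn).2 (by exact_mod_cast hlen.le)
      have e2 : (0 : ℝ) ≤ (es.length : ℝ) / n := by positivity
      exact abs_le.2 ⟨by linarith, by linarith⟩
    linarith [mul_le_mul h1 hTb (abs_nonneg _) zero_le_one]
  have hdrift : |X / m - ∑ i, tprob c u es i * Z i| ≤ 3 * w / m := by
    rw [abs_sub_comm]
    refine (abs_sum_tprob_sub_le hF ho hlen θ h).trans ?_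
    rw [← hm, ← hw]
    refine div_le_div_of_nonneg_right ?_ (by linarith)
    have e1 := pow_le_pow_left₀ (norm_nonneg _) (ho.norm_perp_le θ) 2
    have e2 := pow_le_pow_left₀ (norm_nonneg _) (ho.norm_perp_le h) 2
    rw [hθ] at e1
    rw [hh] at e2
    calc 3 * w * ((‖perp es θ‖ ^ 2 + ‖perp es h‖ ^ 2) / 2)
        ≤ 3 * w * 1 := mul_le_mul_of_nonneg_left (by linarith)
          (mul_nonneg (by norm_num) (winW_nonneg _))
      _ = 3 * w := mul_one _
  have hle : ∀ i, tprob c u es i * devFun θ h (nxt es (u i)) ≤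
      tprob c u es i * ((a * D) ^ 2 + 2 * (X / m) ^ 2 - 2 * coefSum θ h es) +
        2 * (a * D) * (tprob c u es i * (X / m) - tprob c u es i * Z i) := by
    intro i
    rw [hterm, ← mul_sub, mul_left_comm, ← mul_add]
    refine mul_le_mul_of_nonneg_left ?_ (tprob_nonneg hF ho hlen i)
    nlinarith [sq_nonneg (X / m + Z i)]
  refine (Finset.sum_le_sum fun i _ => hle i).trans ?_
  rw [Finset.sum_add_distrib, ← Finset.sum_mul, sum_tprob hF ho hlen, one_mul, ← Finset.mul_sum,
    Finset.sum_sub_distrib, ← Finset.sum_mul, sum_tprob hF ho hlen, one_mul]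
  have h1 : (a * D) ^ 2 ≤ D ^ 2 := by
    rw [mul_pow]
    exact mul_le_of_le_one_left (sq_nonneg D) (pow_le_one₀ ha0 ha1)
  have h2 : 2 * (a * D) * (X / m - ∑ i, tprob c u es i * Z i) ≤ 12 * w / m := by
    refine (le_abs_self _).trans ?_
    rw [abs_mul, abs_mul, abs_two, abs_mul, abs_of_nonneg ha0]
    calc 2 * (a * |D|) * |X / m - ∑ i, tprob c u es i * Z i| ≤ 2 * (1 * 2) * (3 * w / m) :=
          mul_le_mul (by gcongr) hdrift (abs_nonneg _) (by norm_num)
      _ = _ := by ring
  have h3 : (X / m) ^ 2 ≤ 1 / m / m := by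
    rw [div_pow, div_div, sq m]
    gcongr
    exact (sq_le_one_iff_abs_le_one X).2 hXb
  have h4 : devFun θ h es = D ^ 2 - 2 * coefSum θ h es := rfl
  rw [h4, add_div, show 2 / m / m = 2 * (1 / m / m) by ring]
  linarith

private lemma tendsto_rpow_neg_third :
    Tendsto (fun n : ℕ => (n : ℝ) ^ (-(1 / 3) : ℝ)) atTop (𝓝 0) :=
  (tendsto_rpow_neg_atTop (by norm_num)).comp tendsto_natCast_atTop_atTop

private lemma tendsto_inv_sqrt : Tendsto (fun n : ℕ => (√(n : ℝ))⁻¹) atTop (𝓝 0) :=
  tendsto_inv_atTop_zero.comp (Real.tendsto_sqrt_atTop.comp tendsto_natCast_atTop_atTop)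

theorem goodVariance : GoodVariance := by
  intro η ε hη hε
  have hlim : Tendsto (fun n : ℕ => 4 * (√(n : ℝ))⁻¹ +
      ((12 / η) * η ^ (-(1 / 3) : ℝ) * (n : ℝ) ^ (-(1 / 3) : ℝ) + 2 / η ^ 2 * (n : ℝ)⁻¹))
      atTop (𝓝 0) := by
    simpa using (tendsto_inv_sqrt.const_mul 4).add
      ((tendsto_rpow_neg_third.const_mul _).add (tendsto_inv_atTop_nhds_zero_nat.const_mul _))
  obtain ⟨n₁, hn₁⟩ := eventually_atTop.1 (hlim.eventually (ge_mem_nhds hε))
  refine ⟨max n₁ 1, fun n N c u θ h k hn hF hgood hh hk hkn => ?_⟩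
  obtain ⟨hθ, hfar⟩ := hgood
  have hn1 : (1 : ℝ) ≤ n := by exact_mod_cast (le_max_right n₁ 1).trans hn
  have hηn : 0 < η * n := by positivity
  set b := (12 * (η * n) ^ (-(1 / 3) : ℝ) + 2 / (η * n)) / (η * n) with hb
  have hk0 : ([] : List (E n)).length + k ≤ n := by simpa using hk
  have hstep : ∀ fs : List (E n), Ortho fs → ([] : List (E n)).length ≤ fs.length →
      fs.length < ([] : List (E n)).length + k →
      ∑ i, tprob c u fs i * devFun θ h (nxt fs (u i)) ≤ devFun θ h fs + b := by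
    intro fs ho _ hl
    simp only [List.length_nil, zero_add] at hl
    refine (devFun_step hF ho (by omega) hθ hh).trans (add_le_add le_rfl ?_)
    have hm : η * n ≤ (n : ℝ) - fs.length := by
      have : (fs.length : ℝ) ≤ k := by exact_mod_cast hl.le
      linarith
    have hw : winW (n - fs.length) ≤ (η * n) ^ (-(1 / 3) : ℝ) :=
      (winW_le_rpow _).trans (Real.rpow_le_rpow_of_nonpos hηn
        (by rw [Nat.cast_sub (by omega : fs.length ≤ n)]; exact hm) (by norm_num))
    rw [hb]
    exact div_le_div₀ (by positivity) (add_le_add (mul_le_mul_of_nonneg_left hw (by norm_num))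
      (div_le_div_of_nonneg_left (by norm_num) hηn hm)) hηn hm
  have h1 := tchain_le_add_mul hF k [] Ortho.nil hk0 hstep
  have h0 : devFun θ h [] = 0 := by simp [devFun, coefSum, perp_nil]
  rw [h0, zero_add] at h1
  have hcongr : tchain c u k []
      (fun es => (⟪perp es θ, h⟫ - (1 - (k : ℝ) / n) * ⟪θ, h⟫) ^ 2) =
      tchain c u k [] (devFun θ h) + 2 * tchain c u k [] (coefSum θ h) := by
    rw [← tchain_const_mul, ← tchain_add]
    refine tchain_congr hF k [] Ortho.nil hk0 fun fs _ hl => ?_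
    simp only [List.length_nil, zero_add] at hl
    simp only [devFun, hl]
    ring
  have h2 : tchain c u k [] (coefSum θ h) ≤ (√(n : ℝ))⁻¹ + (√(n : ℝ))⁻¹ := by
    refine (tchain_mono hF k [] Ortho.nil hk0 fun fs ho _ =>
      coefSum_le hθ hh (τ := (√(n : ℝ))⁻¹) (by positivity) ho).trans ?_
    rw [tchain_add, tchain_const hF k [] Ortho.nil hk0]
    exact add_le_add le_rfl (hfar k hk)
  have h3 : (k : ℝ) * b ≤
      (12 / η) * η ^ (-(1 / 3) : ℝ) * (n : ℝ) ^ (-(1 / 3) : ℝ) + 2 / η ^ 2 * (n : ℝ)⁻¹ := by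
    refine (mul_le_mul_of_nonneg_right (Nat.cast_le.2 hk) (by positivity)).trans_eq ?_
    rw [hb, Real.mul_rpow hη.le (by positivity)]
    field_simp
  linarith [hn₁ n ((le_max_left _ _).trans hn)]

/-! ### Most directions are good -/

lemma far_dir {τ : ℝ} {x : E n} (hx : x ≠ 0) (es : List (E n)) :
    far τ (dir x) es = far τ x es := by
  have h0 : 0 < ‖x‖ := norm_pos_iff.2 hx
  have key : ∀ e : E n, (τ * ‖dir x‖ ^ 2 < ⟪e, dir x⟫ ^ 2) ↔ (τ * ‖x‖ ^ 2 < ⟪e, x⟫ ^ 2) := by
    intro e
    rw [dir, norm_smul, real_inner_smul_right, norm_inv, norm_norm, mul_pow, mul_pow,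
      mul_left_comm, mul_lt_mul_iff_right₀ (by positivity : 0 < (‖x‖⁻¹) ^ 2)]
  simp only [far, key]

private lemma integral_tchain_far (hF : Frame c u) {τ : ℝ} (hτ : 0 < τ) (hτ1 : τ ≤ 1) (k : ℕ) :
    ∀ es : List (E n), Ortho es → es.length + k ≤ n →
    IntegrableOn (fun x => tchain c u k es (far τ x)) (Metric.closedBall 0 1) ∧
      ∫ x in Metric.closedBall (0 : E n) 1, tchain c u k es (far τ x) ≤
        n * (kappa n * ((1 / 2) ^ n + 2 * Real.exp (-(n * τ) / 8))) := by
  induction k with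
  | zero =>
    intro es ho hl
    obtain ⟨h1, h2⟩ := integral_far_le hτ hτ1 es ho.2
    refine ⟨h1, h2.trans (mul_le_mul_of_nonneg_right (by exact_mod_cast hl) ?_)⟩
    exact mul_nonneg ENNReal.toReal_nonneg (by positivity)
  | succ k ih =>
    intro es ho hl
    set B := (n : ℝ) * (kappa n * ((1 / 2) ^ n + 2 * Real.exp (-(n * τ) / 8))) with hB
    have hterm : ∀ i, IntegrableOn (fun x => tprob c u es i * tchain c u k (nxt es (u i)) (far τ x))
        (Metric.closedBall 0 1) ∧ ∫ x in Metric.closedBall (0 : E n) 1,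
          tprob c u es i * tchain c u k (nxt es (u i)) (far τ x) ≤ tprob c u es i * B := by
      intro i
      by_cases hx : perp es (u i) = 0
      · simp [tprob_eq_zero hx]
      · obtain ⟨h1, h2⟩ := ih _ (ho.nxt hx) (by rw [length_nxt]; omega)
        refine ⟨h1.const_mul _, ?_⟩
        rw [integral_const_mul]
        exact mul_le_mul_of_nonneg_left h2 (tprob_nonneg hF ho (by omega) i)
    refine ⟨integrable_finsetSum _ fun i _ => (hterm i).1, ?_⟩
    simp only [tchain]
    rw [integral_finsetSum _ fun i _ => (hterm i).1]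
    calc ∑ i, ∫ x in Metric.closedBall (0 : E n) 1,
          tprob c u es i * tchain c u k (nxt es (u i)) (far τ x)
        ≤ ∑ i, tprob c u es i * B := Finset.sum_le_sum fun i _ => (hterm i).2
      _ = B := by rw [← Finset.sum_mul, sum_tprob hF ho (by omega), one_mul]

private lemma bad_indicator_le (hF : Frame c u) (hn : 0 < n) {x : E n} (hx : x ≠ 0) :
    {θ | ¬GoodDir c u θ}.indicator (fun _ => (1 : ℝ)) (dir x) ≤
      √(n : ℝ) * ∑ k ∈ Finset.range (n + 1), tchain c u k [] (far (√(n : ℝ))⁻¹ x) := by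
  have hs : 0 < √(n : ℝ) := Real.sqrt_pos.2 (by exact_mod_cast hn)
  have hnn : ∀ k ∈ Finset.range (n + 1), 0 ≤ tchain c u k [] (far (√(n : ℝ))⁻¹ x) := fun k hk =>
    tchain_nonneg hF k [] Ortho.nil (by simpa [Finset.mem_range_succ_iff] using hk)
      fun fs _ _ => far_nonneg _ x fs
  by_cases hg : GoodDir c u (dir x)
  · rw [indicator_of_notMem (by simpa using hg)]
    exact mul_nonneg hs.le (Finset.sum_nonneg hnn)
  · rw [indicator_of_mem (by simpa using hg)]
    have hnorm : ‖dir x‖ = 1 := by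
      rw [dir, norm_smul, norm_inv, norm_norm, inv_mul_cancel₀ (norm_ne_zero_iff.2 hx)]
    rw [GoodDir, not_and] at hg
    have := hg hnorm
    push Not at this
    obtain ⟨k, hk, hlt⟩ := this
    have hfun : far (√(n : ℝ))⁻¹ (dir x) = far (√(n : ℝ))⁻¹ x := funext (far_dir hx)
    rw [hfun] at hlt
    calc (1 : ℝ) = √(n : ℝ) * (√(n : ℝ))⁻¹ := (mul_inv_cancel₀ hs.ne').symm
      _ ≤ _ := mul_le_mul_of_nonneg_left (hlt.le.trans
          (Finset.single_le_sum hnn (Finset.mem_range_succ_iff.2 hk))) hs.le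

theorem goodMost : GoodMost := by
  intro ε hε
  set K : ℝ := 8 ^ 12 * (Nat.factorial 12 : ℝ) with hK
  have hlim : Tendsto (fun n : ℕ => 6 * K * (n : ℝ)⁻¹) atTop (𝓝 0) := by
    simpa using tendsto_inv_atTop_nhds_zero_nat.const_mul (6 * K)
  obtain ⟨n₁, hn₁⟩ := eventually_atTop.1 (hlim.eventually (ge_mem_nhds hε))
  refine ⟨max n₁ 1, fun n N c u hn hF => ?_⟩
  have hnpos : 0 < n := (le_max_right n₁ 1).trans hn
  have hn1 : (1 : ℝ) ≤ n := by exact_mod_cast hnpos
  set τ := (√(n : ℝ))⁻¹ with hτ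
  have hs1 : 1 ≤ √(n : ℝ) := by rw [Real.one_le_sqrt]; exact hn1
  have hsn : √(n : ℝ) ≤ n := by
    rw [Real.sqrt_le_left (by positivity)]; nlinarith
  have hτ0 : 0 < τ := by positivity
  have hτ1 : τ ≤ 1 := inv_le_one_of_one_le₀ hs1
  have hκ : 0 < kappa n :=
    ENNReal.toReal_pos (Metric.measure_ball_pos volume 0 one_pos).ne' measure_ball_lt_top.ne
  have hint := fun k (hk : k ≤ n) => integral_tchain_far hF hτ0 hτ1 k [] Ortho.nil
    (by simpa using hk)
  set g : E n → ℝ := fun x => √(n : ℝ) * ∑ k ∈ Finset.range (n + 1), tchain c u k [] (far τ x)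
  have hgi : IntegrableOn g (Metric.closedBall 0 1) := Integrable.const_mul
    (integrable_finsetSum _ fun k hk => (hint k (Finset.mem_range_succ_iff.1 hk)).1) _
  have hne : ∀ᵐ x ∂volume.restrict (Metric.closedBall (0 : E n) 1), x ≠ 0 := by
    have : Nonempty (Fin n) := ⟨⟨0, hnpos⟩⟩
    exact ae_restrict_of_ae (compl_mem_ae_iff.2 (measure_singleton 0))
  have hle : ∫ x in Metric.closedBall (0 : E n) 1,
      {θ | ¬GoodDir c u θ}.indicator (fun _ => (1 : ℝ)) (dir x) ≤
      ∫ x in Metric.closedBall (0 : E n) 1, g x :=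
    integral_mono_of_nonneg (ae_of_all _ fun x => indicator_nonneg (fun _ _ => zero_le_one) _)
      hgi (hne.mono fun x hx => bad_indicator_le hF hnpos hx)
  have hgb : ∫ x in Metric.closedBall (0 : E n) 1, g x ≤ √(n : ℝ) * (((n : ℝ) + 1) *
      (n * (kappa n * ((1 / 2) ^ n + 2 * Real.exp (-(n * τ) / 8))))) := by
    simp only [g]
    rw [integral_const_mul,
      integral_finsetSum _ fun k hk => (hint k (Finset.mem_range_succ_iff.1 hk)).1]
    refine mul_le_mul_of_nonneg_left ((Finset.sum_le_card_nsmul _ _ _ fun k hk =>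
      (hint k (Finset.mem_range_succ_iff.1 hk)).2).trans_eq ?_) (by positivity)
    rw [Finset.card_range, nsmul_eq_mul]; push_cast; ring
  have hexp : (1 / 2 : ℝ) ^ n + 2 * Real.exp (-(n * τ) / 8) ≤ 3 * (K / (n : ℝ) ^ 6) := by
    have hnt : (n : ℝ) * τ = √(n : ℝ) := by
      rw [hτ, ← div_eq_mul_inv, div_eq_iff (by positivity), Real.mul_self_sqrt (by positivity)]
    have h1 : (1 / 2 : ℝ) ^ n ≤ Real.exp (-(n * τ) / 8) := by
      rw [hnt, show (1 / 2 : ℝ) = Real.exp (-Real.log 2) by
        rw [Real.exp_neg, Real.exp_log two_pos]; norm_num, ← Real.exp_nat_mul]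
      refine Real.exp_le_exp.2 ?_
      have := Real.log_two_gt_d9
      nlinarith
    have h2 : Real.exp (-(n * τ) / 8) ≤ K / (n : ℝ) ^ 6 := by
      rw [hnt, neg_div, Real.exp_neg]
      have h3 := Real.pow_div_factorial_le_exp (x := √(n : ℝ) / 8) (by positivity) 12
      refine (inv_anti₀ (by positivity) h3).trans_eq ?_
      rw [hK, div_pow, show √(n : ℝ) ^ 12 = (√(n : ℝ) ^ 2) ^ 6 by ring,
        Real.sq_sqrt (Nat.cast_nonneg n)]
      field_simp
    linarith
  rw [sphAvg, inv_mul_le_iff₀ hκ]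
  refine (hle.trans hgb).trans ?_
  have h5 : √(n : ℝ) * (((n : ℝ) + 1) * n) ≤ 2 * (n : ℝ) ^ 3 := by
    calc √(n : ℝ) * (((n : ℝ) + 1) * n) ≤ n * ((2 * n) * n) := by gcongr; linarith
      _ = _ := by ring
  calc √(n : ℝ) * (((n : ℝ) + 1) * (n * (kappa n * ((1 / 2) ^ n + 2 * Real.exp (-(n * τ) / 8)))))
      = kappa n * (√(n : ℝ) * (((n : ℝ) + 1) * n) *
          ((1 / 2) ^ n + 2 * Real.exp (-(n * τ) / 8))) := by ring
    _ ≤ kappa n * (2 * (n : ℝ) ^ 3 * (3 * (K / (n : ℝ) ^ 6))) :=
        mul_le_mul_of_nonneg_left (mul_le_mul h5 hexp (by positivity) (by positivity)) hκ.le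
    _ = kappa n * (6 * K * (n : ℝ)⁻¹ * (n : ℝ)⁻¹ * (n : ℝ)⁻¹) := by field_simp; ring
    _ ≤ kappa n * (ε / n) := by
        refine mul_le_mul_of_nonneg_left ?_ hκ.le
        rw [div_eq_mul_inv]
        refine mul_le_mul_of_nonneg_right ?_ (by positivity)
        refine le_trans ?_ (hn₁ n ((le_max_left _ _).trans hn))
        exact mul_le_of_le_one_right (by positivity) (inv_le_one_of_one_le₀ hn1)

end Vale.Agent.P237.Sharp
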