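import Vale.Agent.P237.Sharp.Moment
import Vale.Agent.P237.CylinderAssembly
import Vale.Agent.P237.Asymp.Exact

/-!
P237: Petty's inequality with margin within `c / n` of the position of the ball (note, section 1
and the end of 1e, with the a priori bound of the referee).

The centred and rescaled zonotope has `normH` as support function. Its surface measure, taken on
an inner polytope, is itself tested; testing the two measures against each other gives the bound.
-/

noncomputable section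

open MeasureTheory Set
open scoped RealInnerProductSpace Pointwise

namespace Vale.Agent.P237.Sharp

open Asymp MomentAux

namespace LocalAux

variable {n N M : ℕ} {w : Fin N → ℝ} {u : Fin N → E n} {w' : Fin M → ℝ} {u' : Fin M → E n}
  {c : Fin N → ℝ}

lemma meanAbs_pos' (hn : 1 ≤ n) : 0 < meanAbs n := by
  have h1 := kappa_pos n
  have h2 := kappa_pos (n - 1)
  have : (0 : ℝ) < n := by exact_mod_cast hn
  unfold meanAbs
  positivity

lemma inv_meanAbs_sq_le (hM : SphereMoments) (hn : 2 ≤ n) : (meanAbs n)⁻¹ ^ 2 ≤ 2 * n := by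
  have hn0 : (0 : ℝ) < n := by exact_mod_cast (show 0 < n by omega)
  obtain ⟨-, -, -, -, h, -⟩ := hM n (EuclideanSpace.single ⟨0, by omega⟩ 1) hn (by simp)
  have h2 := pow_le_pow_left₀ (Real.sqrt_nonneg _) h 2
  rw [Real.sq_sqrt (by positivity)] at h2
  rw [inv_pow, inv_le_iff_one_le_mul₀ (pow_pos (meanAbs_pos' (by omega)) 2)]
  refine le_trans ?_ (mul_le_mul_of_nonneg_left h2 (by positivity))
  rw [mul_div_assoc', le_div_iff₀ (by positivity)]
  nlinarith [Real.pi_le_four]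

lemma measurable_sign : Measurable Real.sign := by
  unfold Real.sign
  exact Measurable.ite measurableSet_Iio measurable_const
    (Measurable.ite measurableSet_Ioi measurable_const measurable_const)

lemma continuous_normH : Continuous (normH w u) := by unfold normH; fun_prop

lemma measurable_gradH : Measurable (gradH w u) := by
  have h : ∀ i, Measurable fun θ : E n => Real.sign ⟪u i, θ⟫ := fun i =>
    measurable_sign.comp (measurable_const.inner measurable_id)
  unfold gradH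
  fun_prop

lemma normH_nonneg (hw : ∀ i, 0 ≤ w i) (θ : E n) : 0 ≤ normH w u θ := by
  have h1 := kappa_pos n
  have h2 := kappa_pos (n - 1)
  exact mul_nonneg (inv_nonneg.2 (by unfold meanAbs; positivity))
    (Finset.sum_nonneg fun i _ => mul_nonneg (hw i) (abs_nonneg _))

lemma normH_smul (a : ℝ) (θ : E n) : normH w u (a • θ) = |a| * normH w u θ := by
  simp only [normH, real_inner_smul_right, abs_mul, mul_left_comm _ |a|, ← Finset.mul_sum]

lemma abs_sign_le (a : ℝ) : |Real.sign a| ≤ 1 := by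
  rcases Real.sign_apply_eq a with h | h | h <;> norm_num [h]

lemma sign_mul_self_eq_abs (a : ℝ) : Real.sign a * a = |a| := by
  rcases lt_trichotomy a 0 with h | rfl | h
  · rw [Real.sign_of_neg h, abs_of_neg h]; ring
  · simp
  · rw [Real.sign_of_pos h, abs_of_pos h, one_mul]

/-- The subgradient inequality. -/
lemma normH_ge (hn : 1 ≤ n) (hw : ∀ i, 0 ≤ w i) {θ v : E n} (hθ : ‖θ‖ = 1) (hv : ‖v‖ = 1) :
    |⟪v, θ⟫| * normH w u θ - ‖gradH w u θ‖ * √(1 - ⟪v, θ⟫ ^ 2) ≤ normH w u v := by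
  obtain ⟨horth, hz, -, -⟩ := perp_part hθ hv
  obtain ⟨σ, hσ, hσy⟩ : ∃ σ : ℝ, |σ| = 1 ∧ σ * ⟪v, θ⟫ = |⟪v, θ⟫| := by
    rcases le_or_gt 0 ⟪v, θ⟫ with h | h
    · exact ⟨1, abs_one, by rw [one_mul, abs_of_nonneg h]⟩
    · exact ⟨-1, by simp, by rw [neg_one_mul, abs_of_neg h]⟩
  set x := v - ⟪v, θ⟫ • θ with hx
  have hin : ⟪gradH w u θ, x⟫ =
      (meanAbs n)⁻¹ * ∑ i, w i * Real.sign ⟪u i, θ⟫ * ⟪u i, x⟫ := by
    simp only [gradH, real_inner_smul_left, sum_inner, inner_sub_left, horth, mul_zero, sub_zero]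
  have h1 : -(‖gradH w u θ‖ * √(1 - ⟪v, θ⟫ ^ 2)) ≤ σ * ⟪gradH w u θ, x⟫ := by
    refine (abs_le.1 ?_).1
    rw [abs_mul, hσ, one_mul, ← hz]
    exact abs_real_inner_le_norm _ _
  have h2 : |⟪v, θ⟫| * normH w u θ + σ * ⟪gradH w u θ, x⟫ ≤ normH w u v := by
    rw [hin, normH, normH, mul_left_comm, mul_left_comm σ, ← mul_add, Finset.mul_sum,
      Finset.mul_sum, ← Finset.sum_add_distrib]
    refine mul_le_mul_of_nonneg_left (Finset.sum_le_sum fun i _ => ?_)
      (inv_nonneg.2 (meanAbs_pos' hn).le)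
    have hva : ⟪u i, v⟫ = ⟪v, θ⟫ * ⟪u i, θ⟫ + ⟪u i, x⟫ := by
      rw [hx, inner_sub_right, real_inner_smul_right]; ring
    have hs : Real.sign ⟪u i, θ⟫ * ⟪u i, θ⟫ = |⟪u i, θ⟫| := sign_mul_self_eq_abs _
    calc |⟪v, θ⟫| * (w i * |⟪u i, θ⟫|) + σ * (w i * Real.sign ⟪u i, θ⟫ * ⟪u i, x⟫)
        = w i * (σ * (Real.sign ⟪u i, θ⟫ * ⟪u i, v⟫)) := by rw [hva, ← hσy, ← hs]; ring
      _ ≤ w i * |⟪u i, v⟫| := by
        refine mul_le_mul_of_nonneg_left ((le_abs_self _).trans ?_) (hw i)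
        rw [abs_mul, abs_mul, hσ, one_mul]
        exact mul_le_of_le_one_left (abs_nonneg _) (abs_sign_le _)
  linarith

lemma norm_gradH_le (hn : 1 ≤ n) (hw : ∀ i, 0 ≤ w i) (hs : ∑ i, w i = 1)
    {θ : E n} {B : ℝ} (hB : ∀ i, ‖u i - ⟪u i, θ⟫ • θ‖ ≤ B) :
    ‖gradH w u θ‖ ≤ (meanAbs n)⁻¹ * B := by
  rw [gradH, norm_smul, Real.norm_of_nonneg (inv_nonneg.2 (meanAbs_pos' hn).le)]
  refine mul_le_mul_of_nonneg_left ((norm_sum_le _ _).trans ?_)
    (inv_nonneg.2 (meanAbs_pos' hn).le)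
  calc ∑ i, ‖(w i * Real.sign ⟪u i, θ⟫) • (u i - ⟪u i, θ⟫ • θ)‖ ≤ ∑ i, w i * B := by
        refine Finset.sum_le_sum fun i _ => ?_
        rw [norm_smul, Real.norm_eq_abs, abs_mul, abs_of_nonneg (hw i)]
        exact mul_le_mul (mul_le_of_le_one_right (hw i) (abs_sign_le _)) (hB i) (norm_nonneg _)
          (hw i)
    _ = B := by rw [← Finset.sum_mul, hs, one_mul]

lemma norm_gradH_dir_le (hn : 1 ≤ n) (hw : ∀ i, 0 ≤ w i) (hu : ∀ i, ‖u i‖ = 1)
    (hs : ∑ i, w i = 1) (θ : E n) : ‖gradH w u (dir θ)‖ ≤ (meanAbs n)⁻¹ * 2 := by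
  refine norm_gradH_le hn hw hs fun i => (norm_sub_le _ _).trans ?_
  have h1 := norm_dir_le θ
  have h2 : |⟪u i, dir θ⟫| ≤ 1 := abs_inner_dir_le (hu i) θ
  rw [norm_smul, Real.norm_eq_abs, hu i]
  nlinarith [mul_le_mul h2 h1 (norm_nonneg _) zero_le_one]

lemma dirInt_gradH_sq (hn : 1 ≤ n) (hw : ∀ i, 0 ≤ w i) (hu : ∀ i, ‖u i‖ = 1)
    (hs : ∑ i, w i = 1) : DirInt fun θ => ‖gradH w u θ‖ ^ 2 :=
  Integrable.mono' (g := fun _ => ((meanAbs n)⁻¹ * 2) ^ 2)
    (integrableOn_const (hs := measure_closedBall_lt_top.ne))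
    ((measurable_gradH.comp measurable_dir).norm.pow_const 2).aestronglyMeasurable
    (ae_of_all _ fun x => by
      rw [Real.norm_of_nonneg (sq_nonneg _)]
      exact pow_le_pow_left₀ (norm_nonneg _) (norm_gradH_dir_le hn hw hu hs x) 2)

lemma sphAvg_normH (hM : SphereMoments) (hn : 2 ≤ n) (hu : ∀ i, ‖u i‖ = 1)
    (hs : ∑ i, w i = 1) : sphAvg (normH w u) = 1 := by
  unfold normH
  rw [sphAvg_const_mul, sphAvg_sum _ _ fun i _ => dirInt_of_continuous (by fun_prop)]
  simp only [sphAvg_const_mul, (hM n _ hn (hu _)).2.2.2.1]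
  rw [← Finset.sum_mul, hs, one_mul, inv_mul_cancel₀ (meanAbs_pos' (by omega)).ne']

lemma normH_le (hM : SphereMoments) (hn : 2 ≤ n) (hw : ∀ i, 0 ≤ w i) (hs : ∑ i, w i = 1)
    {θ : E n} {L : ℝ} (hL : n * ∑ i, w i * ⟪u i, θ⟫ ^ 2 ≤ L) : normH w u θ ≤ √(2 * L) := by
  refine Real.le_sqrt_of_sq_le ?_
  have h := Finset.sum_sq_le_sum_mul_sum_of_sq_le_mul Finset.univ
    (r := fun i => w i * |⟪u i, θ⟫|) (f := w) (g := fun i => w i * ⟪u i, θ⟫ ^ 2) (fun i _ => hw i)
    (fun i _ => mul_nonneg (hw i) (sq_nonneg _))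
    fun i _ => le_of_eq (by rw [mul_pow, sq_abs]; ring)
  rw [hs, one_mul] at h
  rw [normH, mul_pow]
  calc (meanAbs n)⁻¹ ^ 2 * (∑ i, w i * |⟪u i, θ⟫|) ^ 2
      ≤ (2 * n) * ∑ i, w i * ⟪u i, θ⟫ ^ 2 :=
        mul_le_mul (inv_meanAbs_sq_le hM hn) h (sq_nonneg _) (by positivity)
    _ ≤ _ := by rw [mul_assoc]; gcongr

lemma sum_normH_comm (w : Fin N → ℝ) (u : Fin N → E n) (w' : Fin M → ℝ) (u' : Fin M → E n) :
    ∑ i, w i * normH w' u' (u i) = ∑ j, w' j * normH w u (u' j) := by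
  simp only [normH, Finset.mul_sum]
  rw [Finset.sum_comm]
  refine Finset.sum_congr rfl fun j _ => Finset.sum_congr rfl fun i _ => ?_
  rw [real_inner_comm (u i) (u' j)]
  ring

/-- The test `a + b normH` of another measure. -/
lemma zonoid_test (hR : RadialTest) (hM : SphereMoments) (hn : 2 ≤ n) {δ : ℝ}
    (hT : Tested δ w u) (hw' : ∀ j, 0 ≤ w' j) (hu' : ∀ j, ‖u' j‖ = 1) (hs' : ∑ j, w' j = 1)
    {a b S : ℝ} (ha : 0 < a) (hb : 0 ≤ b) (hS : ∀ v, ‖v‖ = 1 → normH w' u' v ≤ S) :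
    a + b - 4 * (1 + (a + b * S) / a) / a * (b ^ 2 * gradQ w' u') ≤
      (1 + δ) * (a + b * ∑ i, w i * normH w' u' (u i)) := by
  have hn1 : 1 ≤ n := by omega
  have hS0 : 0 ≤ S :=
    (normH_nonneg hw' _).trans (hS (EuclideanSpace.single ⟨0, by omega⟩ 1) (by simp))
  have key := hR n N w u δ a (a + b * S) (b * ((meanAbs n)⁻¹ * 2))
    (fun v => a + b * normH w' u' v) (fun θ => a + b * normH w' u' (dir θ))
    (fun θ => b * ‖gradH w' u' (dir θ)‖) hn hT ha
    (fun v _ => add_nonneg ha.le (mul_nonneg hb (normH_nonneg hw' v)))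
    (((continuous_normH.measurable.comp measurable_dir).const_mul b).const_add a)
    (((measurable_gradH.comp measurable_dir).norm).const_mul b)
    (fun θ => ⟨add_nonneg ha.le (mul_nonneg hb (normH_nonneg hw' _)), by
      gcongr
      rcases eq_or_ne θ 0 with rfl | h
      · simpa [dir, normH] using hS0
      · exact hS _ (norm_dir h)⟩)
    (fun θ => ⟨by positivity, mul_le_mul_of_nonneg_left (norm_gradH_dir_le hn1 hw' hu' hs' θ) hb⟩)
    (fun θ v hθ hv _ => by
      simp only [dir_of_norm hθ]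
      have h := mul_le_mul_of_nonneg_left (normH_ge (u := u') hn1 hw' hθ hv) hb
      linarith)
  rw [sphAvg_dir (fun θ => a + b * normH w' u' θ),
    sphAvg_dir (fun θ => (b * ‖gradH w' u' θ‖) ^ 2),
    sphAvg_add (dirInt_of_continuous continuous_const)
      (dirInt_of_continuous (continuous_normH.const_mul b)),
    sphAvg_const, sphAvg_const_mul, sphAvg_normH hM hn hu' hs'] at key
  simp only [mul_pow, sphAvg_const_mul, mul_one] at key
  have e : ∑ i, w i * (a + b * normH w' u' (u i)) = a + b * ∑ i, w i * normH w' u' (u i) := by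
    simp only [mul_add, Finset.sum_add_distrib, ← Finset.sum_mul, hT.2.2.2.1, one_mul,
      Finset.mul_sum]
    congr 1
    exact Finset.sum_congr rfl fun i _ => by ring
  rw [e] at key
  exact key

/-- Near the position of the ball the zonoid contains half of the ball. -/
lemma half_le_normH (hR : RadialTest) (hM : SphereMoments) (hn : 2 ≤ n) {δ : ℝ}
    (hT : Tested δ w u) (hnd : n * δ ≤ 1 / 1280) {e : E n} (he : ‖e‖ = 1) :
    1 / 2 ≤ normH w u e := by
  have hn1 : 1 ≤ n := by omega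
  have hn2 : (2 : ℝ) ≤ n := by exact_mod_cast hn
  let w₁ : Fin 1 → ℝ := fun _ => 1
  let u₁ : Fin 1 → E n := fun _ => e
  have hS : ∀ v, ‖v‖ = 1 → normH w₁ u₁ v ≤ √(2 * n) := fun v hv => by
    refine normH_le hM hn (fun _ => zero_le_one) (by simp) ?_
    refine mul_le_of_le_one_right (Nat.cast_nonneg _) ?_
    simp only [u₁, Fin.sum_univ_one, one_mul]
    exact (sq_le_one_iff_abs_le_one _).2
      ((abs_real_inner_le_norm e v).trans_eq (by rw [he, hv, one_mul]))
  have hQ : gradQ w₁ u₁ ≤ 2 * n := by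
    refine (sphAvg_mono (dirInt_gradH_sq hn1 (fun _ => zero_le_one) (fun _ => he) (by simp))
      (dirInt_of_continuous continuous_const) hn1 fun v hv => ?_).trans_eq (sphAvg_const _)
    refine (pow_le_pow_left₀ (norm_nonneg _) ((norm_gradH_le hn1 (fun _ => zero_le_one)
      (by simp) (B := 1) fun i => ?_).trans_eq (mul_one _)) 2).trans
      (inv_meanAbs_sq_le hM hn)
    rw [(perp_part hv he).2.1]
    exact Real.sqrt_le_one.2 (sub_le_self _ (sq_nonneg _))
  set t : ℝ := 1 / (320 * n) with ht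
  have ht0 : 0 < t := by positivity
  have htn : t * n = 1 / 320 := by rw [ht]; field_simp
  have ht1 : t ≤ 1 / 640 := by nlinarith
  have htS : t * √(2 * n) ≤ 1 := by
    have : √(2 * (n : ℝ)) ≤ 2 * n := by
      rw [Real.sqrt_le_left (by positivity)]; nlinarith
    nlinarith
  have key := zonoid_test hR hM hn hT (w' := w₁) (u' := u₁) (fun _ => zero_le_one) (fun _ => he)
    (by simp [w₁]) (show 0 < 1 - t by linarith) ht0.le hS
  rw [sum_normH_comm, Fin.sum_univ_one] at key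
  simp only [w₁, u₁, one_mul] at key
  have hco : 4 * (1 + (1 - t + t * √(2 * n)) / (1 - t)) / (1 - t) ≤ 32 := by
    have h1 : (1 - t + t * √(2 * n)) / (1 - t) ≤ 3 := by
      rw [div_le_iff₀ (by linarith)]; linarith
    rw [div_le_iff₀ (by linarith)]; linarith
  have hloss := mul_le_mul hco (mul_le_mul_of_nonneg_left hQ (sq_nonneg t))
    (mul_nonneg (sq_nonneg t) (mul_nonneg (inv_nonneg.2 (kappa_pos n).le) (integral_nonneg
      fun x => sq_nonneg _))) (by norm_num)
  have hloss2 : 32 * (t ^ 2 * (2 * n)) = t / 5 := by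
    rw [show 32 * (t ^ 2 * (2 * (n : ℝ))) = 64 * t * (t * n) by ring, htn]; ring
  by_contra hx
  rw [not_le] at hx
  have hxt : t * normH w u e ≤ t * (1 / 2) := mul_le_mul_of_nonneg_left hx.le ht0.le
  have hδ := hT.1
  have h3 := mul_le_mul_of_nonneg_left (show 1 - t + t * normH w u e ≤ 1 - t / 2 by linarith)
    (show (0 : ℝ) ≤ 1 + δ by linarith)
  have h4 : δ * (1 - t / 2) ≤ δ := mul_le_of_le_one_right hδ (by linarith)
  have h5 : 3 / 10 * t ≤ δ := by linarith
  have h6 := mul_le_mul_of_nonneg_right h5 (Nat.cast_nonneg (α := ℝ) n)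
  rw [mul_assoc, htn] at h6
  linarith

lemma covDev_frame (hF : Frame c u) : covDev (fun i => c i / n) u = 0 := by
  have h : ∀ j k, ∑ i, c i * (u i j * u i k) = if j = k then 1 else 0 := fun j k => by
    have := congrArg (fun y : E n => y j) (hF.2.2 (EuclideanSpace.single k 1))
    simp only [WithLp.ofLp_sum, Finset.sum_apply, PiLp.smul_apply, smul_eq_mul,
      EuclideanSpace.inner_single_right, conj_trivial, one_mul, PiLp.single_apply] at this
    rw [← this]
    exact Finset.sum_congr rfl fun i _ => by ring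
  unfold covDev
  simp only [div_mul_eq_mul_div, ← Finset.sum_div, h]
  refine mul_eq_zero_of_right _ (Finset.sum_eq_zero fun j _ => Finset.sum_eq_zero fun k _ => ?_)
  split_ifs <;> simp [one_div]

/-- The centred zonotope with support function `normH`. -/
def centZono (w : Fin N → ℝ) (u : Fin N → E n) : Set (E n) :=
  (fun l : Fin N → ℝ => ∑ i, (l i * ((meanAbs n)⁻¹ * w i)) • u i) ''
    univ.pi fun _ => Icc (-1 : ℝ) 1

lemma isCompact_centZono : IsCompact (centZono w u) :=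
  (isCompact_univ_pi fun _ => isCompact_Icc).image (by fun_prop)

lemma convex_centZono : Convex ℝ (centZono w u) := by
  refine (convex_pi fun _ _ => convex_Icc (-1 : ℝ) 1).is_linear_image
    ⟨fun x y => ?_, fun a x => ?_⟩
  · simp [add_mul, add_smul, Finset.sum_add_distrib]
  · simp [Finset.smul_sum, smul_smul, mul_assoc]

lemma exists_inner_eq_normH (v : E n) : ∃ x ∈ centZono w u, ⟪v, x⟫ = normH w u v := by
  refine ⟨_, mem_image_of_mem _ (show (fun i => Real.sign ⟪u i, v⟫) ∈ univ.pi _ from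
    fun i _ => abs_le.1 (abs_sign_le _)), ?_⟩
  simp only [normH, inner_sum, real_inner_smul_right, Finset.mul_sum]
  refine Finset.sum_congr rfl fun i _ => ?_
  rw [← sign_mul_self_eq_abs ⟪u i, v⟫, real_inner_comm v]
  ring

lemma zero_mem_interior_centZono (hF : Frame c u) (hn : 1 ≤ n) :
    (0 : E n) ∈ interior (centZono (fun i => c i / n) u) := by
  have hn0 : (0 : ℝ) < n := by exact_mod_cast hn
  have ha := meanAbs_pos' hn
  refine mem_interior.2 ⟨Metric.ball 0 (n * meanAbs n)⁻¹, fun x hx => ?_, Metric.isOpen_ball,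
    Metric.mem_ball_self (by positivity)⟩
  rw [mem_ball_zero_iff] at hx
  refine ⟨fun i => n * meanAbs n * ⟪u i, x⟫, fun i _ => abs_le.1 ?_, ?_⟩
  · rw [abs_mul, abs_of_pos (show 0 < (n : ℝ) * meanAbs n by positivity)]
    refine (mul_le_mul_of_nonneg_left ((abs_real_inner_le_norm (u i) x).trans ?_)
      (by positivity)).trans_eq (mul_inv_cancel₀ (by positivity : (n : ℝ) * meanAbs n ≠ 0))
    rw [hF.2.1 i, one_mul]
    exact hx.le
  · refine Eq.trans ?_ (hF.2.2 x)
    refine Finset.sum_congr rfl fun i _ => ?_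
    congr 1
    field_simp

/-- The rescaled volume. -/
def zonoRad (c : Fin N → ℝ) (u : Fin N → E n) : ℝ :=
  ((volume (centZono (fun i => c i / n) u)).toReal / kappa n) ^ ((n : ℝ)⁻¹)

lemma volume_centZono_pos (hF : Frame c u) (hn : 1 ≤ n) :
    0 < (volume (centZono (fun i => c i / n) u)).toReal :=
  ENNReal.toReal_pos
    (Measure.measure_pos_of_nonempty_interior volume ⟨0, zero_mem_interior_centZono hF hn⟩).ne'
    isCompact_centZono.measure_lt_top.ne

lemma zonoRad_pow (hn : 1 ≤ n) :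
    kappa n * zonoRad c u ^ n = (volume (centZono (fun i => c i / n) u)).toReal := by
  rw [zonoRad, Real.rpow_inv_natCast_pow (div_nonneg ENNReal.toReal_nonneg (kappa_pos n).le)
    (by omega), mul_div_cancel₀ _ (kappa_pos n).ne']

lemma zonoVol_eq (hn : 1 ≤ n) :
    zonoVol c u = ballVol n * zonoRad c u ^ n := by
  have hn0 : (0 : ℝ) < n := by exact_mod_cast hn
  have hk := kappa_pos n
  have hk' := kappa_pos (n - 1)
  set r := kappa (n - 1) / kappa n with hr
  have hr0 : 0 ≤ r := by positivity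
  have hrw : ∀ i, r * ((meanAbs n)⁻¹ * (c i / n)) = c i / 2 := fun i => by
    rw [hr, meanAbs]; field_simp
  set m := ∑ i, (c i / 2) • u i
  have hmap : ∀ l : Fin N → ℝ, m + r • ∑ i, (l i * ((meanAbs n)⁻¹ * (c i / n))) • u i =
      ∑ i, ((1 + l i) / 2) • c i • u i := fun l => by
    rw [Finset.smul_sum, ← Finset.sum_add_distrib]
    refine Finset.sum_congr rfl fun i _ => ?_
    rw [smul_smul, smul_smul, mul_left_comm, hrw, ← add_smul]
    congr 1
    ring
  have hset : zono (fun i => c i • u i) =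
      (fun x => m + x) '' (r • centZono (fun i => c i / n) u) := by
    refine subset_antisymm ?_ ?_
    · rintro _ ⟨l, hl, rfl⟩
      refine ⟨_, smul_mem_smul_set (mem_image_of_mem _
        (show (fun i => 2 * l i - 1) ∈ univ.pi _ from fun i hi => ?_)), ?_⟩
      · exact ⟨by linarith [(hl i hi).1], by linarith [(hl i hi).2]⟩
      · simp only [hmap]
        refine Finset.sum_congr rfl fun i _ => ?_
        congr 1
        ring
    · rintro _ ⟨_, ⟨_, ⟨l, hl, rfl⟩, rfl⟩, rfl⟩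
      exact ⟨fun i => (1 + l i) / 2,
        fun i hi => ⟨by linarith [(hl i hi).1], by linarith [(hl i hi).2]⟩, (hmap l).symm⟩
  rw [zonoVol, hset, Set.image_add_left, measure_preimage_add,
    Measure.addHaar_smul_of_nonneg volume hr0, finrank_euclideanSpace_fin, ENNReal.toReal_mul,
    ENNReal.toReal_ofReal (pow_nonneg hr0 n), ← zonoRad_pow hn, ballVol, hr, div_pow]
  obtain ⟨m, rfl⟩ : ∃ m, n = m + 1 := ⟨n - 1, by omega⟩
  simp only [Nat.add_sub_cancel]
  field_simp
  ring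

/-- The surface measure of an inner polytope of the zonotope. -/
lemma exists_surface (hF : Frame c u) (hn : 2 ≤ n) {ε : ℝ} (hε : 0 < ε) :
    ∃ (M : ℕ) (w' : Fin M → ℝ) (v : Fin M → E n) (d : ℝ), Tested d w' v ∧
      (1 + d) * ∑ i, w' i * normH (fun i => c i / n) u (v i) ≤ (1 + ε) * zonoRad c u := by
  set Z := centZono (fun i => c i / n) u with hZ
  have hn1 : 1 ≤ n := by omega
  have hc : 0 < 1 + ε := by positivity
  have h0Z := zero_mem_interior_centZono hF hn1
  set K := (1 + ε)⁻¹ • Z with hK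
  have hKZ : (1 + ε) • K = Z := smul_inv_smul₀ hc.ne' Z
  have h0K : (0 : E n) ∈ interior K := by
    rw [hK, interior_smul₀ (inv_ne_zero hc.ne')]
    exact ⟨0, h0Z, smul_zero _⟩
  obtain ⟨M, v, hv, -, hKv, hvK⟩ := exists_polytope (N := 1) (isCompact_centZono.smul _)
    (convex_centZono.smul _) h0K (fun _ => ⊤) (fun _ => K) (iInter_const _).symm
    (fun _ => (isCompact_centZono.smul _).isClosed) (fun _ => convex_centZono.smul _)
    (fun _ x hx y hy => by
      rw [Submodule.top_orthogonal_eq_bot, Submodule.mem_bot] at hy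
      simpa [hy] using hx) hε
  rw [hKZ] at hvK
  set P := Poly v fun _ => 1
  have hb : Bornology.IsBounded P := isCompact_centZono.isBounded.subset hvK
  set p := (volume P).toReal with hp
  have hp0 : 0 < p := ENNReal.toReal_pos
    (Measure.measure_pos_of_nonempty_interior volume
      ⟨0, interior_mono (fun x hx i => hKv x hx i) h0K⟩).ne' hb.measure_lt_top.ne
  have hpZ : p ≤ kappa n * zonoRad c u ^ n := by
    rw [zonoRad_pow hn1]
    exact ENNReal.toReal_mono isCompact_centZono.measure_lt_top.ne (measure_mono hvK)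
  have hk := kappa_pos n
  set s := (kappa n * p ^ (n - 1)) ^ ((n : ℝ)⁻¹)
  have hs0 : 0 < s := Real.rpow_pos_of_pos (by positivity) _
  have hsn : s ^ n = kappa n * p ^ (n - 1) := Real.rpow_inv_natCast_pow (by positivity) (by omega)
  have hρ : 0 ≤ zonoRad c u := Real.rpow_nonneg (by positivity) _
  have hps : p / s ≤ zonoRad c u := by
    refine le_of_pow_le_pow_left₀ (show n ≠ 0 by omega) hρ ?_
    rw [div_pow, hsn, div_le_iff₀ (by positivity)]
    calc p ^ n = p * p ^ (n - 1) := (mul_pow_sub_one (by omega) p).symm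
      _ ≤ kappa n * zonoRad c u ^ n * p ^ (n - 1) := by gcongr
      _ = _ := by ring
  let e₀ : E n := EuclideanSpace.single ⟨0, by omega⟩ 1
  let d : Fin M → E n := fun i => if v i = 0 then e₀ else dir (v i)
  have hd1 : ∀ i, ‖d i‖ = 1 := fun i => by
    simp only [d]; split_ifs with h
    · simp [e₀]
    · exact norm_dir h
  have hdv : ∀ i, ‖v i‖ • d i = v i := fun i => by
    simp only [d]; split_ifs with h
    · simp [h]
    · rw [dir, smul_smul, mul_inv_cancel₀ (norm_ne_zero_iff.2 h), one_smul]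
  let ν : Fin M → ℝ := fun i => coneVol v i * ‖v i‖ / s
  have hν0 : ∀ i, 0 ≤ ν i := fun i =>
    div_nonneg (mul_nonneg ENNReal.toReal_nonneg (norm_nonneg _)) hs0.le
  have hmink : ∀ (h : Fin M → ℝ) (L : Set (E n)), (∀ i, 0 ≤ h i) → IsCompact L → Convex ℝ L →
      (0 : E n) ∈ L → L ⊆ Poly d h → (volume L).toReal ≤ kappa n * (∑ i, ν i * h i) ^ n := by
    intro h L hh hLc hLx hL0 hL
    have hm := minkowskiFirst n M v (fun i => ‖v i‖ * h i) L (by omega) hv hb
      (fun i => mul_nonneg (norm_nonneg _) (hh i)) hLc hLx hL0 fun x hx i => by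
        nth_rw 1 [← hdv i]
        rw [real_inner_smul_left]
        exact mul_le_mul_of_nonneg_left (hL hx i) (norm_nonneg _)
    have hsum : ∑ i, coneVol v i * (‖v i‖ * h i) = s * ∑ i, ν i * h i := by
      rw [Finset.mul_sum]
      exact Finset.sum_congr rfl fun i _ => by simp only [ν]; field_simp
    rw [hsum, mul_pow, hsn] at hm
    refine le_of_mul_le_mul_right (hm.trans_eq (by ring)) (pow_pos hp0 (n - 1))
  have hN : 1 ≤ ∑ i, ν i := by
    have h := hmink (fun _ => 1) (Metric.closedBall 0 1) (fun _ => zero_le_one)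
      (isCompact_closedBall _ _) (convex_closedBall _ _) (Metric.mem_closedBall_self zero_le_one)
      fun x hx i => (real_inner_le_norm _ _).trans (by
        rw [hd1, one_mul]; exact mem_closedBall_zero_iff.1 hx)
    rw [volume_real_closedBall] at h
    simp only [mul_one] at h
    rw [le_mul_iff_one_le_right hk] at h
    exact (one_le_pow_iff_of_nonneg (Finset.sum_nonneg fun i _ => hν0 i) (by omega)).1 h
  have hN0 : 0 < ∑ i, ν i := lt_of_lt_of_le one_pos hN
  refine ⟨M, fun i => ν i / ∑ j, ν j, d, ∑ i, ν i - 1,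
    ⟨by linarith, fun i => div_nonneg (hν0 i) hN0.le, hd1,
    by rw [← Finset.sum_div, div_self hN0.ne'], fun h L hh hLc hLx hL0 hL => ?_⟩, ?_⟩
  · refine (hmink h L hh hLc hLx hL0 hL).trans_eq ?_
    congr 2
    rw [add_sub_cancel, Finset.mul_sum]
    exact Finset.sum_congr rfl fun i _ => by field_simp
  · have hsupp : ∀ i, normH (fun i => c i / n) u (v i) ≤ 1 + ε := fun i => by
      obtain ⟨x, hx, hxe⟩ := exists_inner_eq_normH (w := fun i => c i / n) (u := u) (v i)
      have := hKv _ (smul_mem_smul_set hx) i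
      rw [real_inner_smul_right, hxe, inv_mul_le_one₀ hc] at this
      exact this
    calc (1 + (∑ j, ν j - 1)) * ∑ i, ν i / (∑ j, ν j) * normH (fun i => c i / n) u (d i)
        = (∑ i, coneVol v i * normH (fun i => c i / n) u (v i)) / s := by
          rw [add_sub_cancel, Finset.mul_sum, Finset.sum_div]
          refine Finset.sum_congr rfl fun i _ => ?_
          rw [← mul_assoc, mul_div_cancel₀ _ hN0.ne']
          conv_rhs => rw [← hdv i, normH_smul, abs_norm]
          simp only [ν]; ring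
      _ ≤ (∑ i, coneVol v i * (1 + ε)) / s := by
          gcongr with i _
          · exact ENNReal.toReal_nonneg
          · exact hsupp i
      _ ≤ p * (1 + ε) / s := by
          rw [← Finset.sum_mul]; gcongr; exact sum_coneVol_le' hv hb
      _ ≤ _ := by rw [mul_comm p, mul_div_assoc]; gcongr

lemma gradQ_nonneg (w : Fin N → ℝ) (u : Fin N → E n) : 0 ≤ gradQ w u :=
  mul_nonneg (inv_nonneg.2 (kappa_pos n).le) (integral_nonneg fun _ => sq_nonneg _)

/-- The energy through the moments. -/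
lemma energy_le (hK : GradKernel) (hn : 2 ≤ n) {A F δ : ℝ} (hT : Tested δ w u)
    (hfour : fourVal w u ≤ F * δ * (n * (A * (((n : ℝ) ^ 2)⁻¹ + δ)) + (√(n : ℝ))⁻¹)) :
    gradQ w u ≤ covDev w u + F * δ * (A * ((n : ℝ)⁻¹ + n * δ) + (√(n : ℝ))⁻¹) := by
  have hn0 : (0 : ℝ) < n := by exact_mod_cast (show 0 < n by omega)
  rw [show (n : ℝ) * (A * (((n : ℝ) ^ 2)⁻¹ + δ)) = A * ((n : ℝ)⁻¹ + n * δ) by field_simp] at hfour
  exact (hK n N w u hn hT.2.1 hT.2.2.2.1 hT.2.2.1).trans (add_le_add le_rfl hfour)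

/-- The excess of a measure tested against a measure of small excess. -/
lemma excess_le (hR : RadialTest) (hM : SphereMoments) (hn : 2 ≤ n) {δ d ε A k t₀ : ℝ}
    (hT : Tested δ w u) (hw' : ∀ j, 0 ≤ w' j) (hu' : ∀ j, ‖u' j‖ = 1) (hs' : ∑ j, w' j = 1)
    (hd0 : 0 ≤ d) (hε : 0 ≤ ε) (hA : 0 < A) (hk : 0 < k) (ht₀ : 0 < t₀)
    (ht : t₀ * (256 * k + 2 * A + 4) ≤ 1) (hδ1 : δ ≤ 1) (hnd : n * δ ≤ t₀ / 32)
    (hQ : gradQ w' u' ≤ k * d * (1 + n * d))
    (hL : ∀ e, ‖e‖ = 1 → n * ∑ i, w' i * ⟪u' i, e⟫ ^ 2 ≤ A * (1 + n * d))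
    (hx : ∑ j, w' j * normH w u (u' j) ≤ 1 - d / 4 + ε) :
    d ≤ 32 / t₀ * δ + 32 * ε := by
  have hn0 : (0 : ℝ) < n := by exact_mod_cast (show 0 < n by omega)
  have hδ := hT.1
  set D := 1 + (n : ℝ) * d with hDd
  have hD : 1 ≤ D := le_add_of_nonneg_right (mul_nonneg hn0.le hd0)
  have hkt : k * t₀ ≤ 1 / 256 := by nlinarith [mul_pos ht₀ hA]
  have hAt : t₀ * (2 * A + 1) ≤ 1 := by nlinarith [mul_pos ht₀ hk]
  have ht4 : t₀ ≤ 1 / 4 := by nlinarith [mul_pos ht₀ hA, mul_pos ht₀ hk]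
  set t := t₀ / D with htd
  have htp : 0 < t := by positivity
  have htD : t * D = t₀ := div_mul_cancel₀ _ (by positivity)
  have htt : t ≤ t₀ := div_le_self ht₀.le hD
  have hsq : √(2 * (A * D)) ≤ (2 * A + 1) * D := by
    rw [Real.sqrt_le_left (by positivity)]
    nlinarith [mul_le_mul_of_nonneg_left hD (show 0 ≤ A * D by positivity),
      mul_pos (mul_pos hA (lt_of_lt_of_le one_pos hD)) (lt_of_lt_of_le one_pos hD)]
  have htS : t * √(2 * (A * D)) ≤ 1 := by
    refine (mul_le_mul_of_nonneg_left hsq htp.le).trans ?_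
    calc t * ((2 * A + 1) * D) = t * D * (2 * A + 1) := by ring
      _ ≤ 1 := by rw [htD]; exact hAt
  have key := zonoid_test hR hM hn hT hw' hu' hs' (show 0 < 1 - t by linarith) htp.le
    fun e he => normH_le hM hn hw' hs' (hL e he)
  rw [sum_normH_comm] at key
  have hco : 4 * (1 + (1 - t + t * √(2 * (A * D))) / (1 - t)) / (1 - t) ≤ 32 := by
    have h1 : (1 - t + t * √(2 * (A * D))) / (1 - t) ≤ 3 := by
      rw [div_le_iff₀ (by linarith)]; linarith
    rw [div_le_iff₀ (by linarith)]; linarith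
  have hloss := mul_le_mul hco (mul_le_mul_of_nonneg_left hQ (sq_nonneg t))
    (mul_nonneg (sq_nonneg t) (gradQ_nonneg _ _)) (by norm_num)
  have hloss2 : 32 * (t ^ 2 * (k * d * D)) ≤ t * d / 8 := by
    calc 32 * (t ^ 2 * (k * d * D)) = 32 * (k * (t * D)) * (t * d) := by ring
      _ ≤ 32 * (1 / 256) * (t * d) := by rw [htD]; gcongr
      _ = _ := by ring
  have h1 := mul_le_mul_of_nonneg_left (mul_le_mul_of_nonneg_left hx htp.le)
    (show (0 : ℝ) ≤ 1 + δ by linarith)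
  have h2 : δ * (t * ε) ≤ 1 * (t * ε) := mul_le_mul_of_nonneg_right hδ1 (by positivity)
  have h3 : 0 ≤ δ * (t * d) := mul_nonneg hδ (mul_nonneg htp.le hd0)
  have h4 : t * d / 8 ≤ δ + 2 * (t * ε) := by linarith
  have h5 : t₀ * d ≤ 8 * δ + 8 * (n * δ) * d + 16 * (t₀ * ε) := by
    have h := mul_le_mul_of_nonneg_left h4 (show (0 : ℝ) ≤ 8 * D by positivity)
    calc t₀ * d = 8 * D * (t * d / 8) := by rw [← htD]; ring
      _ ≤ _ := h
      _ = _ := by rw [← htD, hDd]; ring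
  rw [div_mul_eq_mul_div, div_add' _ _ _ ht₀.ne', le_div_iff₀ ht₀]
  nlinarith [mul_le_mul_of_nonneg_right hnd hd0, mul_nonneg ht₀.le hε]

/-- The test of the surface measure against the frame. -/
lemma comparison (hR : RadialTest) (hM : SphereMoments) (hn : 2 ≤ n) {δ d ε τ C k ρ : ℝ}
    (hF : Frame c u) (hμs : ∑ i, c i / (n : ℝ) = 1) (hT' : Tested d w' u') (hδ : 0 ≤ δ) (hε : 0 ≤ ε)
    (hτ0 : 0 < τ) (hτ1 : τ ≤ 1) (hτC : τ * (C + 16 * k) ≤ 1 / 2)
    (hQ : gradQ (fun i => c i / n) u ≤ k * δ * τ ^ 3) (hd : d ≤ C * δ + 32 * ε) (hρ : ρ ≤ 1)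
    (hX : (1 + d) * ∑ j, w' j * normH (fun i => c i / n) u (u' j) ≤ (1 + ε) * ρ) :
    1 - ρ ≤ δ / 2 + 33 * ε := by
  have hn0 : (n : ℝ) ≠ 0 := by positivity
  have hμ0 : ∀ i, 0 ≤ c i / (n : ℝ) := fun i => div_nonneg (hF.1 i) n.cast_nonneg
  have key := zonoid_test hR hM hn hT' (w' := fun i => c i / (n : ℝ)) hμ0 hF.2.1 hμs hτ0 zero_le_one
    (S := √2) fun e he => by
      refine (normH_le hM hn hμ0 hμs (L := 1) (le_of_eq ?_)).trans_eq (by rw [mul_one])
      rw [Finset.mul_sum]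
      refine (Finset.sum_congr rfl fun i _ => ?_).trans ((hF.sum_sq e).trans (by rw [he, one_pow]))
      field_simp
  rw [one_pow, one_mul, one_mul] at key
  have hco : 4 * (1 + (τ + √2) / τ) / τ ≤ 16 / τ ^ 2 := by
    rw [show 4 * (1 + (τ + √2) / τ) / τ = 4 * (2 * τ + √2) / τ ^ 2 by field_simp; ring]
    gcongr
    nlinarith [Real.sqrt_nonneg (2 : ℝ), Real.sq_sqrt (zero_le_two (α := ℝ))]
  have hloss := mul_le_mul hco hQ (gradQ_nonneg _ _) (by positivity)
  rw [show 16 / τ ^ 2 * (k * δ * τ ^ 3) = 16 * k * (τ * δ) by field_simp] at hloss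
  have h1 := mul_le_mul_of_nonneg_left hd hτ0.le
  have h2 : τ * ε ≤ ε := mul_le_of_le_one_left hε hτ1
  have h3 := mul_le_mul_of_nonneg_right hτC hδ
  have h4 : ε * ρ ≤ ε := mul_le_of_le_one_right hε hρ
  linarith

/-- The energy of a tested measure is linear in its excess. -/
lemma energy_bound (hK : GradKernel) (hn : 2 ≤ n) {A F δ : ℝ} (hT : Tested δ w u) (hA : 0 < A)
    (hF : 0 < F)
    (hfour : fourVal w u ≤ F * δ * (n * (A * (((n : ℝ) ^ 2)⁻¹ + δ)) + (√(n : ℝ))⁻¹))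
    (hcov : covDev w u ≤ A * δ * (1 + A * (1 + n * δ))) :
    gradQ w u ≤ (A * (1 + A) + F * (A + 1)) * δ * (1 + n * δ) := by
  have hnR : (1 : ℝ) ≤ n := by exact_mod_cast (show 1 ≤ n by omega)
  have hδ := hT.1
  have hnd : 0 ≤ (n : ℝ) * δ := mul_nonneg (by linarith) hδ
  have hr1 : (√(n : ℝ))⁻¹ ≤ 1 := inv_le_one_of_one_le₀ (Real.one_le_sqrt.2 hnR)
  have hn1 : (n : ℝ)⁻¹ ≤ 1 := inv_le_one_of_one_le₀ hnR
  have h1 : A * ((n : ℝ)⁻¹ + n * δ) + (√(n : ℝ))⁻¹ ≤ (A + 1) * (1 + n * δ) := by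
    linarith [mul_le_mul_of_nonneg_left hn1 hA.le]
  have h2 : A * δ * (1 + A * (1 + n * δ)) ≤ A * δ * ((1 + A) * (1 + n * δ)) :=
    mul_le_mul_of_nonneg_left (by linarith) (mul_nonneg hA.le hδ)
  have h3 := mul_le_mul_of_nonneg_left h1 (mul_nonneg hF.le hδ)
  linarith [energy_le hK hn hT hfour]

/-- A small loss of volume leaves a margin. -/
lemma gain_of_rad (hn : 1 ≤ n) {δ : ℝ} (hδ : 0 ≤ δ) (hδ1 : δ ≤ 1 / 1280)
    (h : 1 - zonoRad c u ≤ δ / 2) : Gain (1 / 8) δ c u := by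
  have hexp : Real.exp (1 / 8 * δ) ≤ (1 + δ) * zonoRad c u := by
    have h1 : (1 + δ) * (1 - δ / 2) ≤ (1 + δ) * zonoRad c u :=
      mul_le_mul_of_nonneg_left (by linarith) (by linarith)
    have h2 := Real.exp_bound_div_one_sub_of_interval (x := 1 / 8 * δ) (by positivity) (by linarith)
    have h3 : 1 / (1 - 1 / 8 * δ) ≤ (1 + δ) * (1 - δ / 2) := by
      have h4 := mul_le_mul_of_nonneg_left hδ1 hδ
      rw [div_le_iff₀ (by linarith)]
      nlinarith [mul_nonneg (mul_nonneg hδ hδ) hδ]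
    linarith
  have h := pow_le_pow_left₀ (Real.exp_pos _).le hexp n
  rw [← Real.exp_nat_mul, mul_pow] at h
  rw [Gain, zonoVol_eq hn, show (1 : ℝ) / 8 * n * δ = n * (1 / 8 * δ) by ring]
  calc Real.exp (n * (1 / 8 * δ)) * ballVol n ≤
        (1 + δ) ^ n * zonoRad c u ^ n * ballVol n :=
        mul_le_mul_of_nonneg_right h (ballVol_pos n).le
    _ = _ := by ring

/-- The a priori bound on the excess of the surface measure. -/
lemma surface_bound {ρ ε d x : ℝ} (hd : 0 ≤ d) (hε : 0 ≤ ε) (hρ : ρ ≤ 1)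
    (hx : 1 / 2 ≤ x) (hX : (1 + d) * x ≤ (1 + ε) * ρ) : x ≤ 1 - d / 4 + ε := by
  have h1 : (1 + d) * x ≤ 1 + ε := hX.trans (mul_le_of_le_one_right (by linarith) hρ)
  have h2 : (1 + d) * (1 / 2) ≤ (1 + d) * x := mul_le_mul_of_nonneg_left hx (by linarith)
  have h3 : (1 + d) * x ≤ (1 + d) * (1 - d / 4 + ε) := by
    nlinarith [mul_nonneg hd hε]
  exact le_of_mul_le_mul_left h3 (by linarith)

end LocalAux

open LocalAux

theorem localPetty (hR : RadialTest) (hM : SphereMoments) (hK : GradKernel) (hF4 : FourBound)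
    (hB : MomentBound) : LocalPetty := by
  obtain ⟨A, hA, hmom⟩ := hB
  obtain ⟨F, hF0, hfour⟩ := hF4
  set k₁ := A * (1 + A) + F * (A + 1) with hk₁
  have hk₁0 : 0 < k₁ := by positivity
  set t₀ := 1 / (256 * k₁ + 2 * A + 4) with ht₀
  have ht00 : 0 < t₀ := by positivity
  have ht0e : t₀ * (256 * k₁ + 2 * A + 4) = 1 := by rw [ht₀]; field_simp
  set q := 1 / (2 * (32 / t₀ + 16 * (F * (A + 1)))) with hq
  have hq0 : 0 < q := by positivity
  refine ⟨min (min (1 / 1280) (t₀ / 32)) (q ^ 3 / 2), 1 / 8, by positivity, by norm_num,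
    10 + ⌈(2 / q ^ 3) ^ 2⌉₊, fun n N c u δ hn hFT hnd => ?_⟩
  simp only [le_min_iff] at hnd
  obtain ⟨⟨hnd1, hnd2⟩, hnd3⟩ := hnd
  obtain ⟨hF, hT⟩ := hFT
  have hn1 : 1 ≤ n := by omega
  have hn2 : 2 ≤ n := by omega
  have hn10 : 10 ≤ n := by omega
  have hnR : (1 : ℝ) ≤ n := by exact_mod_cast hn1
  have hn0 : (0 : ℝ) < n := by linarith
  have hδ := hT.1
  have hδ1 : δ ≤ 1 / 1280 := (le_mul_of_one_le_left hδ hnR).trans hnd1
  set r := (√(n : ℝ))⁻¹ with hr
  have hr0 : 0 < r := by positivity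
  have hr1 : r ≤ 1 := inv_le_one_of_one_le₀ (Real.one_le_sqrt.2 hnR)
  have hrn : (n : ℝ)⁻¹ ≤ r :=
    inv_anti₀ (by positivity) (by rw [Real.sqrt_le_left hn0.le]; nlinarith)
  have hrq : r ≤ q ^ 3 / 2 := by
    rw [hr, inv_le_comm₀ (by positivity) (by positivity), inv_div]
    refine Real.le_sqrt_of_sq_le ((Nat.le_ceil _).trans ?_)
    exact_mod_cast (show ⌈(2 / q ^ 3) ^ 2⌉₊ ≤ n by omega)
  have hQ : gradQ (fun i => c i / n) u ≤ F * (A + 1) * δ * (r + n * δ) := by
    refine (energy_le hK hn2 hT (hfour n _ _ u δ _ hn10 hT (hmom n _ _ u δ hn10 hT).2.2)).trans ?_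
    rw [covDev_frame hF, zero_add, ← hr]
    calc F * δ * (A * ((n : ℝ)⁻¹ + n * δ) + r) ≤ F * δ * ((A + 1) * (r + n * δ)) := by
          gcongr
          nlinarith [mul_le_mul_of_nonneg_left hrn hA.le, mul_nonneg hn0.le hδ]
      _ = _ := by ring
  set ρ := zonoRad c u with hρd
  have hρ0 : 0 < ρ := Real.rpow_pos_of_pos
    (div_pos (volume_centZono_pos hF hn1) (kappa_pos n)) _
  refine gain_of_rad hn1 hδ hδ1 ?_
  rcases le_or_gt 1 ρ with hρ1 | hρ1
  · linarith
  refine le_of_forall_pos_le_add fun η hη => ?_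
  set ε := min 1 (η / 33)
  have hε0 : 0 < ε := by positivity
  have hεη : 33 * ε ≤ η := by linarith [min_le_right 1 (η / 33)]
  obtain ⟨M, w', v, d, hT', hX⟩ := exists_surface hF hn2 hε0
  obtain ⟨hd0, hw', hv, hws', -⟩ := id hT'
  have hhalf : (1 : ℝ) / 2 ≤ ∑ i, w' i * normH (fun i => c i / n) u (v i) := by
    refine le_of_eq_of_le ?_ (Finset.sum_le_sum fun i _ => mul_le_mul_of_nonneg_left
      (half_le_normH hR hM hn2 hT hnd1 (hv i)) (hw' i))
    rw [← Finset.sum_mul, hws', one_mul]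
  have hx := surface_bound hd0 hε0.le hρ1.le hhalf hX
  have hm := hmom n _ w' v d hn10 hT'
  have hQ' := energy_bound hK hn2 hT' hA hF0 (hfour n _ w' v d _ hn10 hT' hm.2.2) (hm.1 _ hm.2.1)
  have hd := excess_le hR hM hn2 hT hw' hv hws' hd0 hε0.le hA hk₁0 ht00 ht0e.le (by linarith) hnd2
    hQ' hm.2.1 hx
  set τ := (r + n * δ) ^ ((3 : ℕ) : ℝ)⁻¹
  have hτ0 : 0 < τ := Real.rpow_pos_of_pos (by positivity) _
  have hτ3 : τ ^ 3 = r + n * δ := Real.rpow_inv_natCast_pow (by positivity) (by norm_num)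
  have hτq : τ ≤ q := le_of_pow_le_pow_left₀ three_ne_zero hq0.le (by linarith)
  have hτC : τ * (32 / t₀ + 16 * (F * (A + 1))) ≤ 1 / 2 := by
    refine (mul_le_mul_of_nonneg_right hτq (by positivity)).trans_eq ?_
    rw [hq]; field_simp
  have ht4 : t₀ ≤ 1 / 4 := by rw [ht₀]; gcongr; linarith
  have hτ1 : τ ≤ 1 := by
    have : 1 ≤ 32 / t₀ := by rw [le_div_iff₀ ht00]; linarith
    nlinarith [mul_pos hF0 (show 0 < A + 1 by linarith)]
  have := comparison hR hM hn2 hF hT.2.2.2.1 hT' hδ hε0.le hτ0 hτ1 hτC (hQ.trans_eq (by rw [hτ3]))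
    hd hρ1.le hX
  linarith

end Vale.Agent.P237.Sharp
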