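import Vale.Agent.P237.Sharp.Global
import Vale.Agent.P237.Sharp.Body

/-!
P237: the two regimes together.
-/

noncomputable section

open MeasureTheory Set
open scoped RealInnerProductSpace

namespace Vale.Agent.P237.Sharp

/-- Frames of small excess satisfy Petty's inequality with margin. -/
theorem framePetty (hL : LocalPetty) (hG : GlobalPetty) : FramePetty := by
  obtain ⟨c₀, γ₁, hc₀, hγ₁, n₁, h1⟩ := hL
  obtain ⟨γ₂, δ₀, hγ₂, hδ₀, n₂, h2⟩ := hG c₀ hc₀
  refine ⟨min γ₁ γ₂, δ₀, lt_min hγ₁ hγ₂, hδ₀, n₁ + n₂, fun n N c u δ hn hT hδ => ?_⟩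
  have mono : ∀ γ, min γ₁ γ₂ ≤ γ → Gain γ δ c u → Gain (min γ₁ γ₂) δ c u := by
    intro γ hγ h
    refine le_trans (mul_le_mul_of_nonneg_right (Real.exp_le_exp.2 ?_) (ballVol_pos n).le) h
    exact mul_le_mul_of_nonneg_right (mul_le_mul_of_nonneg_right hγ (Nat.cast_nonneg n)) hT.2.1
  rcases le_or_gt ((n : ℝ) * δ) c₀ with h | h
  · exact mono γ₁ (min_le_left _ _) (h1 n N c u δ (by omega) hT h)
  · exact mono γ₂ (min_le_right _ _) (h2 n N c u δ (by omega) hT h.le hδ)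

end Vale.Agent.P237.Sharp
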