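import Vale.Agent.P237.Sharp.Avg

/-!
P237: moments of a tested measure, by quadratic and quartic tests (note, 1e).
-/

noncomputable section

open MeasureTheory Set
open scoped RealInnerProductSpace

namespace Vale.Agent.P237.Sharp

open Asymp

namespace MomentAux

variable {n N : ℕ}

lemma dir_of_norm {θ : E n} (h : ‖θ‖ = 1) : dir θ = θ := by simp [dir, h]

lemma dir_dir (x : E n) : dir (dir x) = dir x := by
  rcases eq_or_ne x 0 with rfl | hx
  · simp [dir]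
  · rw [dir_of_norm (norm_dir hx)]

lemma sphAvg_dir (f : E n → ℝ) : sphAvg (fun θ => f (dir θ)) = sphAvg f := by
  simp only [sphAvg, dir_dir]

lemma dirInt_of_continuous {f : E n → ℝ} (hf : Continuous f) : DirInt f := by
  obtain ⟨B, hB⟩ := (isCompact_closedBall (0 : E n) 1).exists_bound_of_continuousOn hf.continuousOn
  exact .of_bounded hf.measurable fun v hv => by
    simpa [Real.norm_eq_abs] using hB v (mem_closedBall_zero_iff.2 hv)

lemma sphAvg_sum {ι : Type*} (s : Finset ι) (f : ι → E n → ℝ) (hf : ∀ i ∈ s, DirInt (f i)) :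
    sphAvg (fun θ => ∑ i ∈ s, f i θ) = ∑ i ∈ s, sphAvg (f i) := by
  simp only [sphAvg, ← Finset.mul_sum]
  rw [integral_finsetSum s hf]

lemma sphAvg_norm_sq (hn : 1 ≤ n) : sphAvg (fun θ : E n => ‖θ‖ ^ 2) = 1 := by
  have h1 : DirInt fun θ : E n => ‖θ‖ ^ 2 := dirInt_of_continuous (by fun_prop)
  have h2 : DirInt fun _ : E n => (1 : ℝ) := dirInt_of_continuous continuous_const
  refine le_antisymm ?_ ?_
  · exact (sphAvg_mono h1 h2 hn fun v hv => by simp [hv]).trans_eq (sphAvg_const 1)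
  · exact (sphAvg_const 1).symm.trans_le (sphAvg_mono h2 h1 hn fun v hv => by simp [hv])

lemma sphAvg_inner_sq (hM : SphereMoments) (hn : 2 ≤ n) (b : E n) :
    sphAvg (fun θ => ⟪b, θ⟫ ^ 2) = ‖b‖ ^ 2 / n := by
  rcases eq_or_ne b 0 with rfl | hb
  · simp [sphAvg_const]
  have hb' : 0 < ‖b‖ := norm_pos_iff.2 hb
  have h := (hM n (dir b) hn (norm_dir hb)).1
  simp only [dir, real_inner_smul_left, mul_pow, inv_pow] at h
  rw [sphAvg_const_mul] at h
  field_simp at h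
  rw [eq_div_iff (by positivity)]
  linear_combination h

/-- The decomposition of a unit vector along a direction. -/
lemma perp_part {θ v : E n} (hθ : ‖θ‖ = 1) (hv : ‖v‖ = 1) :
    ⟪θ, v - ⟪v, θ⟫ • θ⟫ = 0 ∧ ‖v - ⟪v, θ⟫ • θ‖ = √(1 - ⟪v, θ⟫ ^ 2) ∧
      |⟪v, θ⟫| ≤ 1 ∧ 1 - ⟪v, θ⟫ ^ 2 ≤ 2 * (1 - |⟪v, θ⟫|) := by
  have h1 : |⟪v, θ⟫| ≤ 1 := (abs_real_inner_le_norm v θ).trans_eq (by rw [hv, hθ, one_mul])
  refine ⟨?_, ?_, h1, ?_⟩
  · rw [inner_sub_right, real_inner_smul_right, real_inner_self_eq_norm_sq, hθ, real_inner_comm θ v]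
    ring
  · rw [← Real.sqrt_sq (norm_nonneg (v - ⟪v, θ⟫ • θ))]
    congr 1
    rw [norm_sub_sq_real, real_inner_smul_right, norm_smul, hθ, hv, Real.norm_eq_abs, mul_one,
      sq_abs]
    ring
  · nlinarith [sq_abs ⟪v, θ⟫, abs_nonneg ⟪v, θ⟫]

/-- The expansion of a coordinate of a unit vector along a direction. -/
lemma abs_inner_perp_part_le {θ v e : E n} (hθ : ‖θ‖ = 1) (hv : ‖v‖ = 1) (he : ‖e‖ ≤ 1) :
    |⟪e, v⟫ - ⟪v, θ⟫ * ⟪e, θ⟫| ≤ √(1 - ⟪v, θ⟫ ^ 2) := by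
  obtain ⟨-, hz, -, -⟩ := perp_part hθ hv
  have : ⟪e, v⟫ - ⟪v, θ⟫ * ⟪e, θ⟫ = ⟪e, v - ⟪v, θ⟫ • θ⟫ := by
    rw [inner_sub_right, real_inner_smul_right]
  rw [this, ← hz]
  exact (abs_real_inner_le_norm _ _).trans (mul_le_of_le_one_left (norm_nonneg _) he)

lemma abs_inner_dir_le {e : E n} (he : ‖e‖ = 1) (θ : E n) : |⟪e, dir θ⟫| ≤ 1 :=
  (abs_real_inner_le_norm _ _).trans (le_of_eq_of_le (by rw [he, one_mul]) (norm_dir_le θ))

/-- The second moments, by the test `1 - ⟪e, v⟫² / 8`. -/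
lemma second_le (hR : RadialTest) (hM : SphereMoments) (hn : 2 ≤ n) {w : Fin N → ℝ}
    {u : Fin N → E n} {δ : ℝ} (hT : Tested δ w u) {e : E n} (he : ‖e‖ = 1) :
    n * ∑ i, w i * ⟪u i, e⟫ ^ 2 ≤ 20 * (1 + n * δ) := by
  have hn0 : (0 : ℝ) < n := by exact_mod_cast (show 0 < n by omega)
  have hq : ∀ v, ‖v‖ ≤ 1 → ⟪e, v⟫ ^ 2 ≤ 1 := fun v hv => by
    have := abs_real_inner_le_norm e v
    rw [he, one_mul] at this
    exact (sq_le_one_iff_abs_le_one _).2 (this.trans hv)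
  have key := hR n N w u δ (1 / 2) 1 1 (fun v => 1 - 1 / 8 * ⟪e, v⟫ ^ 2)
    (fun θ => 1 - 1 / 8 * ⟪e, dir θ⟫ ^ 2) (fun θ => 1 / 4 * |⟪e, dir θ⟫|) hn hT (by norm_num)
    (fun v hv => by linarith [hq v hv.le])
    (by unfold dir; fun_prop) (by unfold dir; fun_prop)
    (fun θ => ⟨by linarith [hq _ (norm_dir_le θ)], by nlinarith [sq_nonneg ⟪e, dir θ⟫]⟩)
    (fun θ => ⟨by positivity, by linarith [abs_inner_dir_le he θ]⟩)
    (fun θ v hθ hv _ => by
      simp only [dir_of_norm hθ]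
      obtain ⟨-, -, hy1, hz⟩ := perp_part hθ hv
      have hb := abs_inner_perp_part_le hθ hv he.le (θ := θ) (e := e)
      set y := ⟪v, θ⟫; set a := ⟪e, θ⟫; set b := ⟪e, v⟫ - y * a with hbdef
      set z := √(1 - y ^ 2)
      have hz2 : z ^ 2 = 1 - y ^ 2 := Real.sq_sqrt (by nlinarith [sq_abs y, abs_nonneg y])
      have h1 : 2 * (y * a * b) ≤ 2 * (|a| * z) := by
        refine mul_le_mul_of_nonneg_left ((le_abs_self _).trans ?_) (by norm_num)
        rw [abs_mul, abs_mul]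
        refine mul_le_mul ?_ hb (abs_nonneg _) (abs_nonneg _)
        exact mul_le_of_le_one_left (abs_nonneg _) hy1
      have h2 : b ^ 2 ≤ z ^ 2 := sq_le_sq' (abs_le.1 hb).1 (abs_le.1 hb).2
      have h3 : y ^ 2 * a ^ 2 ≤ |y| * a ^ 2 :=
        mul_le_mul_of_nonneg_right (by nlinarith [sq_abs y, abs_nonneg y]) (sq_nonneg a)
      have e1 : ⟪e, v⟫ = y * a + b := by rw [hbdef]; ring
      rw [e1, add_sq]
      nlinarith)
  have hA : DirInt fun θ : E n => ⟪e, θ⟫ ^ 2 := dirInt_of_continuous (by fun_prop)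
  obtain ⟨hm2, -⟩ := hM n e hn he
  rw [sphAvg_dir (fun θ => 1 - 1 / 8 * ⟪e, θ⟫ ^ 2),
    sphAvg_dir (fun θ => (1 / 4 * |⟪e, θ⟫|) ^ 2)] at key
  have e2 : sphAvg (fun θ : E n => 1 - 1 / 8 * ⟪e, θ⟫ ^ 2) = 1 - 1 / 8 / n := by
    rw [show (fun θ : E n => 1 - 1 / 8 * ⟪e, θ⟫ ^ 2) = fun θ => 1 + -(1 / 8) * ⟪e, θ⟫ ^ 2 by
      funext θ; ring, sphAvg_add (dirInt_of_continuous continuous_const) (hA.const_mul _),
      sphAvg_const, sphAvg_const_mul, hm2]
    ring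
  have e3 : sphAvg (fun θ : E n => (1 / 4 * |⟪e, θ⟫|) ^ 2) = 1 / 16 / n := by
    simp only [mul_pow, sq_abs]; rw [sphAvg_const_mul, hm2]; ring
  rw [e2, e3] at key
  set M := ∑ i, w i * ⟪u i, e⟫ ^ 2 with hMdef
  have hM0 : 0 ≤ M := Finset.sum_nonneg fun i _ => mul_nonneg (hT.2.1 i) (sq_nonneg _)
  have e4 : ∑ i, w i * (1 - 1 / 8 * ⟪e, u i⟫ ^ 2) = 1 - 1 / 8 * M := by
    simp only [mul_sub, mul_one, Finset.sum_sub_distrib, hT.2.2.2.1, hMdef, Finset.mul_sum]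
    congr 1
    exact Finset.sum_congr rfl fun i _ => by rw [real_inner_comm (u i) e]; ring
  rw [e4] at key
  have h4 : 0 ≤ δ * M := mul_nonneg hT.1 hM0
  have h5 : M ≤ 8 * δ + 20 / n := by
    norm_num at key
    have : 0 ≤ 1 / (n : ℝ) := by positivity
    ring_nf at key this h4 ⊢
    linarith
  calc n * M ≤ n * (8 * δ + 20 / n) := mul_le_mul_of_nonneg_left h5 hn0.le
    _ ≤ _ := by field_simp; nlinarith [mul_nonneg hn0.le hT.1]

/-- The fourth moments, by the test `1 - ⟪e, v⟫⁴ / 50`. -/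
lemma fourth_le (hR : RadialTest) (hM : SphereMoments) (hn : 2 ≤ n) {w : Fin N → ℝ}
    {u : Fin N → E n} {δ : ℝ} (hT : Tested δ w u) {e : E n} (he : ‖e‖ = 1) :
    ∑ i, w i * ⟪u i, e⟫ ^ 4 ≤ 100 * (((n : ℝ) ^ 2)⁻¹ + δ) := by
  have hn2 : (2 : ℝ) ≤ n := by exact_mod_cast hn
  have hq : ∀ v, ‖v‖ ≤ 1 → ⟪e, v⟫ ^ 4 ≤ 1 := fun v hv => by
    have := abs_real_inner_le_norm e v
    rw [he, one_mul] at this
    rw [← (Even.pow_abs (by decide : Even 4))]
    exact pow_le_one₀ (abs_nonneg _) (this.trans hv)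
  have key := hR n N w u δ (1 / 2) 1 1 (fun v => 1 - 1 / 50 * ⟪e, v⟫ ^ 4)
    (fun θ => 1 - 1 / 50 * ⟪e, dir θ⟫ ^ 4) (fun θ => 2 / 25 * |⟪e, dir θ⟫| ^ 3) hn hT (by norm_num)
    (fun v hv => by linarith [hq v hv.le])
    (by unfold dir; fun_prop) (by unfold dir; fun_prop)
    (fun θ => ⟨by linarith [hq _ (norm_dir_le θ)], by nlinarith [sq_nonneg (⟪e, dir θ⟫ ^ 2)]⟩)
    (fun θ => ⟨by positivity, by
      linarith [pow_le_one₀ (n := 3) (abs_nonneg _) (abs_inner_dir_le he θ)]⟩)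
    (fun θ v hθ hv _ => by
      simp only [dir_of_norm hθ]
      obtain ⟨-, -, hy1, hz⟩ := perp_part hθ hv
      have hb := abs_inner_perp_part_le hθ hv he.le (θ := θ) (e := e)
      have ha : |⟪e, θ⟫| ≤ 1 := (abs_real_inner_le_norm _ _).trans (by rw [he, hθ, one_mul])
      set y := ⟪v, θ⟫; set a := ⟪e, θ⟫; set z := √(1 - y ^ 2)
      have hz0 : 0 ≤ z := Real.sqrt_nonneg _
      have hz2 : z ^ 2 = 1 - y ^ 2 := Real.sq_sqrt (by nlinarith [sq_abs y, abs_nonneg y])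
      have hz1 : z ≤ 1 := by nlinarith [sq_nonneg y]
      have h0 : |⟪e, v⟫| ≤ |y| * |a| + z := by
        have := abs_add_le (y * a) (⟪e, v⟫ - y * a)
        rw [abs_mul, add_sub_cancel] at this
        linarith
      have h1 : ⟪e, v⟫ ^ 4 ≤ (|y| * |a| + z) ^ 4 := by
        rw [← (Even.pow_abs (by decide : Even 4))]
        exact pow_le_pow_left₀ (abs_nonneg _) h0 4
      have hya : |y| * |a| ≤ |a| := mul_le_of_le_one_left (abs_nonneg _) hy1
      have hya1 : |y| * |a| ≤ 1 := hya.trans ha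
      have hya0 : 0 ≤ |y| * |a| := by positivity
      have h2 : (|y| * |a| + z) ^ 4 ≤ |y| * a ^ 4 + 4 * (|a| ^ 3 * z) + 11 * z ^ 2 := by
        have t1 : (|y| * |a|) ^ 4 ≤ |y| * a ^ 4 := by
          rw [mul_pow, (Even.pow_abs (by decide : Even 4)) a]
          exact mul_le_mul_of_nonneg_right
            (pow_le_of_le_one (abs_nonneg _) hy1 (by norm_num)) (by positivity)
        have t2 : (|y| * |a|) ^ 3 * z ≤ |a| ^ 3 * z :=
          mul_le_mul_of_nonneg_right (pow_le_pow_left₀ hya0 hya 3) hz0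
        have t3 : (|y| * |a|) ^ 2 * z ^ 2 ≤ z ^ 2 :=
          mul_le_of_le_one_left (sq_nonneg _) (pow_le_one₀ hya0 hya1)
        have t4 : (|y| * |a|) * z ^ 3 ≤ z ^ 2 := by
          calc (|y| * |a|) * z ^ 3 = ((|y| * |a|) * z) * z ^ 2 := by ring
            _ ≤ 1 * z ^ 2 := mul_le_mul_of_nonneg_right
                (mul_le_one₀ hya1 hz0 hz1) (sq_nonneg _)
            _ = _ := one_mul _
        have t5 : z ^ 4 ≤ z ^ 2 := pow_le_pow_of_le_one hz0 hz1 (by norm_num)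
        have e5 : (|y| * |a| + z) ^ 4 = (|y| * |a|) ^ 4 + 4 * ((|y| * |a|) ^ 3 * z) +
            6 * ((|y| * |a|) ^ 2 * z ^ 2) + 4 * ((|y| * |a|) * z ^ 3) + z ^ 4 := by ring
        linarith
      nlinarith)
  have hA : ∀ k : ℕ, DirInt fun θ : E n => ⟪e, θ⟫ ^ k := fun k => dirInt_of_continuous (by fun_prop)
  obtain ⟨-, hm4, hm6, -⟩ := hM n e hn he
  rw [sphAvg_dir (fun θ => 1 - 1 / 50 * ⟪e, θ⟫ ^ 4),
    sphAvg_dir (fun θ => (2 / 25 * |⟪e, θ⟫| ^ 3) ^ 2)] at key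
  have e2 : sphAvg (fun θ : E n => 1 - 1 / 50 * ⟪e, θ⟫ ^ 4) = 1 - 1 / 50 * (3 / (n * (n + 2))) := by
    rw [show (fun θ : E n => 1 - 1 / 50 * ⟪e, θ⟫ ^ 4) = fun θ => 1 + -(1 / 50) * ⟪e, θ⟫ ^ 4 by
      funext θ; ring, sphAvg_add (dirInt_of_continuous continuous_const) ((hA 4).const_mul _),
      sphAvg_const, sphAvg_const_mul, hm4]
    ring
  have e3 : sphAvg (fun θ : E n => (2 / 25 * |⟪e, θ⟫| ^ 3) ^ 2) ≤ 4 / 625 * (15 / (n : ℝ) ^ 3) := by
    have : (fun θ : E n => (2 / 25 * |⟪e, θ⟫| ^ 3) ^ 2) = fun θ => 4 / 625 * ⟪e, θ⟫ ^ 6 := by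
      funext θ; rw [← (Even.pow_abs (by decide : Even 6)) ⟪e, θ⟫]; ring
    rw [this, sphAvg_const_mul]
    exact mul_le_mul_of_nonneg_left hm6 (by norm_num)
  rw [e2] at key
  set M := ∑ i, w i * ⟪u i, e⟫ ^ 4 with hMdef
  have hM0 : 0 ≤ M := Finset.sum_nonneg fun i _ => mul_nonneg (hT.2.1 i) (by positivity)
  have e4 : ∑ i, w i * (1 - 1 / 50 * ⟪e, u i⟫ ^ 4) = 1 - 1 / 50 * M := by
    simp only [mul_sub, mul_one, Finset.sum_sub_distrib, hT.2.2.2.1, hMdef, Finset.mul_sum]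
    congr 1
    exact Finset.sum_congr rfl fun i _ => by rw [real_inner_comm (u i) e]; ring
  rw [e4] at key
  have h4 : 0 ≤ δ * M := mul_nonneg hT.1 hM0
  have h6 : 3 / ((n : ℝ) * (n + 2)) ≤ 3 * ((n : ℝ) ^ 2)⁻¹ := by
    rw [div_eq_mul_inv]; gcongr; nlinarith
  have h7 : 15 / (n : ℝ) ^ 3 ≤ 15 / 2 * ((n : ℝ) ^ 2)⁻¹ := by
    rw [div_le_iff₀ (by positivity)]; field_simp; nlinarith
  have : 0 ≤ ((n : ℝ) ^ 2)⁻¹ := by positivity
  have := hT.1
  norm_num at key e3 ⊢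
  linarith

/-- The quadratic form of the deviation of the second moments. -/
def qf (w : Fin N → ℝ) (u : Fin N → E n) (x : E n) : ℝ :=
  n * (∑ i, w i * ⟪u i, x⟫ ^ 2) - ‖x‖ ^ 2

/-- The linear map of this form. -/
def Bf (w : Fin N → ℝ) (u : Fin N → E n) (x : E n) : E n :=
  (n : ℝ) • (∑ i, (w i * ⟪u i, x⟫) • u i) - x

variable {w : Fin N → ℝ} {u : Fin N → E n}

lemma continuous_qf : Continuous (qf w u) := by unfold qf; fun_prop

lemma continuous_Bf : Continuous (Bf w u) := by unfold Bf; fun_prop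

lemma inner_Bf (x z : E n) :
    ⟪Bf w u x, z⟫ = n * (∑ i, w i * ⟪u i, x⟫ * ⟪u i, z⟫) - ⟪x, z⟫ := by
  simp only [Bf, inner_sub_left, real_inner_smul_left, sum_inner]

lemma neg_le_qf (hw : ∀ i, 0 ≤ w i) (x : E n) : -‖x‖ ^ 2 ≤ qf w u x := by
  have : 0 ≤ (n : ℝ) * ∑ i, w i * ⟪u i, x⟫ ^ 2 :=
    mul_nonneg n.cast_nonneg (Finset.sum_nonneg fun i _ => mul_nonneg (hw i) (sq_nonneg _))
  simp only [qf]
  linarith

lemma qf_le {L : ℝ} (hL : ∀ e, ‖e‖ = 1 → n * ∑ i, w i * ⟪u i, e⟫ ^ 2 ≤ L) (x : E n) :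
    qf w u x + ‖x‖ ^ 2 ≤ L * ‖x‖ ^ 2 := by
  rcases eq_or_ne x 0 with rfl | hx
  · simp [qf]
  · have hx' : 0 < ‖x‖ := norm_pos_iff.2 hx
    refine le_of_eq_of_le ?_ (mul_le_mul_of_nonneg_right (hL (dir x) (norm_dir hx)) (sq_nonneg ‖x‖))
    simp only [qf, sub_add_cancel, Finset.mul_sum, Finset.sum_mul]
    refine Finset.sum_congr rfl fun i _ => ?_
    rw [dir, real_inner_smul_right]
    field_simp

lemma qf_expand {θ v : E n} (hθ : ‖θ‖ = 1) (hv : ‖v‖ = 1) :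
    qf w u v = ⟪v, θ⟫ ^ 2 * qf w u θ + 2 * ⟪v, θ⟫ * ⟪Bf w u θ, v - ⟪v, θ⟫ • θ⟫ +
      qf w u (v - ⟪v, θ⟫ • θ) := by
  obtain ⟨horth, hz, hy1, -⟩ := perp_part hθ hv
  have hzn : ‖v - ⟪v, θ⟫ • θ‖ ^ 2 = 1 - ⟪v, θ⟫ ^ 2 := by
    rw [hz, Real.sq_sqrt (by nlinarith [sq_abs ⟪v, θ⟫, abs_nonneg ⟪v, θ⟫])]
  have h : ∀ i, w i * ⟪u i, v⟫ ^ 2 = ⟪v, θ⟫ ^ 2 * (w i * ⟪u i, θ⟫ ^ 2) +
      2 * ⟪v, θ⟫ * (w i * ⟪u i, θ⟫ * ⟪u i, v - ⟪v, θ⟫ • θ⟫) +
      w i * ⟪u i, v - ⟪v, θ⟫ • θ⟫ ^ 2 := by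
    intro i
    rw [inner_sub_right, real_inner_smul_right]
    ring
  simp only [qf, inner_Bf, horth, hzn, hv, hθ]
  rw [Finset.sum_congr rfl fun i _ => h i, Finset.sum_add_distrib, Finset.sum_add_distrib,
    ← Finset.mul_sum, ← Finset.mul_sum]
  ring

lemma sphAvg_qf (hM : SphereMoments) (hn : 2 ≤ n) (hu : ∀ i, ‖u i‖ = 1) (hws : ∑ i, w i = 1) :
    sphAvg (qf w u) = 0 := by
  have hn0 : (n : ℝ) ≠ 0 := by positivity
  have : qf w u = fun θ => (n : ℝ) * (∑ i, w i * ⟪u i, θ⟫ ^ 2) + (-1) * ‖θ‖ ^ 2 := by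
    funext θ; simp only [qf]; ring
  rw [this, sphAvg_add (dirInt_of_continuous (by fun_prop)) (dirInt_of_continuous (by fun_prop)),
    sphAvg_const_mul, sphAvg_const_mul, sphAvg_sum _ _ fun i _ => dirInt_of_continuous (by fun_prop),
    sphAvg_norm_sq (by omega)]
  simp only [sphAvg_const_mul, sphAvg_inner_sq hM hn, hu]
  rw [← Finset.sum_mul, hws]
  field_simp
  ring

lemma sphAvg_Bf (hM : SphereMoments) (hn : 2 ≤ n) :
    sphAvg (fun θ => ‖Bf w u θ‖ ^ 2) = covDev w u := by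
  let b : Fin n → E n := fun j => WithLp.toLp 2 fun k =>
    (n : ℝ) * (∑ i, w i * (u i j * u i k)) - if j = k then 1 else 0
  have eB : ∀ θ, ‖Bf w u θ‖ ^ 2 = ∑ j, ⟪b j, θ⟫ ^ 2 := by
    intro θ
    rw [EuclideanSpace.norm_sq_eq]
    refine Finset.sum_congr rfl fun j _ => ?_
    rw [Real.norm_eq_abs, sq_abs]
    congr 1
    simp only [Bf, b, PiLp.inner_apply, RCLike.inner_apply, conj_trivial, PiLp.sub_apply,
      PiLp.smul_apply, WithLp.ofLp_sum, Finset.sum_apply, smul_eq_mul, mul_sub,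
      Finset.sum_sub_distrib, mul_ite, mul_one, mul_zero, Finset.sum_ite_eq, Finset.mem_univ,
      if_true, Finset.mul_sum, Finset.sum_mul]
    congr 1
    rw [Finset.sum_comm]
    exact Finset.sum_congr rfl fun k _ => Finset.sum_congr rfl fun i _ => by ring
  simp only [eB]
  rw [sphAvg_sum _ _ fun j _ => dirInt_of_continuous (by fun_prop)]
  simp only [sphAvg_inner_sq hM hn, covDev]
  rw [Finset.mul_sum]
  refine Finset.sum_congr rfl fun j _ => ?_
  rw [EuclideanSpace.norm_sq_eq, Finset.sum_div, Finset.mul_sum]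
  refine Finset.sum_congr rfl fun k _ => ?_
  simp only [b, Real.norm_eq_abs, sq_abs]
  have hn0 : (n : ℝ) ≠ 0 := by positivity
  split_ifs
  all_goals field_simp
  all_goals ring

lemma sum_sq_gram {ι : Type*} [Fintype ι] (w : Fin N → ℝ) (x : Fin N → ι → ℝ) :
    ∑ a, ∑ i, w a * w i * (∑ j, x i j * x a j) ^ 2 =
      ∑ j, ∑ k, (∑ i, w i * (x i j * x i k)) ^ 2 := by
  simp only [sq, Finset.sum_mul_sum]
  simp only [Finset.mul_sum]
  rw [Finset.sum_congr rfl fun a _ => Finset.sum_comm, Finset.sum_comm]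
  refine Finset.sum_congr rfl fun j _ => ?_
  rw [Finset.sum_congr rfl fun a _ => Finset.sum_comm, Finset.sum_comm]
  exact Finset.sum_congr rfl fun k _ => Finset.sum_congr rfl fun a _ =>
    Finset.sum_congr rfl fun i _ => by ring

lemma sum_qf (hu : ∀ i, ‖u i‖ = 1) (hws : ∑ i, w i = 1) (hn : 1 ≤ n) :
    ∑ i, w i * qf w u (u i) = covDev w u := by
  have hn0 : (n : ℝ) ≠ 0 := by positivity
  have hd : ∀ i k, ⟪u i, u k⟫ = ∑ j, u i j * u k j := fun i k => by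
    simp [PiLp.inner_apply, mul_comm]
  have s1 : ∑ i, w i * qf w u (u i) = n * (∑ j, ∑ k, (∑ i, w i * (u i j * u i k)) ^ 2) - 1 := by
    rw [← sum_sq_gram w fun i j => u i j]
    simp only [qf, hu, one_pow, mul_sub, mul_one, Finset.sum_sub_distrib, hws, hd, Finset.mul_sum]
    congr 1
    exact Finset.sum_congr rfl fun a _ => Finset.sum_congr rfl fun i _ => by ring
  have htr : ∑ j, ∑ i, w i * (u i j * u i j) = 1 := by
    rw [Finset.sum_comm]
    simp only [← Finset.mul_sum, ← hd, real_inner_self_eq_norm_sq, hu, one_pow, mul_one, hws]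
  have s2 : ∀ j k : Fin n, ((∑ i, w i * (u i j * u i k)) - if j = k then (n : ℝ)⁻¹ else 0) ^ 2 =
      (∑ i, w i * (u i j * u i k)) ^ 2 +
        if j = k then (n : ℝ)⁻¹ ^ 2 - 2 * (n : ℝ)⁻¹ * (∑ i, w i * (u i j * u i k)) else 0 := by
    intro j k; split_ifs <;> ring
  rw [s1, covDev]
  simp only [Finset.sum_sub_distrib, s2, Finset.sum_add_distrib, Finset.sum_ite_eq,
    Finset.mem_univ, if_true]
  rw [← Finset.mul_sum Finset.univ (fun j => ∑ i, w i * (u i j * u i j)), htr]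
  simp only [Finset.sum_const, Finset.card_univ, Fintype.card_fin, nsmul_eq_mul]
  field_simp
  ring

/-- The deviation of the second moments, by the test `1 - t q`. -/
lemma covDev_le (hR : RadialTest) (hM : SphereMoments) (hn : 2 ≤ n) {δ L : ℝ}
    (hT : Tested δ w u) (hL : ∀ e, ‖e‖ = 1 → n * ∑ i, w i * ⟪u i, e⟫ ^ 2 ≤ L) :
    covDev w u ≤ 1300 * δ * (1 + L) := by
  have hn1 : 1 ≤ n := by omega
  obtain ⟨hδ, hw, hu, hws, -⟩ := id hT
  have hL0 : 0 ≤ L := le_trans (mul_nonneg n.cast_nonneg (Finset.sum_nonneg fun i _ =>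
    mul_nonneg (hw i) (sq_nonneg _))) (hL (EuclideanSpace.single ⟨0, by omega⟩ 1) (by simp))
  set t : ℝ := 1 / (640 * (1 + L)) with ht
  have ht0 : 0 < t := by positivity
  have htL : t * (1 + L) = 1 / 640 := by rw [ht]; field_simp
  have hqb : ∀ x, ‖x‖ ≤ 1 → |t * qf w u x| ≤ 1 / 640 := by
    intro x hx
    have hx2 : ‖x‖ ^ 2 ≤ 1 := pow_le_one₀ (norm_nonneg _) hx
    have h1 := qf_le hL x
    have h2 := neg_le_qf (u := u) hw x
    have h3 : L * ‖x‖ ^ 2 ≤ L := mul_le_of_le_one_right hL0 hx2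
    have h4 := sq_nonneg ‖x‖
    rw [abs_mul, abs_of_pos ht0, ← htL]
    exact mul_le_mul_of_nonneg_left (abs_le.2 ⟨by linarith, by linarith⟩) ht0.le
  obtain ⟨Bd, hBd⟩ := (isCompact_closedBall (0 : E n) 1).exists_bound_of_continuousOn
    (f := fun x => 2 * t * ‖Bf w u x‖) ((continuous_Bf.norm.const_mul _).continuousOn)
  have key := hR n N w u δ (1 / 2) (3 / 2) Bd (fun v => 1 - t * qf w u v)
    (fun θ => 1 - t * qf w u (dir θ)) (fun θ => 2 * t * ‖Bf w u (dir θ)‖) hn hT (by norm_num)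
    (fun v hv => by linarith [(abs_le.1 (hqb v hv.le)).2])
    ((continuous_qf.measurable.comp measurable_dir).const_mul t |>.const_sub 1)
    ((continuous_Bf.norm.measurable.comp measurable_dir).const_mul _)
    (fun θ => by
      have := abs_le.1 (hqb _ (norm_dir_le θ))
      constructor <;> linarith)
    (fun θ => ⟨by positivity, (Real.le_norm_self _).trans
      (hBd _ (mem_closedBall_zero_iff.2 (norm_dir_le θ)))⟩)
    (fun θ v hθ hv _ => by
      simp only [dir_of_norm hθ]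
      obtain ⟨-, hz, hy1, hz2⟩ := perp_part hθ hv
      have h4 := abs_le.1 (hqb θ hθ.le)
      have hup := qf_le hL (v - ⟪v, θ⟫ • θ)
      have hin := abs_real_inner_le_norm (Bf w u θ) (v - ⟪v, θ⟫ • θ)
      have hexp := qf_expand (w := w) (u := u) hθ hv
      rw [hz] at hin hup
      rw [hexp]
      clear hexp
      generalize qf w u (v - ⟪v, θ⟫ • θ) = qx at *
      generalize ⟪Bf w u θ, v - ⟪v, θ⟫ • θ⟫ = bx at *
      generalize ‖Bf w u θ‖ = nb at *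
      generalize qf w u θ = qt at *
      generalize ⟪v, θ⟫ = y at *
      have hy0 := abs_nonneg y
      have hy2 := sq_abs y
      have hzz : √(1 - y ^ 2) ^ 2 = 1 - y ^ 2 := Real.sq_sqrt (by nlinarith)
      rw [hzz] at hup
      have g1 : t * (y * bx) ≤ t * (nb * √(1 - y ^ 2)) := by
        refine mul_le_mul_of_nonneg_left ?_ ht0.le
        calc y * bx ≤ |y| * |bx| := by rw [← abs_mul]; exact le_abs_self _
          _ ≤ 1 * |bx| := mul_le_mul_of_nonneg_right hy1 (abs_nonneg _)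
          _ ≤ _ := by rw [one_mul]; exact hin
      have g2 : t * qx ≤ t * (L * (2 * (1 - |y|))) := by
        refine mul_le_mul_of_nonneg_left ?_ ht0.le
        have : L * (1 - y ^ 2) ≤ L * (2 * (1 - |y|)) := mul_le_mul_of_nonneg_left hz2 hL0
        have : 0 ≤ 1 - y ^ 2 := by nlinarith
        linarith
      have g3 : 0 ≤ (1 - |y|) * (1 / 2 - 2 * (t * L) + t * qt * |y|) := by
        refine mul_nonneg (by linarith) ?_
        have : -(1 / 640) ≤ t * qt * |y| := by nlinarith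
        nlinarith
      rw [← hy2] at g1 ⊢
      nlinarith)
  rw [sphAvg_dir (fun θ => 1 - t * qf w u θ),
    sphAvg_dir (fun θ => (2 * t * ‖Bf w u θ‖) ^ 2)] at key
  have e2 : sphAvg (fun θ => 1 - t * qf w u θ) = 1 := by
    rw [show (fun θ => 1 - t * qf w u θ) = fun θ => 1 + -t * qf w u θ by funext θ; ring,
      sphAvg_add (dirInt_of_continuous continuous_const)
        (dirInt_of_continuous (continuous_qf.const_mul _)),
      sphAvg_const, sphAvg_const_mul, sphAvg_qf hM hn hu hws, mul_zero, add_zero]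
  have e4 : ∑ i, w i * (1 - t * qf w u (u i)) = 1 - t * covDev w u := by
    simp only [mul_sub, mul_one, Finset.sum_sub_distrib, hws, ← sum_qf hu hws hn1, Finset.mul_sum]
    congr 1
    exact Finset.sum_congr rfl fun i _ => by ring
  have e6 : sphAvg (fun θ => (2 * t * ‖Bf w u θ‖) ^ 2) = 4 * t ^ 2 * covDev w u := by
    simp only [mul_pow]; rw [sphAvg_const_mul, sphAvg_Bf hM hn]; ring
  rw [e2, e4, e6] at key
  have hD : 0 ≤ covDev w u := by rw [covDev]; positivity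
  norm_num at key
  have ht1 : t ≤ 1 / 640 := by
    rw [← htL]; exact le_mul_of_one_le_right ht0.le (by linarith)
  have h9 : t * covDev w u * (1 / 2) ≤ δ := by
    nlinarith [mul_nonneg hδ (mul_nonneg ht0.le hD), mul_nonneg ht0.le hD]
  calc covDev w u = t * covDev w u * (1 / 2) * (1280 * (1 + L)) := by rw [ht]; field_simp; ring
    _ ≤ δ * (1280 * (1 + L)) := mul_le_mul_of_nonneg_right h9 (by positivity)
    _ ≤ _ := by nlinarith [mul_nonneg hδ hL0]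

end MomentAux

open MomentAux

theorem momentBound (hR : RadialTest) (hM : SphereMoments) : MomentBound := by
  refine ⟨1300, by norm_num, fun n N w u δ hn hT => ⟨fun L hL => covDev_le hR hM (by omega) hT hL,
    fun e he => ?_, fun e he => ?_⟩⟩
  · have h := second_le hR hM (show 2 ≤ n by omega) hT he
    have : 0 ≤ 1 + (n : ℝ) * δ := by have := hT.1; positivity
    linarith
  · have h := fourth_le hR hM (show 2 ≤ n by omega) hT he
    have : 0 ≤ ((n : ℝ) ^ 2)⁻¹ + δ := by have := hT.1; positivity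
    linarith

end Vale.Agent.P237.Sharp
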