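import Vale.Agent.P237.Sharp.Radial
import Vale.Agent.P237.Sharp.Gauss
import Vale.Agent.P237.BallConst

/-!
P237: moments of a coordinate and of the squared length of a projection of a uniform direction, by
comparison with a Gaussian vector.
-/

noncomputable section

open MeasureTheory Set Metric
open Real (Gamma pi)
open scoped RealInnerProductSpace

namespace Vale.Agent.P237.Sharp

open Asymp

variable {n : ℕ}

/-- A function of the direction against a radial power and the Gaussian weight. -/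
theorem sphAvg_mul_gauss (hn : 1 ≤ n) (f : E n → ℝ) (q : ℕ) :
    sphAvg f * ∫ x : E n, ‖x‖ ^ q * gw x = ∫ x : E n, f (dir x) * (‖x‖ ^ q * gw x) :=
  (integral_dir_norm hn f fun r => r ^ q * Real.exp (-(r ^ 2) / 2)).symm

theorem sphAvg_mul_gmom (hn : 1 ≤ n) (f : E n → ℝ) (j : ℕ) :
    sphAvg f * (gmom n j * gz (Fin n)) = ∫ x : E n, f (dir x) * ((‖x‖ ^ 2) ^ j * gw x) := by
  have h := sphAvg_mul_gauss hn f (2 * j)
  simp only [pow_mul] at h
  rw [← h, integral_norm_sq_pow_gw, Fintype.card_fin]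

lemma card_head {k : ℕ} (h : k ≤ n) : Fintype.card {i : Fin n // (i : ℕ) < k} = k := by
  conv_rhs => rw [← Fintype.card_fin k]
  exact Fintype.card_congr
    ⟨fun i => ⟨i.1, i.2⟩, fun j => ⟨⟨j, lt_of_lt_of_le j.2 h⟩, j.2⟩, fun _ => rfl, fun _ => rfl⟩

lemma card_tail {k : ℕ} (h : k ≤ n) :
    Fintype.card {i : Fin n // ¬(i : ℕ) < k} = n - k := by
  rw [Fintype.card_subtype_compl, Fintype.card_fin, card_head h]

section split

variable {α β : Type*} [Fintype α] [Fintype β]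

lemma gw_split {Φ : E n ≃ᵐ EuclideanSpace ℝ α × EuclideanSpace ℝ β}
    (hP : ∀ x, ‖(Φ x).1‖ ^ 2 + ‖(Φ x).2‖ ^ 2 = ‖x‖ ^ 2) (x : E n) :
    gw x = gw (Φ x).1 * gw (Φ x).2 := by
  simp only [gw, ← Real.exp_add, ← hP x]
  congr 1
  ring

lemma integral_split {Φ : E n ≃ᵐ EuclideanSpace ℝ α × EuclideanSpace ℝ β}
    (hΦ : MeasurePreserving Φ volume (volume.prod volume))
    (hP : ∀ x, ‖(Φ x).1‖ ^ 2 + ‖(Φ x).2‖ ^ 2 = ‖x‖ ^ 2)
    (F : EuclideanSpace ℝ α → ℝ) (G : EuclideanSpace ℝ β → ℝ) :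
    ∫ x : E n, F (Φ x).1 * G (Φ x).2 * gw x = (∫ y, F y * gw y) * ∫ z, G z * gw z := by
  rw [← integral_prod_mul (fun y => F y * gw y) (fun z => G z * gw z),
    ← hΦ.integral_comp' (fun q => F q.1 * gw q.1 * (G q.2 * gw q.2))]
  exact integral_congr_ae (ae_of_all _ fun x => by
    show F (Φ x).1 * G (Φ x).2 * gw x = F (Φ x).1 * gw (Φ x).1 * (G (Φ x).2 * gw (Φ x).2)
    rw [gw_split hP x]; ring)

lemma gz_split {Φ : E n ≃ᵐ EuclideanSpace ℝ α × EuclideanSpace ℝ β}
    (hΦ : MeasurePreserving Φ volume (volume.prod volume))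
    (hP : ∀ x, ‖(Φ x).1‖ ^ 2 + ‖(Φ x).2‖ ^ 2 = ‖x‖ ^ 2) : gz (Fin n) = gz α * gz β := by
  have h := integral_split hΦ hP (fun _ => 1) (fun _ => 1)
  simpa [gz] using h

end split

lemma inner_dir_mul_norm (v x : E n) : ⟪v, dir x⟫ * ‖x‖ = ⟪v, x⟫ := by
  rcases eq_or_ne x 0 with rfl | hx
  · simp
  · rw [dir, real_inner_smul_right]
    field_simp [norm_ne_zero_iff.2 hx]

/-- The even moments and the mean absolute value of one coordinate. -/
theorem coord_moments (hn : 2 ≤ n) {v : E n} (hv : ‖v‖ = 1) :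
    (∀ j, sphAvg (fun θ => ⟪v, θ⟫ ^ (2 * j)) * gmom n j = gmom 1 j) ∧
    sphAvg (fun θ => |⟪v, θ⟫|) * (gJ n / gJ (n - 1)) = gJ 1 / gJ 0 := by
  have ho : Ortho [v] := ⟨List.pairwise_singleton _ _, by simp [hv]⟩
  have hlen : [v].length = 1 := rfl
  obtain ⟨Φ, hΦ, h2, hP⟩ := exists_split ho (by simp; omega)
  have h1 : ∀ x, ‖(Φ x).1‖ ^ 2 = ⟪v, x⟫ ^ 2 := fun x => by
    have := hP x
    rw [h2, ho.norm_perp_sq] at this
    simp at this
    linarith
  have hc : Fintype.card {i : Fin n // (i : ℕ) < [v].length} = 1 := card_head (by simp; omega)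
  have : Nonempty {i : Fin n // (i : ℕ) < [v].length} := Fintype.card_pos_iff.1 (by omega)
  have : Nonempty (Fin n) := ⟨⟨0, by omega⟩⟩
  have hn1 : 1 ≤ n := by omega
  have hz := gz_pos (ι := Fin n)
  refine ⟨fun j => ?_, ?_⟩
  · refine mul_right_cancel₀ hz.ne' ?_
    rw [mul_assoc, sphAvg_mul_gmom hn1, gz_split hΦ hP, ← mul_assoc]
    calc ∫ x : E n, ⟪v, dir x⟫ ^ (2 * j) * ((‖x‖ ^ 2) ^ j * gw x)
        = ∫ x : E n, (‖(Φ x).1‖ ^ 2) ^ j * 1 * gw x := integral_congr_ae (ae_of_all _ fun x => by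
          beta_reduce
          rw [h1, mul_one, ← mul_assoc, ← pow_mul, ← pow_mul, ← mul_pow, inner_dir_mul_norm])
      _ = _ := by
          rw [integral_split hΦ hP (fun y => (‖y‖ ^ 2) ^ j) fun _ => 1, integral_norm_sq_pow_gw,
            hc, Nat.cast_one]
          simp [gz]
  · have hA := sphAvg_mul_gauss hn1 (fun θ => |⟪v, θ⟫|) 1
    have hN := integral_norm_pow_gw (ι := Fin n) 1
    rw [Fintype.card_fin, Nat.sub_add_cancel hn1] at hN
    have hM := integral_norm_pow_gw (ι := {i : Fin n // (i : ℕ) < [v].length}) 1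
    rw [hc, show (1 : ℕ) - 1 = 0 from rfl, zero_add] at hM
    have hE : ∫ x : E n, |⟪v, dir x⟫| * (‖x‖ ^ 1 * gw x) =
        (∫ y : EuclideanSpace ℝ {i : Fin n // (i : ℕ) < [v].length}, ‖y‖ ^ 1 * gw y) *
          gz {i : Fin n // ¬(i : ℕ) < [v].length} := by
      have := integral_split hΦ hP (fun y => ‖y‖ ^ 1) fun _ => 1
      simp only [one_mul] at this
      rw [gz, ← this]
      refine integral_congr_ae (ae_of_all _ fun x => ?_)
      beta_reduce
      rw [mul_one, pow_one, pow_one, ← mul_assoc]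
      congr 1
      rw [← abs_norm x, ← abs_mul, inner_dir_mul_norm, ← Real.sqrt_sq_eq_abs, ← h1,
        Real.sqrt_sq (norm_nonneg _)]
    rw [hE] at hA
    have hs := gz_split hΦ hP
    have p0 := gJ_pos 0
    have pn := gJ_pos (n - 1)
    rw [← mul_div_assoc, div_eq_div_iff pn.ne' p0.ne']
    refine mul_right_cancel₀ hz.ne' ?_
    linear_combination
      gJ 0 * (gJ (n - 1) * hA - sphAvg (fun θ => |⟪v, θ⟫|) * hN) +
        gJ (n - 1) * gz {i : Fin n // ¬(i : ℕ) < [v].length} * hM - gJ 1 * gJ (n - 1) * hs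

lemma meanAbs_eq (hn : 2 ≤ n) :
    meanAbs n = Gamma ((n : ℝ) / 2) / (√pi * Gamma (((n : ℝ) + 1) / 2)) := by
  obtain ⟨m, rfl⟩ : ∃ m, n = m + 1 := ⟨n - 1, by omega⟩
  have hG := Real.Gamma_pos_of_pos (show (0 : ℝ) < ((m : ℝ) + 1 + 1) / 2 by positivity)
  rw [meanAbs, add_tsub_cancel_right, kappa_eq (by omega), kappa_eq (by omega)]
  push_cast
  rw [Real.Gamma_add_one (show ((m : ℝ) + 1) / 2 ≠ 0 by positivity),
    show (m : ℝ) / 2 + 1 = ((m : ℝ) + 1 + 1) / 2 by ring, pow_succ]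
  field_simp

/-- Moments of a uniform direction. -/
theorem sphereMoments : SphereMoments := by
  intro n v hn hv
  obtain ⟨hmom, habs⟩ := coord_moments hn hv
  have hn0 : (0 : ℝ) < n := by exact_mod_cast (by omega : 0 < n)
  have e1 := hmom 1
  have e2 := hmom 2
  have e3 := hmom 3
  simp only [gmom, Finset.prod_range_succ, Finset.prod_range_zero] at e1 e2 e3
  norm_num at e1 e2 e3
  have a1 : sphAvg (fun θ => ⟪v, θ⟫ ^ 2) = (n : ℝ)⁻¹ := eq_inv_of_mul_eq_one_left e1
  have hA : sphAvg (fun θ => |⟪v, θ⟫|) = meanAbs n := by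
    rw [meanAbs_eq hn]
    obtain ⟨m, rfl⟩ : ∃ m, n = m + 1 := ⟨n - 1, by omega⟩
    have h0 := gJ_succ 0
    have hm := gJ_succ m
    rw [Nat.cast_zero, show ((0 : ℝ) + 2) / 2 = 1 by norm_num,
      show ((0 : ℝ) + 1) / 2 = 1 / 2 by norm_num, Real.Gamma_one_half_eq, Real.Gamma_one,
      mul_one] at h0
    rw [add_tsub_cancel_right, ← mul_div_assoc,
      div_eq_div_iff (gJ_pos m).ne' (gJ_pos 0).ne'] at habs
    push_cast
    rw [show ((m : ℝ) + 1 + 1) / 2 = ((m : ℝ) + 2) / 2 by ring, eq_div_iff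
      (mul_pos (Real.sqrt_pos.2 Real.pi_pos) (Real.Gamma_pos_of_pos (by positivity))).ne']
    refine mul_right_cancel₀
      (mul_pos (mul_pos (gJ_pos m) (gJ_pos 0)) (Real.sqrt_pos.2 two_pos)).ne' ?_
    linear_combination
      (-(sphAvg fun θ : E (m + 1) => |⟪v, θ⟫|) * √pi * gJ 0) * hm +
        (√pi * Gamma (((m : ℝ) + 1) / 2)) * habs + (Gamma (((m : ℝ) + 1) / 2) * gJ m) * h0
  refine ⟨a1, ?_, ?_, hA, ?_, ?_⟩
  · rw [eq_div_iff (by positivity)]
    exact e2
  · rw [← eq_div_iff (by positivity)] at e3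
    rw [e3]
    gcongr
    nlinarith
  · rw [meanAbs_eq hn]
    have hG1 := Real.Gamma_pos_of_pos (show (0 : ℝ) < (n : ℝ) / 2 by positivity)
    have hG2 := Real.Gamma_pos_of_pos (show (0 : ℝ) < ((n : ℝ) + 1) / 2 by positivity)
    have hh := gamma_half_step (show (0 : ℝ) < (n : ℝ) / 2 by positivity)
    rw [show (n : ℝ) / 2 + 1 / 2 = ((n : ℝ) + 1) / 2 by ring] at hh
    rw [Real.sqrt_le_left (by positivity), div_pow, mul_pow, Real.sq_sqrt Real.pi_pos.le,
      div_le_div_iff₀ (by positivity) (by positivity)]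
    nlinarith [mul_le_mul_of_nonneg_left hh Real.pi_pos.le]
  · rw [← hA]
    set s := √(n : ℝ) with hs
    have hs0 : 0 < s := Real.sqrt_pos.2 hn0
    have hle : ∀ θ : E n, |⟪v, θ⟫| ≤ s / 2 * ⟪v, θ⟫ ^ 2 + (2 * s)⁻¹ := fun θ => by
      rw [← sq_abs ⟪v, θ⟫]
      refine sub_nonneg.1 (le_of_le_of_eq
        (div_nonneg (sq_nonneg (s * |⟪v, θ⟫| - 1)) (by positivity : 0 ≤ 2 * s)) ?_)
      field_simp
      ring
    have hb : ∀ θ : E n, ‖θ‖ ≤ 1 → |⟪v, θ⟫| ≤ 1 := fun θ h =>
      (abs_real_inner_le_norm v θ).trans (by rw [hv, one_mul]; exact h)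
    have hi : DirInt fun θ : E n => |⟪v, θ⟫| :=
      .of_bounded (by fun_prop) (B := 1) fun θ h => by rw [abs_abs]; exact hb θ h
    have hi2 : DirInt fun θ : E n => ⟪v, θ⟫ ^ 2 :=
      .of_bounded (by fun_prop) (B := 1) fun θ h => by
        rw [abs_pow]; exact pow_le_one₀ (abs_nonneg _) (hb θ h)
    have hic : DirInt fun _ : E n => (2 * s)⁻¹ :=
      .of_bounded measurable_const (B := |(2 * s)⁻¹|) fun _ _ => le_rfl
    refine (sphAvg_mono hi ((hi2.const_mul _).add hic) (by omega) fun θ _ => hle θ).trans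
      (le_of_eq ?_)
    rw [sphAvg_add (hi2.const_mul _) hic, sphAvg_const_mul, sphAvg_const, a1,
      ← Real.sq_sqrt hn0.le, ← hs]
    field_simp
    ring

/-- The centred moment `p` of the projection against those of the two Gaussian parts. -/
theorem proj_moment {p : ℕ} (hp : Even p) {es : List (E n)} (ho : Ortho es) (hlen : es.length < n) :
    sphAvg (fun θ => (sval es θ ^ 2 - 1) ^ p) * gmom n p ≤
      2 ^ (p - 1) * (((es.length : ℝ) / ((n : ℝ) - es.length)) ^ p *
          (∑ j ∈ Finset.range (p + 1), gmom ((n : ℝ) - es.length) j *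
            (-((n : ℝ) - es.length)) ^ (p - j) * p.choose j) +
        ∑ j ∈ Finset.range (p + 1), gmom es.length j *
          (-(es.length : ℝ)) ^ (p - j) * p.choose j) := by
  obtain ⟨Φ, hΦ, h2, hP⟩ := exists_split ho hlen.le
  have hm : (0 : ℝ) < (n : ℝ) - es.length := sub_pos.2 (by exact_mod_cast hlen)
  set k : ℝ := (es.length : ℝ) with hk
  set m : ℝ := (n : ℝ) - k with hmk
  have hn : 1 ≤ n := by omega
  have hc1 := card_head (n := n) hlen.le
  have hc2 : (Fintype.card {i : Fin n // ¬(i : ℕ) < es.length} : ℝ) = m := by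
    rw [card_tail hlen.le, Nat.cast_sub hlen.le]
  refine le_of_mul_le_mul_right ?_ (gz_pos (ι := Fin n))
  rw [mul_assoc, sphAvg_mul_gmom hn]
  have hpt : ∀ x : E n, (sval es (dir x) ^ 2 - 1) * ‖x‖ ^ 2 =
      k / m * (‖(Φ x).2‖ ^ 2 + -m) + -(‖(Φ x).1‖ ^ 2 + -k) := by
    intro x
    rcases eq_or_ne x 0 with rfl | hx
    · have := hP 0
      have e0 : ‖perp es (0 : E n)‖ = 0 := by
        simpa using le_antisymm (ho.norm_perp_le 0) (by simp)
      rw [h2, e0, norm_zero] at this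
      have e1 : ‖(Φ 0).1‖ ^ 2 = 0 := by linarith
      rw [h2, e0, e1, norm_zero]
      field_simp
      ring
    · have hx' := norm_ne_zero_iff.2 hx
      rw [sval, ← hk, ← hmk, div_pow, Real.sq_sqrt (div_nonneg hm.le (Nat.cast_nonneg n)), dir,
        perp_smul, norm_smul, mul_pow, norm_inv, norm_norm, ← h2]
      have := hP x
      have hn0 : (n : ℝ) ≠ 0 := by positivity
      field_simp
      rw [← this, show (n : ℝ) = k + m by rw [hmk]; ring]
      ring
  set u : E n → ℝ := fun x => (k / m) ^ p * ((‖(Φ x).2‖ ^ 2 + -m) ^ p * gw x) +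
    (‖(Φ x).1‖ ^ 2 + -k) ^ p * gw x
  have hprod := fun (F : EuclideanSpace ℝ {i : Fin n // (i : ℕ) < es.length} → ℝ)
    (G : EuclideanSpace ℝ {i : Fin n // ¬(i : ℕ) < es.length} → ℝ)
    (hF : Integrable fun y => F y * gw y) (hG : Integrable fun z => G z * gw z) =>
    (show Integrable fun x : E n => F (Φ x).1 * G (Φ x).2 * gw x from by
      refine ((hΦ.integrable_comp_emb Φ.measurableEmbedding).2 (hF.mul_prod hG)).congr
        (ae_of_all _ fun x => ?_)
      show F (Φ x).1 * gw (Φ x).1 * (G (Φ x).2 * gw (Φ x).2) = F (Φ x).1 * G (Φ x).2 * gw x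
      rw [gw_split hP x]; ring)
  have hg1 : ∀ {ι : Type} [Fintype ι], Integrable fun y : EuclideanSpace ℝ ι => (1 : ℝ) * gw y :=
    fun {ι} _ => by simpa using integrable_norm_pow_gw (ι := ι) 0
  have iA : Integrable fun x : E n => (‖(Φ x).2‖ ^ 2 + -m) ^ p * gw x := by
    simpa using hprod (fun _ => 1) _ hg1 (integrable_centred_gw p (-m))
  have iB : Integrable fun x : E n => (‖(Φ x).1‖ ^ 2 + -k) ^ p * gw x := by
    simpa using hprod _ (fun _ => 1) (integrable_centred_gw p (-k)) hg1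
  calc ∫ x : E n, (sval es (dir x) ^ 2 - 1) ^ p * ((‖x‖ ^ 2) ^ p * gw x)
      ≤ ∫ x : E n, 2 ^ (p - 1) * u x := by
        refine integral_mono_of_nonneg (ae_of_all _ fun x => ?_)
          (((iA.const_mul _).add iB).const_mul _) (ae_of_all _ fun x => ?_)
        · exact mul_nonneg (hp.pow_nonneg _) (mul_nonneg (by positivity) (Real.exp_pos _).le)
        · beta_reduce
          rw [← mul_assoc, ← mul_pow, hpt]
          refine (mul_le_mul_of_nonneg_right hp.add_pow_le
            (show 0 ≤ gw x from (Real.exp_pos _).le)).trans (le_of_eq ?_)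
          rw [hp.neg_pow, mul_pow]
          simp only [u]
          ring
    _ = _ := by
        have eA := integral_split hΦ hP (fun _ => 1) fun z => (‖z‖ ^ 2 + -m) ^ p
        have eB := integral_split hΦ hP (fun y => (‖y‖ ^ 2 + -k) ^ p) fun _ => 1
        simp only [one_mul, mul_one] at eA eB
        rw [integral_const_mul, integral_add (iA.const_mul _) iB, integral_const_mul, eA, eB,
          integral_centred_gw, integral_centred_gw, hc1, hc2, gz_split hΦ hP, ← gz, ← gz]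
        ring

/-- Moments of the squared length of the projection of a uniform direction. -/
theorem projMoments : ProjMoments := by
  refine ⟨386560, by norm_num, fun n es ho hlen => ?_⟩
  have h2 := proj_moment (p := 2) (by decide) ho hlen
  have h6 := proj_moment (p := 6) (by decide) ho hlen
  have hm1 : (1 : ℝ) ≤ (n : ℝ) - es.length := by
    rw [← Nat.cast_sub hlen.le]; exact_mod_cast (by omega : 1 ≤ n - es.length)
  set k : ℝ := (es.length : ℝ) with hk
  set m : ℝ := (n : ℝ) - k with hmk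
  have hk0 : 0 ≤ k := Nat.cast_nonneg _
  have hm0 : 0 < m := by linarith
  have hn : (n : ℝ) = k + m := by rw [hmk]; ring
  have hn0 : (0 : ℝ) < n := by linarith
  have sum2 : ∀ d : ℝ,
      ∑ j ∈ Finset.range (2 + 1), gmom d j * (-d) ^ (2 - j) * (Nat.choose 2 j : ℝ) = 2 * d := by
    intro d; simp [gmom, Finset.sum_range_succ, Finset.prod_range_succ]; ring
  have sum6 : ∀ d : ℝ, ∑ j ∈ Finset.range (6 + 1), gmom d j * (-d) ^ (6 - j) *
      (Nat.choose 6 j : ℝ) = 120 * d ^ 3 + 2080 * d ^ 2 + 3840 * d := by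
    intro d
    simp [gmom, Finset.sum_range_succ, Finset.prod_range_succ,
      show Nat.choose 6 2 = 15 from rfl, show Nat.choose 6 3 = 20 from rfl,
      show Nat.choose 6 4 = 15 from rfl]
    ring
  rw [sum2, sum2] at h2
  rw [sum6, sum6] at h6
  have g2 : (n : ℝ) ^ 2 ≤ gmom n 2 := by
    simp [gmom, Finset.prod_range_succ]; nlinarith
  have g6 : (n : ℝ) ^ 6 ≤ gmom n 6 := by
    calc (n : ℝ) ^ 6 = ∏ _i ∈ Finset.range 6, (n : ℝ) := by simp
      _ ≤ gmom n 6 := Finset.prod_le_prod (fun _ _ => hn0.le)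
          fun i _ => le_add_of_nonneg_right (by positivity)
  have hpow : ∀ d : ℝ, d = k ∨ d = m →
      120 * d ^ 3 + 2080 * d ^ 2 + 3840 * d ≤ 6040 * d ^ 3 := by
    intro d hd
    have : d = 0 ∨ 1 ≤ d := by
      rcases hd with rfl | rfl
      · rw [hk]; rcases Nat.eq_zero_or_pos es.length with h | h
        · simp [h]
        · exact .inr (by exact_mod_cast h)
      · exact .inr hm1
    rcases this with rfl | h
    · simp
    · nlinarith [mul_le_mul_of_nonneg_left h (sq_nonneg d),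
        mul_le_mul_of_nonneg_left h (zero_le_one.trans h)]
  constructor
  · have hA : 0 ≤ sphAvg fun θ => (sval es θ ^ 2 - 1) ^ 2 :=
      mul_nonneg (inv_nonneg.2 (kappa_pos n).le) (integral_nonneg fun x => sq_nonneg _)
    rw [le_div_iff₀ hm0]
    refine le_of_mul_le_mul_right (a := (n : ℝ) ^ 2) ?_ (by positivity)
    have key := ((mul_le_mul_of_nonneg_left g2 hA).trans h2).trans_eq
      (show _ = 4 * (k ^ 2 + k * m) / m by field_simp; ring)
    rw [le_div_iff₀ hm0] at key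
    nlinarith [mul_nonneg hk0 hm0.le]
  · have hA : 0 ≤ sphAvg fun θ => (sval es θ ^ 2 - 1) ^ 6 :=
      mul_nonneg (inv_nonneg.2 (kappa_pos n).le)
        (integral_nonneg fun x => (show Even 6 by decide).pow_nonneg _)
    rw [le_div_iff₀ (by positivity)]
    refine le_of_mul_le_mul_right (a := (n : ℝ) ^ 6) ?_ (by positivity)
    have key := ((mul_le_mul_of_nonneg_left g6 hA).trans h6).trans
      (show _ ≤ 2 ^ 5 * ((k / m) ^ 6 * (6040 * m ^ 3) + 6040 * k ^ 3) by
        norm_num only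
        gcongr
        · exact hpow m (.inr rfl)
        · exact hpow k (.inl rfl))
    have e : 2 ^ 5 * ((k / m) ^ 6 * (6040 * m ^ 3) + 6040 * k ^ 3) =
        193280 * (k ^ 6 + k ^ 3 * m ^ 3) / m ^ 3 := by field_simp; ring
    rw [e, le_div_iff₀ (by positivity)] at key
    have b1 : k ^ 6 ≤ (n : ℝ) ^ 6 := pow_le_pow_left₀ hk0 (by linarith) 6
    have b2 : k ^ 3 * m ^ 3 ≤ (n : ℝ) ^ 6 := by
      rw [show 6 = 3 + 3 from rfl, pow_add]
      gcongr <;> linarith
    linarith

end Vale.Agent.P237.Sharp
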