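import Vale.Agent.P237.Sharp.Defs
import Vale.Agent.P237.Asymp.ZonoEntropy

/-!
P237: the statements of the blocks of the sharp Petty inequality. The proof is
`notes/P237-sharp-helper3.md`.
-/

noncomputable section

open MeasureTheory Set
open scoped RealInnerProductSpace

namespace Vale.Agent.P237.Sharp

open Asymp

/-- The radial lemma: a test with a round part `a` costs only the squared gradient. -/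
def RadialTest : Prop :=
  ∀ (n N : ℕ) (w : Fin N → ℝ) (u : Fin N → E n) (δ a P B : ℝ) (h p g : E n → ℝ), 2 ≤ n →
    Tested δ w u → 0 < a → (∀ v, ‖v‖ = 1 → 0 ≤ h v) → Measurable p → Measurable g →
    (∀ θ, 0 ≤ p θ ∧ p θ ≤ P) → (∀ θ, 0 ≤ g θ ∧ g θ ≤ B) →
    (∀ θ v, ‖θ‖ = 1 → ‖v‖ = 1 → 0 < p θ →
      a * (1 - |⟪v, θ⟫|) + p θ * |⟪v, θ⟫| - g θ * √(1 - ⟪v, θ⟫ ^ 2) ≤ h v) →
    sphAvg p - 4 * (1 + P / a) / a * sphAvg (fun θ => g θ ^ 2) ≤ (1 + δ) * ∑ i, w i * h (u i)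

/-- Moments of a uniform direction. -/
def SphereMoments : Prop :=
  ∀ (n : ℕ) (v : E n), 2 ≤ n → ‖v‖ = 1 →
    sphAvg (fun θ => ⟪v, θ⟫ ^ 2) = (n : ℝ)⁻¹ ∧
    sphAvg (fun θ => ⟪v, θ⟫ ^ 4) = 3 / (n * (n + 2)) ∧
    sphAvg (fun θ => ⟪v, θ⟫ ^ 6) ≤ 15 / (n : ℝ) ^ 3 ∧
    sphAvg (fun θ => |⟪v, θ⟫|) = meanAbs n ∧
    √(2 / (Real.pi * n)) ≤ meanAbs n ∧ meanAbs n ≤ (√(n : ℝ))⁻¹

/-- Moments of the squared length of the projection of a uniform direction. -/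
def ProjMoments : Prop :=
  ∃ C : ℝ, 0 < C ∧ ∀ (n : ℕ) (es : List (E n)), Ortho es → es.length < n →
    sphAvg (fun θ => (sval es θ ^ 2 - 1) ^ 2) ≤ C / ((n : ℝ) - es.length) ∧
    sphAvg (fun θ => (sval es θ ^ 2 - 1) ^ 6) ≤ C / ((n : ℝ) - es.length) ^ 3

/-- The energy of a zonoid through the two kernels. -/
def GradKernel : Prop :=
  ∀ (n N : ℕ) (w : Fin N → ℝ) (u : Fin N → E n), 2 ≤ n → (∀ i, 0 ≤ w i) → ∑ i, w i = 1 →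
    (∀ i, ‖u i‖ = 1) → gradQ w u ≤ covDev w u + fourVal w u

/-- The higher part of the energy is small against the excess. -/
def FourBound : Prop :=
  ∃ C : ℝ, 0 < C ∧ ∀ (n N : ℕ) (w : Fin N → ℝ) (u : Fin N → E n) (δ M : ℝ), 10 ≤ n →
    Tested δ w u → (∀ e, ‖e‖ = 1 → ∑ i, w i * ⟪u i, e⟫ ^ 4 ≤ M) →
    fourVal w u ≤ C * δ * (n * M + (√(n : ℝ))⁻¹)

/-- The second and fourth moments of a tested measure. -/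
def MomentBound : Prop :=
  ∃ C : ℝ, 0 < C ∧ ∀ (n N : ℕ) (w : Fin N → ℝ) (u : Fin N → E n) (δ : ℝ), 10 ≤ n → Tested δ w u →
    (∀ L : ℝ, (∀ e, ‖e‖ = 1 → n * ∑ i, w i * ⟪u i, e⟫ ^ 2 ≤ L) →
      covDev w u ≤ C * δ * (1 + L)) ∧
    (∀ e, ‖e‖ = 1 → n * ∑ i, w i * ⟪u i, e⟫ ^ 2 ≤ C * (1 + n * δ)) ∧
    ∀ e, ‖e‖ = 1 → ∑ i, w i * ⟪u i, e⟫ ^ 4 ≤ C * (((n : ℝ) ^ 2)⁻¹ + δ)

/-- Petty's inequality with margin within `c / n` of the isoperimetric position of the ball. -/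
def LocalPetty : Prop :=
  ∃ c₀ γ : ℝ, 0 < c₀ ∧ 0 < γ ∧ ∃ n₀ : ℕ, ∀ (n N : ℕ) (c : Fin N → ℝ) (u : Fin N → E n) (δ : ℝ),
    n₀ ≤ n → FrameTested δ c u → n * δ ≤ c₀ → Gain γ δ c u

/-- The mean of what is left below dimension `m₀`. -/
def bottomLoss {n N : ℕ} (c : Fin N → ℝ) (u : Fin N → E n) (m₀ : ℕ) : ℝ :=
  tchain c u (n - m₀) [] fun es =>
    Real.log (kappa m₀ * (n / 2 * meanAbs n) ^ m₀) - Real.log (ZE.vol c u es)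

/-- The exact step inequality, compared with the ball. -/
def StepIneq : Prop :=
  ∃ C : ℝ, 0 < C ∧ ∀ (n N : ℕ) (c : Fin N → ℝ) (u : Fin N → E n) (m₀ : ℕ), 1 ≤ m₀ → m₀ ≤ n →
    Frame c u →
    Real.log (ballVol n) - Real.log (zonoVol c u) ≤
      n * (∑ i, c i / n * lossFun c u m₀ (u i) - sphAvg (lossFun c u m₀)) +
        C * (m₀ : ℝ) ^ (-(1 / 3) : ℝ) + bottomLoss c u m₀

/-- The tilted chain keeps the second moments. -/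
def SecondMoment : Prop :=
  ∃ C : ℝ, 0 < C ∧ ∀ (n N : ℕ) (c : Fin N → ℝ) (u : Fin N → E n) (k : ℕ) (h : E n), Frame c u →
    k < n →
    |tchain c u k [] (fun es => ‖perp es h‖ ^ 2) - (1 - (k : ℝ) / n) * ‖h‖ ^ 2| ≤
      C * ((n : ℝ) - k) ^ (-(1 / 3) : ℝ) * (1 - (k : ℝ) / n) * ‖h‖ ^ 2

/-- In good directions the tilted chain is concentrated. -/
def GoodVariance : Prop :=
  ∀ η ε : ℝ, 0 < η → 0 < ε → ∃ n₀ : ℕ, ∀ (n N : ℕ) (c : Fin N → ℝ) (u : Fin N → E n) (θ h : E n)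
    (k : ℕ), n₀ ≤ n → Frame c u → GoodDir c u θ → ‖h‖ = 1 → k ≤ n → η * n ≤ (n : ℝ) - k →
    tchain c u k [] (fun es => (⟪perp es θ, h⟫ - (1 - (k : ℝ) / n) * ⟪θ, h⟫) ^ 2) ≤ ε

/-- Almost all directions are good. -/
def GoodMost : Prop :=
  ∀ ε : ℝ, 0 < ε → ∃ n₀ : ℕ, ∀ (n N : ℕ) (c : Fin N → ℝ) (u : Fin N → E n), n₀ ≤ n → Frame c u →
    sphAvg ({θ | ¬GoodDir c u θ}.indicator fun _ => 1) ≤ ε / n

/-- The shape of the loss at a good direction. -/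
def LossShape : Prop :=
  ∃ γ : ℝ, 0 < γ ∧ γ ≤ 1 / 2 ∧ ∀ ε : ℝ, 0 < ε → ∃ n₀ : ℕ, ∀ (n N : ℕ) (c : Fin N → ℝ)
    (u : Fin N → E n) (m₀ : ℕ), n₀ ≤ n → Frame c u → 1 ≤ m₀ → m₀ ≤ n →
    ∃ G : E n → ℝ, Measurable G ∧ (∀ θ, 0 ≤ G θ ∧ G θ ≤ ε) ∧
      sphAvg (fun θ => G θ ^ 2) ≤ ε / n ∧
      ∀ θ, GoodDir c u θ → lossFun c u m₀ θ ≤ ε ∧ ∀ v, ‖v‖ = 1 →
        lossFun c u m₀ v ≤ lossFun c u m₀ θ + G θ * √(1 - ⟪v, θ⟫ ^ 2) +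
          (1 - γ) * (1 - |⟪v, θ⟫|)

/-- In a fixed dimension nothing is lost. -/
def BottomBound : Prop :=
  ∀ (m₀ : ℕ) (ε : ℝ), 1 ≤ m₀ → 0 < ε → ∃ δ₀ : ℝ, 0 < δ₀ ∧ ∃ n₀ : ℕ,
    ∀ (n N : ℕ) (c : Fin N → ℝ) (u : Fin N → E n) (δ : ℝ),
      n₀ ≤ n → FrameTested δ c u → δ ≤ δ₀ → bottomLoss c u m₀ ≤ ε * (1 + n * δ)

/-- Petty's inequality with margin down to any multiple of `1 / n`. -/
def GlobalPetty : Prop :=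
  ∀ c₀ : ℝ, 0 < c₀ → ∃ γ δ₀ : ℝ, 0 < γ ∧ 0 < δ₀ ∧ ∃ n₀ : ℕ,
    ∀ (n N : ℕ) (c : Fin N → ℝ) (u : Fin N → E n) (δ : ℝ),
      n₀ ≤ n → FrameTested δ c u → c₀ ≤ n * δ → δ ≤ δ₀ → Gain γ δ c u

/-- Petty's inequality for frames of small excess. -/
def FramePetty : Prop :=
  ∃ γ δ₀ : ℝ, 0 < γ ∧ 0 < δ₀ ∧ ∃ n₀ : ℕ,
    ∀ (n N : ℕ) (c : Fin N → ℝ) (u : Fin N → E n) (δ : ℝ),
      n₀ ≤ n → FrameTested δ c u → δ ≤ δ₀ → Gain γ δ c u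

end Vale.Agent.P237.Sharp
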