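import Vale.Agent.P237.Sharp.Avg
import Vale.Agent.P237.Asymp.Exact
import Vale.Agent.P237.Asymp.ExactPosition
import Vale.Agent.P237.Asymp.StepBound
import Vale.Agent.P237.Asymp.GoodSet
import Vale.Agent.P237.Asymp.Chain

/-!
P237: from frames to polytopes. In exact position the frame of a polytope is tested with its
isoperimetric excess as `δ`.
-/

noncomputable section

open MeasureTheory Set Matrix Filter
open scoped RealInnerProductSpace ENNReal Topology

namespace Vale.Agent.P237.Sharp

open Asymp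

variable {n N : ℕ}

/-- The radius normalising the surface area. -/
def refRadius (v : Fin N → E n) : ℝ :=
  (kappa n * (volume (Poly v fun _ => 1)).toReal ^ (n - 1)) ^ ((n : ℝ)⁻¹)

/-- Isotropy makes a position minimal. -/
lemma frame_length_le {c : Fin N → ℝ} {u : Fin N → E n} (hF : Frame c u)
    (M : Matrix (Fin n) (Fin n) ℝ) (hM : |M.det| = 1) :
    (n : ℝ) ≤ ∑ i, c i * ‖toEuclideanLin M (u i)‖ := by
  set L := toEuclideanLin M with hLdef
  set A := LinearMap.adjoint L ∘ₗ L with hA
  have hpos : A.IsPositive := LinearMap.isPositive_adjoint_comp_self L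
  have hsym : A.IsSymmetric := hpos.isSymmetric
  have hn : Module.finrank ℝ (E n) = n := finrank_euclideanSpace_fin
  set b := hsym.eigenvectorBasis hn with hb
  set l := hsym.eigenvalues hn with hl
  have hl0 : ∀ k, 0 ≤ l k := hpos.nonneg_eigenvalues hn
  have hAA : ∀ x, ‖L x‖ ^ 2 = ∑ k, l k * ⟪b k, x⟫ ^ 2 := by
    intro x
    have h1 : ⟪x, A x⟫ = ‖L x‖ ^ 2 := by
      rw [hA, LinearMap.comp_apply, LinearMap.adjoint_inner_right, real_inner_self_eq_norm_sq]
    rw [← h1, ← b.sum_inner_mul_inner x (A x)]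
    refine Finset.sum_congr rfl fun k _ => ?_
    rw [← hsym (b k) x, hb, hsym.apply_eigenvectorBasis, real_inner_smul_left, real_inner_comm x]
    simp only [hl, RCLike.ofReal_real_eq_id, id_eq]
    ring
  have hdet : ∏ k, l k = 1 := by
    have h1 : LinearMap.det A = 1 := by
      rw [hA, LinearMap.det_comp, hLdef, ← toEuclideanLin_conjTranspose_eq_adjoint,
        conjTranspose_eq_transpose_of_trivial, det_toEuclideanLin, det_toEuclideanLin, det_transpose,
        ← sq, ← sq_abs, hM, one_pow]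
    rw [← h1, hsym.det_eq_prod_eigenvalues hn]
    simp [hl]
  have hlp : ∀ k, 0 < l k := fun k => (hl0 k).lt_of_ne fun h => by
    rw [Finset.prod_eq_zero (Finset.mem_univ k) h.symm] at hdet; exact one_ne_zero hdet.symm
  have hlen : ∀ i, ∑ k, √(l k) * ⟪b k, u i⟫ ^ 2 ≤ ‖L (u i)‖ := by
    intro i
    refine le_of_pow_le_pow_left₀ two_ne_zero (norm_nonneg _) ?_
    have hp : ∑ k, ⟪b k, u i⟫ ^ 2 = 1 := by
      rw [b.sum_sq_inner_right, hF.2.1, one_pow]
    rw [hAA]
    have := Finset.sum_sq_le_sum_mul_sum_of_sq_le_mul Finset.univ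
      (r := fun k => √(l k) * ⟪b k, u i⟫ ^ 2) (f := fun k => l k * ⟪b k, u i⟫ ^ 2)
      (g := fun k => ⟪b k, u i⟫ ^ 2) (fun k _ => mul_nonneg (hl0 k) (sq_nonneg _))
      (fun k _ => sq_nonneg _) fun k _ => le_of_eq (by rw [mul_pow, Real.sq_sqrt (hl0 k)]; ring)
    rwa [hp, mul_one] at this
  refine le_trans ?_ (Finset.sum_le_sum fun i _ => mul_le_mul_of_nonneg_left (hlen i) (hF.1 i))
  simp only [Finset.mul_sum]
  rw [Finset.sum_comm]
  have hk : ∀ k, ∑ i, c i * (√(l k) * ⟪b k, u i⟫ ^ 2) = √(l k) := by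
    intro k
    have h := hF.sum_sq (b k)
    simp only [real_inner_comm (b k)] at h
    rw [b.orthonormal.1 k, one_pow] at h
    simp only [mul_left_comm _ (√(l k)), ← Finset.mul_sum, h, mul_one]
  simp only [hk]
  have h1 : ∑ k, (1 + Real.log √(l k)) ≤ ∑ k, √(l k) := Finset.sum_le_sum fun k _ => by
    linarith [Real.log_le_sub_one_of_pos (Real.sqrt_pos.2 (hlp k))]
  rw [Finset.sum_add_distrib, ← Real.log_prod (fun k _ => (Real.sqrt_pos.2 (hlp k)).ne'),
    ← Real.sqrt_prod _ (fun k _ => hl0 k), hdet] at h1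
  simpa using h1

/-- In exact position a polytope gives a tested frame. -/
theorem polytope_frame (hn : 2 ≤ n) (v : Fin N → E n) (hv : Function.Injective v)
    (hb : Bornology.IsBounded (Poly v fun _ => 1)) :
    ∃ (T : Matrix (Fin n) (Fin n) ℝ) (s δ : ℝ) (c : Fin N → ℝ) (u : Fin N → E n),
      |T.det| = 1 ∧ ∑ i, coneVol v i * ‖toEuclideanLin T (v i)‖ = s ∧
      s = (1 + δ) * refRadius v ∧ FrameTested δ c u ∧
      (∀ S : Matrix (Fin n) (Fin n) ℝ, |S.det| = 1 →
        s ≤ ∑ i, coneVol v i * ‖toEuclideanLin S (v i)‖) ∧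
      s ^ n * zonoVol c u ≤ (volume (projBody (Poly v fun _ => 1))).toReal := by
  have hn0 : 0 < n := by omega
  have hnR : (0 : ℝ) < n := by exact_mod_cast hn0
  set K := Poly v fun _ => 1 with hKdef
  have hV0 : ∀ i, 0 ≤ coneVol v i := fun i => ENNReal.toReal_nonneg
  have hKi : (interior K).Nonempty := by
    refine ⟨0, mem_interior.2 ⟨⋂ i, {x | ⟪v i, x⟫ < 1}, fun x hx i => (mem_iInter.1 hx i).le,
      isOpen_iInter_of_finite fun i => isOpen_lt (by fun_prop) continuous_const, by simp⟩⟩
  have hKvol : 0 < (volume K).toReal :=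
    ENNReal.toReal_pos (Measure.measure_pos_of_nonempty_interior volume hKi).ne'
      hb.measure_lt_top.ne
  have hKc : IsCompact K := Metric.isCompact_of_isClosed_isBounded (isClosed_Poly _ _) hb
  set a : Fin N → E n := fun i => ((n : ℝ) * coneVol v i) • v i with ha
  have hsub : zono a ⊆ projBody K := by
    rintro z ⟨l, hl, rfl⟩ w hw
    have h1 := (prismBound n N v w hn0 hv hb).trans (shadowBound n K w hKc (convex_Poly _ _) hw)
    rw [ENNReal.ofReal_le_ofReal_iff (projArea_nonneg _ _)] at h1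
    refine le_trans ?_ h1
    rw [sum_inner]
    refine Finset.sum_le_sum fun i _ => ?_
    have hli := hl i (mem_univ i)
    simp only [a, real_inner_smul_left]
    have hc : 0 ≤ (n : ℝ) * coneVol v i := mul_nonneg (by positivity) (hV0 i)
    exact (mul_le_mul_of_nonneg_left (mul_le_mul_of_nonneg_left (le_max_left _ (0 : ℝ)) hc)
      hli.1).trans (mul_le_of_le_one_left (mul_nonneg hc (le_max_right _ _)) hli.2)
  obtain ⟨T, s, hT, hs, hsum, hframe⟩ :=
    exactPosition n N a hn0 (fun y hy => spanning hn0 v hv hb hKvol y hy)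
  set y := fun i => toEuclideanLin T (v i) with hy
  set b := fun i => toEuclideanLin T (a i) with hbdef
  have hb_eq : ∀ i, b i = ((n : ℝ) * coneVol v i) • y i := fun i => map_smul _ _ _
  have hbn : ∀ i, ‖b i‖ = (n : ℝ) * coneVol v i * ‖y i‖ := fun i => by
    rw [hb_eq, norm_smul, Real.norm_of_nonneg (mul_nonneg (by positivity) (hV0 i))]
  set e₀ : E n := EuclideanSpace.single ⟨0, hn0⟩ 1
  set u := fun i => if y i = 0 then e₀ else ‖y i‖⁻¹ • y i with hu
  have hyu : ∀ i, y i = ‖y i‖ • u i := fun i => by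
    rcases eq_or_ne (y i) 0 with h0 | h0
    · simp [h0]
    · rw [hu]; simp only [if_neg h0]; rw [smul_inv_smul₀ (norm_ne_zero_iff.2 h0)]
  have hu1 : ∀ i, ‖u i‖ = 1 := fun i => by
    rcases eq_or_ne (y i) 0 with h0 | h0
    · simp [hu, h0, e₀]
    · simp [hu, h0, norm_smul]
  set c := fun i => ‖b i‖ / s with hc
  have hcu : ∀ i, b i = s • (c i • u i) := fun i => by
    rw [smul_smul, hc, mul_div_cancel₀ _ hs.ne', hbn, mul_smul, ← hyu, hb_eq]
  have hF : Frame c u := by
    refine ⟨fun i => by positivity, hu1, fun x => ?_⟩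
    have hterm : ∀ i, (‖b i‖⁻¹ * ⟪b i, x⟫) • b i = s • ((c i * ⟪u i, x⟫) • u i) := fun i => by
      rcases eq_or_ne (b i) 0 with h0 | h0
      · simp [hc, h0]
      · have hb0 : ‖b i‖ ≠ 0 := norm_ne_zero_iff.2 h0
        rw [hcu i, real_inner_smul_left, real_inner_smul_left, ← hcu i]
        nth_rw 2 [hcu i]
        simp only [smul_smul]
        congr 1
        rw [hc]
        field_simp
    have h := hframe x
    rw [Finset.sum_congr rfl fun i _ => hterm i, ← Finset.smul_sum] at h
    exact smul_right_injective (E n) hs.ne' h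
  have hsV : ∑ i, coneVol v i * ‖y i‖ = s := by
    have h : ∑ i, ‖b i‖ = n * s := hsum
    simp only [hbn, mul_assoc, ← Finset.mul_sum] at h
    exact mul_left_cancel₀ hnR.ne' h
  have hcy : ∀ i, coneVol v i * ‖y i‖ = s * (c i / n) := fun i => by
    simp only [hc, hbn]; field_simp
  -- the Minkowski test
  set r₀ := refRadius v with hr₀def
  have hKn : 0 < kappa n * (volume K).toReal ^ (n - 1) := mul_pos (kappa_pos n) (pow_pos hKvol _)
  have hr₀ : r₀ ^ n = kappa n * (volume K).toReal ^ (n - 1) :=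
    Real.rpow_inv_natCast_pow hKn.le (by omega)
  have hr₀pos : 0 < r₀ := Real.rpow_pos_of_pos hKn _
  have htest : ∀ (h : Fin N → ℝ) (L : Set (E n)), (∀ i, 0 ≤ h i) → IsCompact L → Convex ℝ L →
      (0 : E n) ∈ L → L ⊆ Poly u h →
      (volume L).toReal * (volume K).toReal ^ (n - 1) ≤ (s * ∑ i, c i / n * h i) ^ n := by
    intro h L hh hLc hLx hL0 hL
    have hL' : toEuclideanLin Tᵀ '' L ⊆ Poly v fun i => ‖y i‖ * h i := by
      rintro _ ⟨x, hx, rfl⟩ i
      rw [inner_toEuclideanLin_transpose]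
      change ⟪y i, x⟫ ≤ _
      rw [hyu i, real_inner_smul_left]
      exact mul_le_mul_of_nonneg_left (hL hx i) (norm_nonneg _)
    have hm := minkowskiFirst n N v (fun i => ‖y i‖ * h i) (toEuclideanLin Tᵀ '' L) hn0 hv hb
      (fun i => mul_nonneg (norm_nonneg _) (hh i))
      (hLc.image (LinearMap.continuous_of_finiteDimensional _)) (hLx.linear_image _)
      ⟨0, hL0, map_zero _⟩ hL'
    rw [volume_image_toEuclideanLin (by rwa [det_transpose])] at hm
    refine hm.trans_eq ?_
    congr 1
    rw [Finset.mul_sum]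
    exact Finset.sum_congr rfl fun i _ => by rw [← mul_assoc, hcy, mul_assoc]
  have hw1 : ∑ i, c i / n = 1 := by rw [← Finset.sum_div, hF.sum_weight, div_self hnR.ne']
  have hrs : r₀ ≤ s := by
    refine (pow_le_pow_iff_left₀ hr₀pos.le hs.le hn0.ne').1 ?_
    have h := htest (fun _ => 1) (Metric.closedBall 0 1) (fun _ => zero_le_one)
      (isCompact_closedBall _ _) (convex_closedBall _ _) (by simp)
      (fun x hx i => (real_inner_le_norm _ _).trans (by
        rw [hu1, one_mul]; exact mem_closedBall_zero_iff.1 hx))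
    simp only [mul_one, hw1, volume_real_closedBall] at h
    rwa [hr₀]
  set δ := s / r₀ - 1 with hδ
  have hsδ : s = (1 + δ) * r₀ := by rw [hδ]; field_simp; ring
  refine ⟨T, s, δ, c, u, hT, hsV, hsδ, ⟨hF, ?_, fun i => div_nonneg (hF.1 i) hnR.le, hu1, hw1,
    fun h L hh hLc hLx hL0 hL => ?_⟩, fun S hS => ?_, ?_⟩
  · rw [hδ, sub_nonneg, one_le_div hr₀pos]; exact hrs
  · refine le_of_mul_le_mul_right ?_ (pow_pos hKvol (n - 1))
    refine (htest h L hh hLc hLx hL0 hL).trans_eq ?_
    rw [hsδ, mul_comm (1 + δ) r₀, mul_assoc r₀, mul_pow, hr₀]; ring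
  · -- minimality of the position
    have hTdet : T.det ≠ 0 := fun h => by rw [h, abs_zero] at hT; exact zero_ne_one hT
    have hLdet : |(S * T⁻¹).det| = 1 := by
      rw [det_mul, abs_mul, hS, Matrix.det_nonsing_inv, Ring.inverse_eq_inv', abs_inv, hT, inv_one,
        mul_one]
    set L := toEuclideanLin (S * T⁻¹) with hLdef
    have hLy : ∀ i, toEuclideanLin S (v i) = ‖y i‖ • L (u i) := fun i => by
      rw [← map_smul, ← hyu, hy, hLdef]
      simp only [toEuclideanLin_mul_apply, mul_assoc,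
        Matrix.nonsing_inv_mul _ (isUnit_iff_ne_zero.2 hTdet), mul_one]
    have h := mul_le_mul_of_nonneg_left (frame_length_le hF (S * T⁻¹) hLdet) (div_nonneg hs.le hnR.le)
    rw [div_mul_cancel₀ _ hnR.ne', Finset.mul_sum] at h
    refine h.trans_eq (Finset.sum_congr rfl fun i _ => ?_)
    rw [hLy, norm_smul, Real.norm_of_nonneg (norm_nonneg _), ← mul_assoc (coneVol v i), hcy]
    ring
  · have hz : volume (zono a) = ENNReal.ofReal (s ^ n) * volume (zono fun i => c i • u i) := by
      have h1 := Measure.addHaar_smul_of_nonneg (volume : Measure (E n)) hs.le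
        (zono fun i => c i • u i)
      rw [finrank_euclideanSpace_fin] at h1
      rw [← h1, ← volume_image_toEuclideanLin hT (zono a), image_zono, ← Set.image_smul]
      change _ = volume (⇑(s • (LinearMap.id : E n →ₗ[ℝ] E n)) '' zono fun i => c i • u i)
      rw [image_zono]
      exact congrArg (fun f => volume (zono f)) (funext hcu)
    have h := ENNReal.toReal_mono (isBounded_projBody K).measure_lt_top.ne (measure_mono (μ := volume) hsub)
    rwa [hz, ENNReal.toReal_mul, ENNReal.toReal_ofReal (pow_nonneg hs.le n)] at h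

end Vale.Agent.P237.Sharp
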