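import Vale.Agent.P237.Sharp.Avg

/-!
P237: polar coordinates for the spherical average, and the radial lemma. A convex set defined by
the support bounds `h` contains the star body whose radius is `p` less the squared gradient cost.
-/

noncomputable section

open MeasureTheory Set Metric
open scoped RealInnerProductSpace

namespace Vale.Agent.P237.Sharp

variable {n N : ℕ}

/-- The spherical average, on the sphere. -/
def sphI (f : E n → ℝ) : ℝ := ∫ θ : sphere (0 : E n) 1, f θ ∂(volume : Measure (E n)).toSphere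

/-- Integrals of a function of the direction times a function of the length split. -/
theorem integral_dir_norm_split (hn : 1 ≤ n) (f : E n → ℝ) (φ : ℝ → ℝ) :
    ∫ x : E n, f (dir x) * φ ‖x‖ =
      sphI f * ∫ r : Ioi (0 : ℝ), φ r ∂Measure.volumeIoiPow (n - 1) := by
  have : Nonempty (Fin n) := ⟨⟨0, hn⟩⟩
  calc ∫ x : E n, f (dir x) * φ ‖x‖
      = ∫ x : ({(0 : E n)}ᶜ : Set (E n)), f (dir x) * φ ‖x.1‖
          ∂((volume : Measure (E n)).comap (↑)) := by
        rw [integral_subtype_comap (measurableSet_singleton _).compl fun x => f (dir x) * φ ‖x‖,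
          restrict_compl_singleton]
    _ = ∫ q : sphere (0 : E n) 1 × Ioi (0 : ℝ), f q.1 * φ q.2
          ∂((volume : Measure (E n)).toSphere.prod
            (Measure.volumeIoiPow (Module.finrank ℝ (E n) - 1))) := by
        simpa [dir] using (volume : Measure (E n)).measurePreserving_homeomorphUnitSphereProd.integral_comp
          (Homeomorph.measurableEmbedding _)
          (fun q : sphere (0 : E n) 1 × Ioi (0 : ℝ) => f q.1 * φ q.2)
    _ = _ := by
        rw [finrank_euclideanSpace_fin,
          integral_prod_mul (fun θ : sphere (0 : E n) 1 => f θ) (fun r : Ioi (0 : ℝ) => φ r)]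
        rfl

theorem sphI_const (hn : 1 ≤ n) (a : ℝ) : sphI (fun _ : E n => a) = n * kappa n * a := by
  have : Nonempty (Fin n) := ⟨⟨0, hn⟩⟩
  rw [sphI, integral_const, Measure.toSphere_real_apply_univ, finrank_euclideanSpace_fin,
    smul_eq_mul, measureReal_def]
  rfl

theorem sphI_eq (hn : 1 ≤ n) (f : E n → ℝ) : sphI f = n * kappa n * sphAvg f := by
  have h : ∀ g : E n → ℝ, ∫ x in closedBall (0 : E n) 1, g (dir x) =
      sphI g * ∫ r : Ioi (0 : ℝ), (Iic 1).indicator (fun _ => (1 : ℝ)) (r : ℝ) ∂Measure.volumeIoiPow (n - 1) := by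
    intro g
    rw [← integral_dir_norm_split hn, ← integral_indicator measurableSet_closedBall]
    congr 1
    funext x
    by_cases hx : ‖x‖ ≤ 1 <;> simp [indicator, hx]
  have h1 := h fun _ => 1
  rw [setIntegral_const, sphI_const hn, measureReal_def, volume_real_closedBall, smul_eq_mul,
    mul_one, mul_one] at h1
  set I := ∫ r : Ioi (0 : ℝ), (Iic 1).indicator (fun _ => (1 : ℝ)) (r : ℝ) ∂Measure.volumeIoiPow (n - 1)
  have hk := kappa_pos n
  have hI : (n : ℝ) * I = 1 :=
    mul_left_cancel₀ hk.ne' (by linarith [show (n : ℝ) * kappa n * I = kappa n * (n * I) by ring])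
  rw [sphAvg, h]
  calc sphI f = sphI f * (n * I) := by rw [hI, mul_one]
    _ = _ := by field_simp

/-- Integrals of a function of the direction times a function of the length. -/
theorem integral_dir_norm (hn : 1 ≤ n) (f : E n → ℝ) (φ : ℝ → ℝ) :
    ∫ x : E n, f (dir x) * φ ‖x‖ = sphAvg f * ∫ x : E n, φ ‖x‖ := by
  have h := integral_dir_norm_split hn (fun _ => 1) φ
  simp only [one_mul, sphI_const hn, mul_one] at h
  rw [integral_dir_norm_split hn, sphI_eq hn, h]
  ring

/-- The star body of radius `ρ` has at least the volume of the ball of the mean radius. -/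
theorem kappa_mul_pow_le_star (hn : 1 ≤ n) {ρ : E n → ℝ} (hm : Measurable ρ) {P : ℝ}
    (h0 : ∀ v, 0 ≤ ρ v) (hP : ∀ v, ρ v ≤ P) :
    kappa n * sphAvg ρ ^ n ≤ (volume {x : E n | x ≠ 0 ∧ ‖x‖ < ρ (dir x)}).toReal := by
  have : Nonempty (Fin n) := ⟨⟨0, hn⟩⟩
  set σ := (volume : Measure (E n)).toSphere
  set S := {q : sphere (0 : E n) 1 × Ioi (0 : ℝ) | (q.2 : ℝ) < ρ q.1} with hS
  have hSm : MeasurableSet S :=
    measurableSet_lt (measurable_subtype_coe.comp measurable_snd)
      (hm.comp (measurable_subtype_coe.comp measurable_fst))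
  have hslice : ∀ θ : sphere (0 : E n) 1,
      Measure.volumeIoiPow (n - 1) (Prod.mk θ ⁻¹' S) = ENNReal.ofReal (ρ θ ^ n / n) := by
    intro θ
    rcases (h0 (θ : E n)).eq_or_lt with h | h
    · have : Prod.mk θ ⁻¹' S = ∅ := by
        ext r
        simpa [hS, ← h] using (r.2.out).le
      rw [this, measure_empty, ← h, zero_pow (by omega), zero_div, ENNReal.ofReal_zero]
    · rw [show Prod.mk θ ⁻¹' S = Iio (⟨ρ θ, h⟩ : Ioi (0 : ℝ)) from rfl,
        Measure.volumeIoiPow_apply_Iio, Nat.sub_add_cancel hn]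
      congr 2
      exact_mod_cast Nat.sub_add_cancel hn
  have hmρ : Measurable fun θ : sphere (0 : E n) 1 => ρ θ := hm.comp measurable_subtype_coe
  have hb : ∀ θ : sphere (0 : E n) 1, ρ θ ^ n ≤ P ^ n := fun θ =>
    pow_le_pow_left₀ (h0 _) (hP _) n
  have hint : Integrable (fun θ : sphere (0 : E n) 1 => ρ θ ^ n / n) σ :=
    .of_bound ((hmρ.pow_const n).div_const _).aestronglyMeasurable (P ^ n / n)
      (ae_of_all _ fun θ => by
        rw [Real.norm_eq_abs, abs_of_nonneg (div_nonneg (pow_nonneg (h0 _) _) (Nat.cast_nonneg n))]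
        exact div_le_div_of_nonneg_right (hb θ) (Nat.cast_nonneg n))
  have hvol : volume {x : E n | x ≠ 0 ∧ ‖x‖ < ρ (dir x)} =
      ENNReal.ofReal (∫ θ, ρ θ ^ n / n ∂σ) := by
    rw [ofReal_integral_eq_lintegral_ofReal hint
      (ae_of_all _ fun θ => div_nonneg (pow_nonneg (h0 _) _) (Nat.cast_nonneg n))]
    calc volume {x : E n | x ≠ 0 ∧ ‖x‖ < ρ (dir x)}
        = (volume : Measure (E n)).comap Subtype.val (homeomorphUnitSphereProd (E n) ⁻¹' S) := by
          rw [comap_subtype_coe_apply (measurableSet_singleton _).compl]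
          congr 1
          ext x
          simp [hS, dir, and_comm]
      _ = (σ.prod (Measure.volumeIoiPow (n - 1))) S := by
          have h := (volume : Measure (E n)).measurePreserving_homeomorphUnitSphereProd
          rw [finrank_euclideanSpace_fin] at h
          exact h.measure_preimage hSm.nullMeasurableSet
      _ = _ := by rw [Measure.prod_apply hSm]; simp only [hslice]
  rw [hvol, ENNReal.toReal_ofReal
    (integral_nonneg fun θ => div_nonneg (pow_nonneg (h0 _) _) (Nat.cast_nonneg n))]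
  -- the tangent line at the mean
  set M := sphAvg ρ
  have hM : 0 ≤ M := mul_nonneg (inv_nonneg.2 (kappa_pos n).le)
    (integral_nonneg fun x => h0 _)
  have hnR : (0 : ℝ) < n := by exact_mod_cast hn
  have key : ∀ r : ℝ, 0 ≤ r → M ^ n + n * M ^ (n - 1) * (r - M) ≤ r ^ n := by
    intro r hr
    rcases hM.eq_or_lt with h | h
    · rcases Nat.lt_or_ge 1 n with h2 | h2
      · simp [← h, zero_pow (show n - 1 ≠ 0 by omega), zero_pow (show n ≠ 0 by omega),
          pow_nonneg hr n]
      · obtain rfl : n = 1 := by omega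
        simp [← h]
    · have hb' := one_add_mul_le_pow (show -2 ≤ r / M - 1 by linarith [div_nonneg hr h.le]) n
      rw [add_sub_cancel, div_pow, le_div_iff₀ (pow_pos h n)] at hb'
      refine le_trans (le_of_eq ?_) hb'
      rw [← mul_pow_sub_one (show n ≠ 0 by omega) M]
      field_simp
  have hi0 : Integrable (fun θ : sphere (0 : E n) 1 => ρ θ) σ :=
    .of_bound hmρ.aestronglyMeasurable P (ae_of_all _ fun θ => by
      rw [Real.norm_eq_abs, abs_of_nonneg (h0 _)]; exact hP _)
  have hI : ∫ θ, ρ θ ∂σ = n * kappa n * M := sphI_eq hn ρ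
  refine le_trans (le_of_eq ?_) (integral_mono
    (((integrable_const (M ^ n)).add (((hi0.sub (integrable_const M)).const_mul
      ((n : ℝ) * M ^ (n - 1))))).div_const (n : ℝ)) hint
    fun θ => div_le_div_of_nonneg_right (key _ (h0 _)) hnR.le)
  have hc : ∀ a : ℝ, ∫ _θ, a ∂σ = n * kappa n * a := sphI_const hn
  have h1 : Integrable (fun θ : sphere (0 : E n) 1 => (n : ℝ) * M ^ (n - 1) * (ρ θ - M)) σ :=
    (hi0.sub (integrable_const M)).const_mul _
  simp only [Pi.add_apply, Pi.sub_apply]
  rw [integral_div, integral_add (integrable_const (M ^ n)) h1, integral_const_mul,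
    integral_sub hi0 (integrable_const M), hc, hc, hI]
  field_simp
  ring

/-- The radial lemma. -/
theorem radialTest : RadialTest := by
  intro n N w u δ a P B h p g hn hT ha hh hpm hgm hp hg hcov
  obtain ⟨hδ, hw, hu, -, htest⟩ := hT
  set C := 4 * (1 + P / a) / a with hC
  have hP : 0 ≤ P := (hp 0).1.trans (hp 0).2
  have hC0 : 0 ≤ C := by positivity
  set ρ : E n → ℝ := fun v => max 0 (p v - C * g v ^ 2) with hρ
  have hρm : Measurable ρ := measurable_const.max (hpm.sub ((hgm.pow_const 2).const_mul C))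
  have hρ0 : ∀ v, 0 ≤ ρ v := fun v => le_max_left _ _
  have hρP : ∀ v, ρ v ≤ P := fun v =>
    max_le hP (by linarith [(hp v).2, mul_nonneg hC0 (sq_nonneg (g v))])
  -- the star body lies in the set of the bounds
  have hmain : ∀ θ v : E n, ‖θ‖ = 1 → ‖v‖ = 1 → ρ θ * ⟪v, θ⟫ ≤ h v := by
    intro θ v hθ hv
    set t := |⟪v, θ⟫| with ht
    have ht0 : 0 ≤ t := abs_nonneg _
    have ht1 : t ≤ 1 := (abs_real_inner_le_norm v θ).trans (by rw [hv, hθ, mul_one])
    refine (mul_le_mul_of_nonneg_left (le_abs_self _) (hρ0 θ)).trans ?_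
    rcases le_or_gt (p θ - C * g θ ^ 2) 0 with hle | hlt
    · simp [hρ, max_eq_left hle, hh v hv]
    have hp0 : 0 < p θ := by nlinarith [mul_nonneg hC0 (sq_nonneg (g θ))]
    refine le_trans ?_ (hcov θ v hθ hv hp0)
    rw [← sq_abs ⟪v, θ⟫, ← ht, hρ]
    simp only [max_eq_right hlt.le]
    suffices g θ * √(1 - t ^ 2) ≤ a * (1 - t) + C * g θ ^ 2 * t by nlinarith
    set d := 1 - t with hd
    have hd0 : 0 ≤ d := by linarith
    set z := √(1 - t ^ 2)
    have hz : z ^ 2 ≤ 2 * d := by
      rw [Real.sq_sqrt (by nlinarith), hd]; nlinarith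
    have hz0 : 0 ≤ z := Real.sqrt_nonneg _
    have hg0 : 0 ≤ g θ := (hg θ).1
    have hCa : 4 ≤ C * a := by
      rw [hC, div_mul_cancel₀ _ ha.ne']; linarith [div_nonneg hP ha.le]
    rcases le_or_gt (1 / 4) t with h4 | h4
    · -- near: arithmetic and geometric means
      have h1 : a * (g θ * z) ≤ a * (a * d) + g θ ^ 2 := by
        nlinarith [sq_nonneg (a * z - g θ), mul_le_mul_of_nonneg_left hz (sq_nonneg a),
          mul_nonneg (sq_nonneg a) hd0, sq_nonneg (g θ)]
      have h2 : g θ ^ 2 ≤ a * (C * g θ ^ 2 * t) := by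
        have : 1 ≤ C * a * t := by nlinarith
        nlinarith [mul_le_mul_of_nonneg_left this (sq_nonneg (g θ))]
      exact le_of_mul_le_mul_left (by linarith) ha
    · -- far: the gradient is small against `a`
      have hga : g θ ≤ a / 2 := by
        have h1 : C * g θ ^ 2 ≤ P := by linarith [(hp θ).2]
        have h2 : 4 * (a + P) * g θ ^ 2 ≤ P * a ^ 2 := by
          have : C * g θ ^ 2 * a ^ 2 = 4 * (a + P) * g θ ^ 2 := by rw [hC]; field_simp
          nlinarith [mul_le_mul_of_nonneg_right h1 (sq_nonneg a)]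
        have h3 : (2 * g θ) ^ 2 ≤ a ^ 2 := by nlinarith [mul_nonneg ha.le (sq_nonneg (g θ))]
        have := abs_le_of_sq_le_sq h3 ha.le
        rw [abs_of_nonneg (by linarith : 0 ≤ 2 * g θ)] at this
        linarith
      have hzd : z ≤ 2 * d := by nlinarith
      have : g θ * z ≤ a * d := by
        calc g θ * z ≤ a / 2 * (2 * d) := mul_le_mul hga hzd hz0 (by linarith)
          _ = _ := by ring
      linarith [mul_nonneg (mul_nonneg hC0 (sq_nonneg (g θ))) ht0]
  set L : Set (E n) := closedBall 0 P ∩ Poly u fun i => h (u i) with hL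
  have hPoly : Poly u (fun i => h (u i)) = ⋂ i, {x : E n | ⟪u i, x⟫ ≤ h (u i)} := by
    ext x; simp [Poly]
  have hLK : IsCompact L := (isCompact_closedBall 0 P).inter_right (by
    rw [hPoly]; exact isClosed_iInter fun i => isClosed_le (by fun_prop) continuous_const)
  have hLC : Convex ℝ L := (convex_closedBall 0 P).inter (by
    rw [hPoly]
    exact convex_iInter fun i => convex_halfSpace_le
      ⟨fun x y => inner_add_right _ _ _, fun c x => real_inner_smul_right _ _ _⟩ _)
  have hL0 : (0 : E n) ∈ L := ⟨mem_closedBall_self hP, fun i => by simpa using hh _ (hu i)⟩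
  have hstar : {x : E n | x ≠ 0 ∧ ‖x‖ < ρ (dir x)} ⊆ L := by
    rintro x ⟨hx0, hx⟩
    refine ⟨mem_closedBall_zero_iff.2 (hx.le.trans (hρP _)), fun i => ?_⟩
    have hdir := norm_dir hx0
    have hxe : x = ‖x‖ • dir x := by
      rw [dir, smul_smul, mul_inv_cancel₀ (norm_ne_zero_iff.2 hx0), one_smul]
    rw [hxe, real_inner_smul_right]
    rcases le_or_gt 0 ⟪u i, dir x⟫ with hs | hs
    · exact (mul_le_mul_of_nonneg_right hx.le hs).trans (hmain _ _ hdir (hu i))
    · exact (mul_nonpos_of_nonneg_of_nonpos (norm_nonneg _) hs.le).trans (hh _ (hu i))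
  have hn1 : 1 ≤ n := by omega
  have h1 := (kappa_mul_pow_le_star hn1 hρm hρ0 hρP).trans
    ((ENNReal.toReal_mono hLK.measure_ne_top (measure_mono hstar)).trans
      (htest _ L (fun i => hh _ (hu i)) hLK hLC hL0 fun x hx => hx.2))
  have hX : 0 ≤ (1 + δ) * ∑ i, w i * h (u i) :=
    mul_nonneg (by linarith) (Finset.sum_nonneg fun i _ => mul_nonneg (hw i) (hh _ (hu i)))
  have h2 : sphAvg ρ ≤ (1 + δ) * ∑ i, w i * h (u i) :=
    le_of_pow_le_pow_left₀ (by omega) hX (le_of_mul_le_mul_left h1 (kappa_pos n))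
  have hgi : DirInt fun v => g v ^ 2 := .of_bounded (hgm.pow_const 2) (B := B ^ 2) fun v _ => by
    rw [abs_of_nonneg (sq_nonneg _)]; exact pow_le_pow_left₀ (hg v).1 (hg v).2 2
  have hpi : DirInt p := .of_bounded hpm (B := P) fun v _ => by
    rw [abs_of_nonneg (hp v).1]; exact (hp v).2
  have hρi : DirInt ρ := .of_bounded hρm (B := P) fun v _ => by
    rw [abs_of_nonneg (hρ0 v)]; exact hρP v
  have h3 := sphAvg_mono (hpi.add (hgi.const_mul (-C))) hρi hn1
    fun v _ => le_max_of_le_right (show p v + -C * g v ^ 2 ≤ p v - C * g v ^ 2 by linarith)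
  rw [sphAvg_add hpi (hgi.const_mul (-C)), sphAvg_const_mul] at h3
  linarith

end Vale.Agent.P237.Sharp
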