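import Vale.Agent.P237.Sharp.ShapeFar

/-!
P237: the shape of the loss at a good direction.
-/

noncomputable section

open MeasureTheory Set Filter
open scoped RealInnerProductSpace Topology

namespace Vale.Agent.P237.Sharp

open Asymp

variable {n N : ℕ} {c : Fin N → ℝ} {u : Fin N → E n}

lemma sval_neg (es : List (E n)) (v : E n) : sval es (-v) = sval es v := by
  rw [sval, sval, show perp es (-v) = -perp es v by
    rw [← neg_one_smul ℝ v, perp_smul, neg_one_smul], norm_neg]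

lemma lossFun_neg (c : Fin N → ℝ) (u : Fin N → E n) (m₀ : ℕ) (v : E n) :
    lossFun c u m₀ (-v) = lossFun c u m₀ v := by
  simp only [lossFun, sval_neg]

/-- The three numbers that describe a state along a great circle. -/
lemma arc_data {m : ℕ} (hm : 0 < m) (hmn : m ≤ n) {es : List (E n)} (ho : Ortho es)
    (hl : es.length = n - m) {θ h : E n} (hθ : ‖θ‖ = 1) (hh : ‖h‖ = 1) :
    let b₀ := ⟪perp es θ, h⟫ / ((m : ℝ) / n)
    b₀ ^ 2 ≤ sval es θ ^ 2 * sval es h ^ 2 ∧ sval es θ ^ 2 ≤ (n : ℝ) / m ∧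
      sval es h ^ 2 ≤ (n : ℝ) / m ∧
      ∀ α, sval es (Real.cos α • θ + Real.sin α • h) =
        √(arcQ (sval es θ ^ 2) b₀ (sval es h ^ 2) α) := by
  intro b₀
  refine ⟨?_, sval_sq_le hm hmn ho hl hθ.le, sval_sq_le hm hmn ho hl hh.le, fun α => ?_⟩
  · simp only [b₀]
    rw [sval_sq_eq hmn hl, sval_sq_eq hmn hl, div_pow, div_mul_div_comm, ← sq ((m : ℝ) / n)]
    gcongr
    rw [← ho.inner_perp_perp, ← mul_pow, ← sq_abs]
    exact pow_le_pow_left₀ (abs_nonneg _) (abs_real_inner_le_norm _ _) 2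
  · rw [← Real.sqrt_sq (sval_nonneg es _)]
    congr 1
    simp only [b₀, arcQ]
    rw [sval_sq_eq hmn hl, sval_sq_eq hmn hl, sval_sq_eq hmn hl, perp_add, perp_smul, perp_smul,
      norm_add_sq_real, real_inner_smul_left, real_inner_smul_right, ho.inner_perp_perp,
      norm_smul, norm_smul, mul_pow, mul_pow, Real.norm_eq_abs, Real.norm_eq_abs, sq_abs, sq_abs]
    ring

/-- The squared linear coefficient of a state. -/
def linSq (m : ℕ) (θ h : E n) (es : List (E n)) : ℝ :=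
  (⟪perp es θ, h⟫ / ((m : ℝ) / n) / √(sval es θ ^ 2)) ^ 2

/-- The bound on the second derivative of a state. -/
def quadCoef (m : ℕ) (θ h : E n) (α : ℝ) (es : List (E n)) : ℝ :=
  min (arcCrude ((n : ℝ) / m) (sval es θ ^ 2) (sval es h ^ 2))
    (arcFine ((n : ℝ) / m) α (sval es θ ^ 2) (⟪perp es θ, h⟫ / ((m : ℝ) / n)))

/-- One step along a great circle from `θ`. -/
lemma step_arc_le (hF : Frame c u) {m : ℕ} (hm : 0 < m) (hmn : m ≤ n) {θ h : E n}
    (hθ : ‖θ‖ = 1) (hh : ‖h‖ = 1) {α A M : ℝ} (hα : 0 ≤ α) (hA0 : 0 ≤ A)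
    (hA : tchain c u (n - m) [] (linSq m θ h) ≤ A ^ 2)
    (hM : tchain c u (n - m) [] (quadCoef m θ h α) ≤ M) :
    tchain c u (n - m) [] (fun es => lstep m (sval es (Real.cos α • θ + Real.sin α • h))) ≤
      tchain c u (n - m) [] (fun es => lstep m (sval es θ)) +
        √(slopeSq c u m θ) * A * α + M * α ^ 2 / 2 := by
  have hk0 : ([] : List (E n)).length + (n - m) ≤ n := by simp
  have hL : 1 ≤ (n : ℝ) / m := by
    rw [one_le_div (by exact_mod_cast hm)]; exact_mod_cast hmn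
  set D : List (E n) → ℝ := fun es => ⟪perp es θ, h⟫ / ((m : ℝ) / n) / √(sval es θ ^ 2)
  have hpt : ∀ es, Ortho es → es.length = ([] : List (E n)).length + (n - m) →
      lstep m (sval es (Real.cos α • θ + Real.sin α • h)) ≤
        lstep m (sval es θ) + α * |lstep1 m (sval es θ) * D es| +
          α ^ 2 / 2 * quadCoef m θ h α es := by
    intro es ho hl
    obtain ⟨hb, hq, hc, hpath⟩ := arc_data hm hmn ho (by simpa using hl) hθ hh
    have := lstep_arc_le hm hL hα (sq_nonneg _) (sq_nonneg _) hb hq hc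
    rw [← hpath α, Real.sqrt_sq (sval_nonneg es θ)] at this
    refine this.trans ?_
    simp only [D, quadCoef, Real.sqrt_sq (sval_nonneg es θ)]
    have h2 := mul_le_mul_of_nonneg_left (le_abs_self
      (lstep1 m (sval es θ) * (⟪perp es θ, h⟫ / ((m : ℝ) / n) / sval es θ))) hα
    linarith
  refine (tchain_mono hF _ [] Ortho.nil hk0 hpt).trans ?_
  rw [tchain_add, tchain_add, tchain_const_mul, tchain_const_mul]
  have hCS := tchain_abs_mul_le hF (show n - m ≤ n by omega) (f := fun es => lstep1 m (sval es θ))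
    (g := D) (A := slopeSq c u m θ) le_rfl (B := A ^ 2) hA
  rw [Real.sqrt_sq hA0] at hCS
  have h1 := mul_le_mul_of_nonneg_left hCS hα
  have h2 := mul_le_mul_of_nonneg_left hM (by positivity : 0 ≤ α ^ 2 / 2)
  linarith

/-- The bounds valid in every dimension. -/
lemma crude_bounds :
    ∃ K : ℝ, 1 ≤ K ∧ ∀ (n N : ℕ) (c : Fin N → ℝ) (u : Fin N → E n) (m : ℕ) (θ h : E n) (α : ℝ),
      Frame c u → 0 < m → m ≤ n → ‖θ‖ = 1 → ‖h‖ = 1 →
      tchain c u (n - m) [] (linSq m θ h) ≤ K ^ 2 ∧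
        tchain c u (n - m) [] (quadCoef m θ h α) ≤ K * √((n : ℝ) / m) ∧
        √(slopeSq c u m θ) ≤ K * √((n : ℝ) / m) := by
  obtain ⟨C, hC, hsecond⟩ := exists_sval_sq_mean
  refine ⟨600 * (C + 2), by linarith, fun n N c u m θ h α hF hm hmn hθ hh => ?_⟩
  have hk0 : ([] : List (E n)).length + (n - m) ≤ n := by simp
  have hL : 1 ≤ (n : ℝ) / m := by
    rw [one_le_div (by exact_mod_cast hm)]; exact_mod_cast hmn
  have hcθ := (hsecond n N c u m θ hF hm hmn hθ).2
  have hch := (hsecond n N c u m h hF hm hmn hh).2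
  refine ⟨?_, ?_, ?_⟩
  · refine (tchain_mono hF _ [] Ortho.nil hk0 (g := fun es => sval es h ^ 2) fun es ho hl => ?_).trans
      (hch.trans ?_)
    · obtain ⟨hb, hq, hc, -⟩ := arc_data hm hmn ho (by simpa using hl) hθ hh
      exact (ratio_sq_le hL (sq_nonneg _) (sq_nonneg _) hb hq hc).1
    · nlinarith
  · refine (tchain_mono hF _ [] Ortho.nil hk0
      (g := fun es => 180 * √((n : ℝ) / m) * (sval es θ ^ 2 + sval es h ^ 2 + 1))
      fun es _ _ => min_le_left _ _).trans ?_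
    rw [tchain_const_mul, tchain_add, tchain_add, tchain_const hF _ [] Ortho.nil hk0]
    calc 180 * √((n : ℝ) / m) *
          (tchain c u (n - m) [] (fun es => sval es θ ^ 2) +
            tchain c u (n - m) [] (fun es => sval es h ^ 2) + 1)
        ≤ 180 * √((n : ℝ) / m) * ((1 + C) + (1 + C) + 1) := by gcongr
      _ ≤ _ := by nlinarith [Real.sqrt_nonneg ((n : ℝ) / m)]
  · have hS : slopeSq c u m θ ≤ 144 * ((n : ℝ) / m) * (C + 2) := by
      refine (tchain_mono hF _ [] Ortho.nil hk0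
        (g := fun es => 144 * ((n : ℝ) / m) * (sval es θ ^ 2 + 1)) fun es ho hl => ?_).trans ?_
      · refine (lstep1_sq_le hm (sval_nonneg es θ)).trans ?_
        rw [mul_assoc]
        exact mul_le_mul_of_nonneg_left (dev_sq_le hm hmn ho (by simpa using hl) hθ.le) (by norm_num)
      · rw [tchain_const_mul, tchain_add, tchain_const hF _ [] Ortho.nil hk0]
        exact mul_le_mul_of_nonneg_left (by linarith) (by positivity)
    refine (Real.sqrt_le_left (by positivity)).2 (hS.trans ?_)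
    rw [mul_pow, Real.sq_sqrt (by positivity), mul_comm (144 * _), ← mul_assoc]
    gcongr
    nlinarith

/-- The bounds in large dimension at a good direction. -/
lemma fine_bounds (η κ : ℝ) (hη : 0 < η) (hκ : 0 < κ) :
    ∃ n₀ : ℕ, ∀ (n N : ℕ) (c : Fin N → ℝ) (u : Fin N → E n) (m : ℕ) (θ h : E n) (α : ℝ), n₀ ≤ n →
      Frame c u → GoodDir c u θ → ‖h‖ = 1 → ⟪θ, h⟫ = 0 → 0 < m → m ≤ n → η * n ≤ m → 0 ≤ α →
      tchain c u (n - m) [] (linSq m θ h) ≤ 8 / η * κ ∧
        tchain c u (n - m) [] (quadCoef m θ h α) ≤ 1300 / η ^ 2 * (2 * κ + 6 / η * α) := by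
  obtain ⟨n₀, hn₀⟩ := dev_small η κ hη hκ
  refine ⟨n₀, fun n N c u m θ h α hn hF hg hh hθh hm hmn hηm hα => ?_⟩
  have hk0 : ([] : List (E n)).length + (n - m) ≤ n := by simp
  have hn' : (0 : ℝ) < n := by exact_mod_cast hm.trans_le hmn
  have hm' : (0 : ℝ) < m := by exact_mod_cast hm
  set L := (n : ℝ) / m with hLdef
  have hL : 1 ≤ L := by rw [hLdef, one_le_div hm']; exact_mod_cast hmn
  have hLη : L ≤ 1 / η := by
    rw [hLdef, div_le_div_iff₀ hm' hη]; linarith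
  set q := (m : ℝ) / n
  have hq : 0 < q := by positivity
  have hθθ : ⟪θ, θ⟫ = 1 := by rw [real_inner_self_eq_norm_sq, hg.1, one_pow]
  have h1 : tchain c u (n - m) [] (fun es => |sval es θ ^ 2 - 1|) ≤ κ := by
    have := hn₀ n N c u m θ θ hn hF hg hg.1.le hm hmn hηm
    rw [hθθ, mul_one] at this
    refine (tchain_mono hF _ [] Ortho.nil hk0 (g := fun es => q⁻¹ * |⟪perp es θ, θ⟫ - q|)
      fun es ho hl => le_of_eq ?_).trans ?_
    · rw [sval_sq_eq hmn (by simpa using hl), ← real_inner_self_eq_norm_sq, ho.inner_perp_perp,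
        show ⟪perp es θ, θ⟫ / q - 1 = q⁻¹ * (⟪perp es θ, θ⟫ - q) by field_simp, abs_mul,
        abs_of_pos (inv_pos.2 hq)]
    · rw [tchain_const_mul, inv_mul_le_iff₀ hq]; linarith
  have h2 : tchain c u (n - m) [] (fun es => |⟪perp es θ, h⟫ / q|) ≤ κ := by
    have := hn₀ n N c u m θ h hn hF hg hh.le hm hmn hηm
    simp only [hθh, mul_zero, sub_zero] at this
    refine (tchain_mono hF _ [] Ortho.nil hk0 (g := fun es => q⁻¹ * |⟪perp es θ, h⟫|)
      fun es _ _ => le_of_eq ?_).trans ?_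
    · rw [abs_div, abs_of_pos hq, inv_mul_eq_div]
    · rw [tchain_const_mul, inv_mul_le_iff₀ hq]; linarith
  constructor
  · refine (tchain_mono hF _ [] Ortho.nil hk0
      (g := fun es => 4 * L * (|sval es θ ^ 2 - 1| + |⟪perp es θ, h⟫ / q|)) fun es ho hl => ?_).trans ?_
    · obtain ⟨hb, hq', hc, -⟩ := arc_data hm hmn ho (by simpa using hl) hg.1 hh
      exact (ratio_sq_le hL (sq_nonneg _) (sq_nonneg _) hb hq' hc).2
    · rw [tchain_const_mul, tchain_add]
      calc 4 * L * (tchain c u (n - m) [] (fun es => |sval es θ ^ 2 - 1|) +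
            tchain c u (n - m) [] (fun es => |⟪perp es θ, h⟫ / q|))
          ≤ 4 * L * (κ + κ) := by gcongr
        _ ≤ 4 * (1 / η) * (κ + κ) := by gcongr
        _ = _ := by field_simp; ring
  · refine (tchain_mono hF _ [] Ortho.nil hk0
      (g := fun es => 1300 * L ^ 2 * ((|sval es θ ^ 2 - 1| + |⟪perp es θ, h⟫ / q|) + 6 * L * α))
      fun es _ _ => min_le_right _ _).trans ?_
    rw [tchain_const_mul, tchain_add, tchain_add, tchain_const hF _ [] Ortho.nil hk0]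
    calc 1300 * L ^ 2 * (tchain c u (n - m) [] (fun es => |sval es θ ^ 2 - 1|) +
          tchain c u (n - m) [] (fun es => |⟪perp es θ, h⟫ / q|) + 6 * L * α)
        ≤ 1300 * L ^ 2 * (κ + κ + 6 * L * α) := by gcongr
      _ ≤ 1300 * (1 / η) ^ 2 * (κ + κ + 6 * (1 / η) * α) := by gcongr
      _ = _ := by field_simp; ring

/-- The bound on the gradient. -/
def gradBound (c : Fin N → ℝ) (u : Fin N → E n) (η a κ : ℝ) (θ : E n) : ℝ :=
  4 * (n : ℝ)⁻¹ * ∑ m ∈ Finset.Ioc 0 n,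
    (if (m : ℝ) < η * n then a else κ) * √(slopeSq c u m θ)

lemma gradBound_nonneg (c : Fin N → ℝ) (u : Fin N → E n) (η : ℝ) {a κ : ℝ} (ha : 0 ≤ a)
    (hκ : 0 ≤ κ) (θ : E n) : 0 ≤ gradBound c u η a κ θ := by
  refine mul_nonneg (by positivity) (Finset.sum_nonneg fun m _ => ?_)
  split_ifs <;> positivity

/-- The gradient bound is small, and smaller still in mean square. -/
lemma exists_gradBound (hP : ProjMoments) (ε : ℝ) (hε : 0 < ε) (K : ℝ) (hK : 1 ≤ K)
    (hslope : ∀ (n N : ℕ) (c : Fin N → ℝ) (u : Fin N → E n) (m : ℕ) (θ : E n), Frame c u → 0 < m →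
      m ≤ n → ‖θ‖ = 1 → √(slopeSq c u m θ) ≤ K * √((n : ℝ) / m)) :
    ∃ η κ : ℝ, 0 < η ∧ 0 < κ ∧ ∀ (n N : ℕ) (c : Fin N → ℝ) (u : Fin N → E n), 0 < n → Frame c u →
      (∀ θ, ‖θ‖ = 1 → gradBound c u η K κ θ ≤ ε) ∧
        ∀ G : E n → ℝ, Measurable G → (∀ θ, 0 ≤ G θ ∧ G θ ≤ ε) →
          (∀ θ, G θ ≤ gradBound c u η K κ θ) → sphAvg (fun θ => G θ ^ 2) ≤ ε / n := by
  obtain ⟨C, hC, hS⟩ := slopeSq_avg_le hP
  set R := min 1 (min (ε / (4 * K)) (ε / (16 * C))) with hR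
  have hR0 : 0 < R := lt_min one_pos (lt_min (by positivity) (by positivity))
  set η := (R / (4 * K)) ^ 2 with hη
  have hη0 : 0 < η := by positivity
  have hsη : √η = R / (4 * K) := Real.sqrt_sq (by positivity)
  set κ := √η * R / 2 with hκ
  have hκ0 : 0 < κ := by positivity
  have hκK : κ ≤ K := by
    have : √η ≤ 1 := by
      rw [hsη, div_le_one (by positivity)]
      linarith [min_le_left (1 : ℝ) (min (ε / (4 * K)) (ε / (16 * C)))]
    nlinarith [min_le_left (1 : ℝ) (min (ε / (4 * K)) (ε / (16 * C))), Real.sqrt_nonneg η]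
  refine ⟨η, κ, hη0, hκ0, fun n N c u hn hF => ?_⟩
  have hn' : (0 : ℝ) < n := by exact_mod_cast hn
  set ν : ℕ → ℝ := fun m => if (m : ℝ) < η * n then K else κ with hν
  have hν0 : ∀ m, 0 ≤ ν m := fun m => by simp only [hν]; split_ifs <;> linarith
  have hrate : (n : ℝ)⁻¹ * ∑ m ∈ Finset.Ioc 0 n, ν m * √((n : ℝ) / m) ≤ R := by
    refine (rate_avg_le hn hη0.le (show 0 ≤ K by linarith) (show 0 ≤ R / 2 by positivity) _
      (fun m _ _ => ?_) (fun m hm _ hηm => ?_)).trans_eq ?_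
    · refine mul_le_mul_of_nonneg_right ?_ (Real.sqrt_nonneg _)
      simp only [hν]; split_ifs <;> linarith
    · simp only [hν, if_neg (not_lt.2 hηm)]
      calc κ * √((n : ℝ) / m) ≤ κ * √(1 / η) := by
            refine mul_le_mul_of_nonneg_left (Real.sqrt_le_sqrt ?_) hκ0.le
            rw [div_le_div_iff₀ (by exact_mod_cast hm) hη0]; linarith
        _ = R / 2 := by
            rw [hκ, one_div, Real.sqrt_inv]; field_simp
    · rw [hsη]; field_simp; ring
  have hRK : 4 * K * R ≤ ε := by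
    have := (min_le_right _ _).trans (min_le_left _ _) |>.trans' (le_of_eq hR)
    rw [le_div_iff₀ (by positivity)] at this
    linarith
  have hRC : 16 * C * R ^ 2 ≤ ε := by
    have h1 := (min_le_right _ _).trans (min_le_right _ _) |>.trans' (le_of_eq hR)
    rw [le_div_iff₀ (by positivity)] at h1
    have h2 : R ^ 2 ≤ R := by nlinarith [min_le_left (1 : ℝ) (min (ε / (4 * K)) (ε / (16 * C)))]
    nlinarith [mul_le_mul_of_nonneg_left h2 hC.le]
  refine ⟨fun θ hθ => ?_, fun G hGm hG hGle => ?_⟩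
  · calc gradBound c u η K κ θ
        ≤ 4 * (n : ℝ)⁻¹ * ∑ m ∈ Finset.Ioc 0 n, ν m * (K * √((n : ℝ) / m)) := by
          refine mul_le_mul_of_nonneg_left (Finset.sum_le_sum fun m hm => ?_) (by positivity)
          exact mul_le_mul_of_nonneg_left (hslope n N c u m θ hF (Finset.mem_Ioc.1 hm).1
            (Finset.mem_Ioc.1 hm).2 hθ) (hν0 m)
      _ = 4 * K * ((n : ℝ)⁻¹ * ∑ m ∈ Finset.Ioc 0 n, ν m * √((n : ℝ) / m)) := by
          simp only [Finset.mul_sum]; exact Finset.sum_congr rfl fun m _ => by ring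
      _ ≤ 4 * K * R := mul_le_mul_of_nonneg_left hrate (by positivity)
      _ ≤ ε := hRK
  · set S := ∑ m ∈ Finset.Ioc 0 n, ν m / √(m : ℝ) with hSdef
    have hS0 : 0 ≤ S := Finset.sum_nonneg fun m _ => div_nonneg (hν0 m) (Real.sqrt_nonneg _)
    have hSR : S ≤ √(n : ℝ) * R := by
      have h1 : √(n : ℝ) * S = ∑ m ∈ Finset.Ioc 0 n, ν m * √((n : ℝ) / m) := by
        rw [hSdef, Finset.mul_sum]
        exact Finset.sum_congr rfl fun m _ => by rw [Real.sqrt_div hn'.le]; ring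
      rw [← h1, inv_mul_le_iff₀ hn'] at hrate
      refine le_of_mul_le_mul_left ?_ (Real.sqrt_pos.2 hn')
      rw [← mul_assoc, Real.mul_self_sqrt hn'.le]
      exact hrate
    set X := fun θ => ∑ m ∈ Finset.Ioc 0 n, ν m * √(m : ℝ) * slopeSq c u m θ with hX
    have hXi : DirInt X := integrable_finsetSum _ fun m hm =>
      ((hS n N c u m hF (Finset.mem_Ioc.1 hm).1 (Finset.mem_Ioc.1 hm).2).1.const_mul _)
    have hXavg : sphAvg X ≤ C * S := by
      simp only [sphAvg, hX]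
      rw [integral_finsetSum _ fun m hm =>
        ((hS n N c u m hF (Finset.mem_Ioc.1 hm).1 (Finset.mem_Ioc.1 hm).2).1.const_mul _),
        Finset.mul_sum, hSdef, Finset.mul_sum]
      refine Finset.sum_le_sum fun m hm => ?_
      have h1 := (hS n N c u m hF (Finset.mem_Ioc.1 hm).1 (Finset.mem_Ioc.1 hm).2).2
      rw [integral_const_mul, mul_left_comm]
      refine (mul_le_mul_of_nonneg_left h1 (mul_nonneg (hν0 m) (Real.sqrt_nonneg _))).trans_eq ?_
      have hm' : (0 : ℝ) < m := by exact_mod_cast (Finset.mem_Ioc.1 hm).1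
      field_simp
      rw [Real.sq_sqrt hm'.le]
    have hpt : ∀ θ, ‖θ‖ = 1 → G θ ^ 2 ≤ 16 * (n : ℝ)⁻¹ ^ 2 * S * X θ := by
      intro θ _
      have hCS : (∑ m ∈ Finset.Ioc 0 n, ν m * √(slopeSq c u m θ)) ^ 2 ≤ S * X θ := by
        rw [hSdef, hX]
        refine Finset.sum_sq_le_sum_mul_sum_of_sq_le_mul _
          (fun m _ => div_nonneg (hν0 m) (Real.sqrt_nonneg _))
          (fun m _ => mul_nonneg (mul_nonneg (hν0 m) (Real.sqrt_nonneg _)) (slopeSq_nonneg hF m θ))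
          fun m hm => le_of_eq ?_
        have hm' : 0 < √(m : ℝ) := Real.sqrt_pos.2 (by exact_mod_cast (Finset.mem_Ioc.1 hm).1)
        rw [mul_pow, Real.sq_sqrt (slopeSq_nonneg hF m θ)]
        field_simp
      refine (pow_le_pow_left₀ (hG θ).1 (hGle θ) 2).trans ?_
      rw [gradBound, mul_pow, mul_pow, mul_assoc (16 * _)]
      calc 4 ^ 2 * (n : ℝ)⁻¹ ^ 2 * (∑ m ∈ Finset.Ioc 0 n, ν m * √(slopeSq c u m θ)) ^ 2
          ≤ 4 ^ 2 * (n : ℝ)⁻¹ ^ 2 * (S * X θ) := mul_le_mul_of_nonneg_left hCS (by positivity)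
        _ = _ := by ring
    have hGi : DirInt fun θ => G θ ^ 2 := .of_bounded (hGm.pow_const 2) (B := ε ^ 2) fun θ _ => by
      rw [abs_of_nonneg (sq_nonneg _)]; exact pow_le_pow_left₀ (hG θ).1 (hG θ).2 2
    refine (sphAvg_mono hGi (hXi.const_mul _) hn hpt).trans ?_
    rw [sphAvg_const_mul]
    calc 16 * (n : ℝ)⁻¹ ^ 2 * S * sphAvg X
        ≤ 16 * (n : ℝ)⁻¹ ^ 2 * S * (C * S) := mul_le_mul_of_nonneg_left hXavg (by positivity)
      _ = 16 * C * (n : ℝ)⁻¹ ^ 2 * S ^ 2 := by ring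
      _ ≤ 16 * C * (n : ℝ)⁻¹ ^ 2 * (√(n : ℝ) * R) ^ 2 := by gcongr
      _ = 16 * C * R ^ 2 / n := by rw [mul_pow, Real.sq_sqrt hn'.le]; field_simp
      _ ≤ ε / n := div_le_div_of_nonneg_right hRC hn'.le

/-- The loss near a good direction, to second order with a small quadratic term. -/
lemma lossFun_le_near (K : ℝ) (hK : 1 ≤ K)
    (hcrude : ∀ (n N : ℕ) (c : Fin N → ℝ) (u : Fin N → E n) (m : ℕ) (θ h : E n) (α : ℝ),
      Frame c u → 0 < m → m ≤ n → ‖θ‖ = 1 → ‖h‖ = 1 →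
      tchain c u (n - m) [] (linSq m θ h) ≤ K ^ 2 ∧
        tchain c u (n - m) [] (quadCoef m θ h α) ≤ K * √((n : ℝ) / m)) :
    ∃ z : ℝ, 0 < z ∧ z ≤ 1 ∧ ∀ η κ : ℝ, 0 < η → 0 < κ → ∃ n₀ : ℕ,
      ∀ (n N : ℕ) (c : Fin N → ℝ) (u : Fin N → E n) (m₀ : ℕ) (θ h : E n) (α : ℝ), n₀ ≤ n →
        Frame c u → GoodDir c u θ → ‖h‖ = 1 → ⟪θ, h⟫ = 0 → 0 ≤ α → α ≤ z →
        lossFun c u m₀ (Real.cos α • θ + Real.sin α • h) ≤
          lossFun c u m₀ θ + gradBound c u η K κ θ / 2 * α + α ^ 2 / 16 := by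
  set η₀ : ℝ := (1 / (64 * K)) ^ 2 with hη₀
  have hη₀pos : 0 < η₀ := by positivity
  set κ₁ : ℝ := η₀ ^ 2 / (1300 * 256) with hκ₁
  have hκ₁pos : 0 < κ₁ := by positivity
  set z : ℝ := min 1 (η₀ ^ 3 / (1300 * 6 * 128)) with hz
  refine ⟨z, lt_min one_pos (by positivity), min_le_left _ _, fun η κ hη hκ => ?_⟩
  obtain ⟨n₁, hn₁⟩ := fine_bounds η (η * κ ^ 2 / 8) hη (by positivity)
  obtain ⟨n₂, hn₂⟩ := fine_bounds η₀ κ₁ hη₀pos hκ₁pos
  refine ⟨max (max n₁ n₂) 1, fun n N c u m₀ θ h α hn hF hg hh hθh hα hαz => ?_⟩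
  simp only [max_le_iff] at hn
  have hn' : (0 : ℝ) < n := by exact_mod_cast (show 0 < n by omega)
  set ν : ℕ → ℝ := fun m => if (m : ℝ) < η * n then K else κ with hν
  set μ : ℕ → ℝ := fun m => if (m : ℝ) < η₀ * n then K * √((n : ℝ) / m) else 1 / 64 with hμ
  have hν0 : ∀ m, 0 ≤ ν m := fun m => by simp only [hν]; split_ifs <;> linarith
  have hμ0 : ∀ m, 0 ≤ μ m := fun m => by simp only [hμ]; split_ifs <;> positivity
  have hstep : ∀ m ∈ Finset.Ioc m₀ n, (1 + 3 * winW m) *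
      tchain c u (n - m) [] (fun es => lstep m (sval es (Real.cos α • θ + Real.sin α • h))) ≤
      (1 + 3 * winW m) * tchain c u (n - m) [] (fun es => lstep m (sval es θ)) +
        2 * α * (ν m * √(slopeSq c u m θ)) + α ^ 2 * μ m := by
    intro m hm
    rw [Finset.mem_Ioc] at hm
    have hm0 : 0 < m := by omega
    have hA : tchain c u (n - m) [] (linSq m θ h) ≤ ν m ^ 2 := by
      simp only [hν]; split_ifs with hc
      · exact (hcrude n N c u m θ h α hF hm0 hm.2 hg.1 hh).1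
      · refine (hn₁ n N c u m θ h α hn.1.1 hF hg hh hθh hm0 hm.2 (not_lt.1 hc) hα).1.trans_eq ?_
        field_simp
    have hM : tchain c u (n - m) [] (quadCoef m θ h α) ≤ μ m := by
      simp only [hμ]; split_ifs with hc
      · exact (hcrude n N c u m θ h α hF hm0 hm.2 hg.1 hh).2
      · refine (hn₂ n N c u m θ h α hn.1.2 hF hg hh hθh hm0 hm.2 (not_lt.1 hc) hα).2.trans ?_
        have hα' : α ≤ η₀ ^ 3 / (1300 * 6 * 128) := hαz.trans (min_le_right _ _)
        calc 1300 / η₀ ^ 2 * (2 * κ₁ + 6 / η₀ * α)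
            ≤ 1300 / η₀ ^ 2 * (2 * κ₁ + 6 / η₀ * (η₀ ^ 3 / (1300 * 6 * 128))) := by gcongr
          _ = 1 / 64 := by rw [hκ₁]; field_simp; ring
    have h1 := step_arc_le hF hm0 hm.2 hg.1 hh hα (hν0 m) hA hM
    set B := tchain c u (n - m) [] (fun es => lstep m (sval es θ))
    have hw0 := winW_nonneg m
    have hw := winW_le m
    have hP1 : 0 ≤ √(slopeSq c u m θ) * ν m * α :=
      mul_nonneg (mul_nonneg (Real.sqrt_nonneg _) (hν0 m)) hα
    have hP2 : 0 ≤ μ m * α ^ 2 / 2 := by have := hμ0 m; positivity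
    nlinarith [mul_le_mul_of_nonneg_left h1 (by linarith : 0 ≤ 1 + 3 * winW m),
      mul_le_mul_of_nonneg_right (show 1 + 3 * winW m ≤ 2 by linarith) hP1,
      mul_le_mul_of_nonneg_right (show 1 + 3 * winW m ≤ 2 by linarith) hP2]
  have hμsum : (n : ℝ)⁻¹ * ∑ m ∈ Finset.Ioc m₀ n, μ m ≤ 1 / 16 := by
    refine (rate_avg_le (m₀ := m₀) (show 0 < n by omega) hη₀pos.le
      (show 0 ≤ max K (1 / 64) by positivity)
      (show (0 : ℝ) ≤ 1 / 64 by norm_num) μ (fun m hm hmn => ?_)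
      (fun m _ _ hc => by simp [hμ, if_neg (not_lt.2 hc)])).trans ?_
    · rw [max_eq_left (by linarith)]
      simp only [hμ]; split_ifs
      · exact le_rfl
      · refine le_trans ?_ (le_mul_of_one_le_right (by linarith) (Real.one_le_sqrt.2 ?_))
        · linarith
        · rw [one_le_div (by exact_mod_cast hm)]; exact_mod_cast hmn
    · rw [max_eq_left (by linarith), hη₀, Real.sqrt_sq (by positivity)]
      field_simp
      norm_num
  have hνsum : ∑ m ∈ Finset.Ioc m₀ n, ν m * √(slopeSq c u m θ) ≤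
      ∑ m ∈ Finset.Ioc 0 n, ν m * √(slopeSq c u m θ) :=
    Finset.sum_le_sum_of_subset_of_nonneg (Finset.Ioc_subset_Ioc_left (Nat.zero_le _))
      fun m _ _ => mul_nonneg (hν0 m) (Real.sqrt_nonneg _)
  have h := mul_le_mul_of_nonneg_left (Finset.sum_le_sum hstep) (inv_nonneg.2 hn'.le)
  rw [Finset.sum_add_distrib, Finset.sum_add_distrib, ← Finset.mul_sum, ← Finset.mul_sum,
    mul_add, mul_add] at h
  simp only [lossFun]
  have h2 := mul_le_mul_of_nonneg_left hνsum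
    (mul_nonneg (inv_nonneg.2 hn'.le) (mul_nonneg zero_le_two hα))
  have h3 := mul_le_mul_of_nonneg_left hμsum (sq_nonneg α)
  have h4 : gradBound c u η K κ θ / 2 * α =
      (n : ℝ)⁻¹ * (2 * α) * ∑ m ∈ Finset.Ioc 0 n, ν m * √(slopeSq c u m θ) := by
    simp only [gradBound, hν]; ring
  rw [h4]
  linarith

theorem lossShape (hP : ProjMoments) : LossShape := by
  obtain ⟨K, hK, hcr⟩ := crude_bounds
  obtain ⟨z, hz0, hz1, hnear⟩ := lossFun_le_near K hK fun n N c u m θ h α hF hm hmn hθ hh =>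
    ⟨(hcr n N c u m θ h α hF hm hmn hθ hh).1, (hcr n N c u m θ h α hF hm hmn hθ hh).2.1⟩
  set d₀ := 1 - Real.cos z with hd₀
  have hzπ : z ≤ Real.pi := by linarith [Real.pi_gt_three]
  have hd₀pos : 0 < d₀ := by
    have h := Real.cos_lt_cos_of_nonneg_of_le_pi le_rfl hzπ hz0
    rw [Real.cos_zero] at h
    linarith
  set γ := min (1 / 2) (d₀ / 4) with hγ
  refine ⟨γ, lt_min (by norm_num) (by positivity), min_le_left _ _, fun ε hε => ?_⟩
  obtain ⟨η, κ, hη, hκ, hgrad⟩ := exists_gradBound hP ε hε K hK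
    fun n N c u m θ hF hm hmn hθ => (hcr n N c u m θ θ 0 hF hm hmn hθ hθ).2.2
  obtain ⟨n₁, hn₁⟩ := hnear η κ hη hκ
  obtain ⟨n₂, hn₂⟩ := lossFun_le_far ε hε
  obtain ⟨n₃, hn₃⟩ := lossFun_le_far (d₀ ^ 2 / 4) (by positivity)
  refine ⟨max (max n₁ n₂) (max n₃ 1), fun n N c u m₀ hn hF _ _ => ?_⟩
  simp only [max_le_iff] at hn
  obtain ⟨hgle, hgavg⟩ := hgrad n N c u (by omega) hF
  set G : E n → ℝ := {θ | GoodDir c u θ}.indicator (gradBound c u η K κ) with hG
  have hGb : Measurable (gradBound c u η K κ) :=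
    (Finset.measurable_sum _ fun m _ =>
      ((measurable_slopeSq c u m).sqrt).const_mul _).const_mul _
  have hgnn : ∀ θ, 0 ≤ gradBound c u η K κ θ :=
    gradBound_nonneg c u η (by linarith) hκ.le
  have hG01 : ∀ θ, 0 ≤ G θ ∧ G θ ≤ ε := by
    intro θ
    refine ⟨indicator_nonneg (fun θ _ => hgnn θ) θ, ?_⟩
    by_cases h : GoodDir c u θ
    · rw [hG, indicator_of_mem (show θ ∈ {θ | GoodDir c u θ} from h)]; exact hgle θ h.1
    · rw [hG, indicator_of_notMem (show θ ∉ {θ | GoodDir c u θ} from h)]; exact hε.le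
  have hGm : Measurable G := hGb.indicator (measurableSet_goodDir c u)
  refine ⟨G, hGm, hG01, hgavg G hGm hG01 fun θ =>
    indicator_le_self' (fun θ _ => hgnn θ) θ, fun θ hg => ⟨?_, fun v hv => ?_⟩⟩
  · have h1 := hn₂ n N c u m₀ θ θ hn.1.2 hF hg hg.1
    rw [real_inner_self_eq_norm_sq, hg.1] at h1
    linarith
  rw [hG, indicator_of_mem (show θ ∈ {θ | GoodDir c u θ} from hg)]
  obtain ⟨v', hv', hval, hy0⟩ : ∃ v', ‖v'‖ = 1 ∧ lossFun c u m₀ v' = lossFun c u m₀ v ∧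
      ⟪v', θ⟫ = |⟪v, θ⟫| := by
    rcases le_total 0 ⟪v, θ⟫ with h | h
    · exact ⟨v, hv, rfl, (abs_of_nonneg h).symm⟩
    · exact ⟨-v, by rwa [norm_neg], lossFun_neg c u m₀ v,
        by rw [inner_neg_left, abs_of_nonpos h]⟩
  rw [← hval, ← sq_abs ⟪v, θ⟫, ← hy0]
  set y := ⟪v', θ⟫ with hy
  have hy1 : y ≤ 1 := by
    have := real_inner_le_norm v' θ
    rwa [hv', hg.1, mul_one] at this
  have hy00 : 0 ≤ y := by rw [hy0]; exact abs_nonneg _
  have hf0 := lossFun_nonneg hF m₀ θ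
  have hGθ := hgnn θ
  by_cases hz : Real.arccos y ≤ z
  swap
  · have hcos : y < Real.cos z := by
      rw [← Real.cos_arccos (by linarith) hy1]
      exact Real.cos_lt_cos_of_nonneg_of_le_pi hz0.le (Real.arccos_le_pi y) (not_le.1 hz)
    have h1 := hn₃ n N c u m₀ θ v' hn.2.1 hF hg hv'
    rw [← hy] at h1
    have hd : d₀ ≤ 1 - y := by linarith
    have hγd : γ ≤ (1 - y) / 4 := (min_le_right _ _).trans (by linarith)
    have h2 := mul_le_mul_of_nonneg_right hγd (by linarith : 0 ≤ 1 - y)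
    have h3 := pow_le_pow_left₀ hd₀pos.le hd 2
    have h4 : 0 ≤ gradBound c u η K κ θ * √(1 - y ^ 2) := mul_nonneg hGθ (Real.sqrt_nonneg _)
    linarith
  set α := Real.arccos y with hα
  have hα0 : 0 ≤ α := Real.arccos_nonneg y
  have hγ2 : 0 ≤ (1 - γ) * (1 - y) :=
    mul_nonneg (by linarith [min_le_left (1 / 2 : ℝ) (d₀ / 4)]) (by linarith)
  rcases hy1.eq_or_lt with hy1' | hy1'
  · have hveq : v' = θ := (inner_eq_one_iff_of_norm_eq_one hv' hg.1).1 hy1'
    rw [hveq]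
    have h4 : 0 ≤ gradBound c u η K κ θ * √(1 - y ^ 2) := mul_nonneg hGθ (Real.sqrt_nonneg _)
    linarith
  have hy2 : y ^ 2 < 1 := by nlinarith
  set h := (√(1 - y ^ 2))⁻¹ • (v' - y • θ) with hh
  have hroot : 0 < √(1 - y ^ 2) := Real.sqrt_pos.2 (by linarith)
  have hθθ : ⟪θ, θ⟫ = 1 := by rw [real_inner_self_eq_norm_sq, hg.1, one_pow]
  have hθh : ⟪θ, h⟫ = 0 := by
    rw [hh, real_inner_smul_right, inner_sub_right, real_inner_smul_right, hθθ,
      real_inner_comm, ← hy]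
    ring
  have hhn : ‖h‖ = 1 := by
    have h1 : ‖v' - y • θ‖ ^ 2 = 1 - y ^ 2 := by
      rw [norm_sub_sq_real, real_inner_smul_right, norm_smul, hv', hg.1, Real.norm_eq_abs, mul_one,
        sq_abs, ← hy]
      ring
    have h2 : ‖v' - y • θ‖ = √(1 - y ^ 2) := by rw [← h1, Real.sqrt_sq (norm_nonneg _)]
    rw [hh, norm_smul, norm_inv, Real.norm_eq_abs, abs_of_pos hroot, h2, inv_mul_cancel₀ hroot.ne']
  have hvexp : v' = Real.cos α • θ + Real.sin α • h := by
    rw [hα, Real.cos_arccos (by linarith) hy1, Real.sin_arccos, hh, smul_smul,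
      mul_inv_cancel₀ hroot.ne', one_smul, add_sub_cancel]
  have h1 := hn₁ n N c u m₀ θ h α hn.1.1 hF hg hhn hθh hα0 hz
  rw [← hvexp] at h1
  refine h1.trans ?_
  have hα2 : α ≤ Real.pi / 2 := Real.arccos_le_pi_div_two.2 hy00
  have hsin : α ≤ 2 * √(1 - y ^ 2) := by
    rw [← Real.sin_arccos, ← hα]
    have h2 := Real.mul_le_sin hα0 hα2
    rw [div_mul_eq_mul_div, div_le_iff₀ Real.pi_pos] at h2
    nlinarith [Real.pi_lt_four, Real.sin_nonneg_of_nonneg_of_le_pi hα0 (Real.arccos_le_pi y)]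
  have hcos : α ^ 2 / 16 ≤ (1 - γ) * (1 - y) := by
    have h2 := Real.cos_le_one_sub_mul_cos_sq
      (show |α| ≤ Real.pi by rw [abs_of_nonneg hα0]; exact Real.arccos_le_pi y)
    rw [hα, Real.cos_arccos (by linarith) hy1, ← hα] at h2
    have h3 : 1 / 8 ≤ 2 / Real.pi ^ 2 := by
      rw [div_le_div_iff₀ (by norm_num) (by positivity)]
      nlinarith [Real.pi_lt_four, Real.pi_pos]
    have h5 := mul_le_mul_of_nonneg_right h3 (sq_nonneg α)
    have h6 := mul_le_mul_of_nonneg_right (min_le_left (1 / 2 : ℝ) (d₀ / 4))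
      (by linarith : 0 ≤ 1 - y)
    linarith
  have h7 := mul_le_mul_of_nonneg_left hsin (div_nonneg hGθ zero_le_two)
  linarith

end Vale.Agent.P237.Sharp
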