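import Vale.Agent.P237.Sharp.ShapeProfile

/-!
P237: the loss along a great circle, expanded to second order.
-/

noncomputable section

open Set Filter
open scoped Topology

namespace Vale.Agent.P237.Sharp

/-- A second-order upper bound from a bound on the second derivative. -/
lemma taylor_le {g g1 g2 : ℝ → ℝ} {α M : ℝ} (hα : 0 ≤ α) (h1 : ∀ t, HasDerivAt g (g1 t) t)
    (h2 : ∀ t, HasDerivAt g1 (g2 t) t) (hM : ∀ t ∈ Icc 0 α, g2 t ≤ M) :
    g α ≤ g 0 + g1 0 * α + M * α ^ 2 / 2 := by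
  have key1 : ∀ t ∈ Icc 0 α, g1 t ≤ g1 0 + M * t := by
    intro t ht
    have hd : ∀ x, HasDerivAt (fun y => g1 y - M * y) (g2 x - M) x := fun x => by
      simpa using (h2 x).fun_sub ((hasDerivAt_id x).const_mul M)
    have ha : AntitoneOn (fun y => g1 y - M * y) (Icc 0 α) :=
      antitoneOn_of_hasDerivWithinAt_nonpos (convex_Icc _ _)
        (continuous_iff_continuousAt.2 fun x => (hd x).continuousAt).continuousOn
        (fun x _ => (hd x).hasDerivWithinAt) fun x hx => by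
          rw [interior_Icc] at hx
          linarith [hM x (Ioo_subset_Icc_self hx)]
    have := ha ⟨le_rfl, hα⟩ ht ht.1
    simp only [mul_zero, sub_zero] at this
    linarith
  have hd : ∀ x, HasDerivAt (fun y => g y - g1 0 * y - M * y ^ 2 / 2) (g1 x - g1 0 - M * x) x :=
    fun x => by
      have := ((h1 x).fun_sub ((hasDerivAt_id x).const_mul (g1 0))).fun_sub
        (((hasDerivAt_pow 2 x).const_mul M).div_const 2)
      refine this.congr_deriv ?_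
      push_cast; ring
  have ha : AntitoneOn (fun y => g y - g1 0 * y - M * y ^ 2 / 2) (Icc 0 α) :=
    antitoneOn_of_hasDerivWithinAt_nonpos (convex_Icc _ _)
      (continuous_iff_continuousAt.2 fun x => (hd x).continuousAt).continuousOn
      (fun x _ => (hd x).hasDerivWithinAt) fun x hx => by
        rw [interior_Icc] at hx
        linarith [key1 x (Ioo_subset_Icc_self hx)]
  have := ha ⟨le_rfl, hα⟩ ⟨hα, le_rfl⟩ hα
  simp only [mul_zero, sub_zero, zero_pow (two_ne_zero : (2 : ℕ) ≠ 0), zero_div] at this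
  linarith

/-- The squared length along a great circle. -/
def arcQ (q₀ b₀ c₀ t : ℝ) : ℝ :=
  Real.cos t ^ 2 * q₀ + 2 * (Real.sin t * Real.cos t) * b₀ + Real.sin t ^ 2 * c₀

/-- Half the derivative of the squared length. -/
def arcB (q₀ b₀ c₀ t : ℝ) : ℝ :=
  Real.sin t * Real.cos t * (c₀ - q₀) + (Real.cos t ^ 2 - Real.sin t ^ 2) * b₀

/-- The squared speed along a great circle. -/
def arcC (q₀ b₀ c₀ t : ℝ) : ℝ :=
  Real.sin t ^ 2 * q₀ - 2 * (Real.sin t * Real.cos t) * b₀ + Real.cos t ^ 2 * c₀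

variable {q₀ b₀ c₀ : ℝ}

lemma hasDerivAt_arcQ (t : ℝ) : HasDerivAt (arcQ q₀ b₀ c₀) (2 * arcB q₀ b₀ c₀ t) t := by
  have hs := Real.hasDerivAt_sin t
  have hc := Real.hasDerivAt_cos t
  have h := (((hc.pow 2).mul_const q₀).add (((hs.mul hc).const_mul 2).mul_const b₀)).add
    ((hs.pow 2).mul_const c₀)
  refine h.congr_deriv ?_
  rw [arcB]; push_cast; ring

lemma hasDerivAt_arcB (t : ℝ) :
    HasDerivAt (arcB q₀ b₀ c₀) (arcC q₀ b₀ c₀ t - arcQ q₀ b₀ c₀ t) t := by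
  have hs := Real.hasDerivAt_sin t
  have hc := Real.hasDerivAt_cos t
  have h := ((hs.mul hc).mul_const (c₀ - q₀)).add (((hc.pow 2).sub (hs.pow 2)).mul_const b₀)
  refine h.congr_deriv ?_
  rw [arcC, arcQ]; push_cast; ring

lemma arc_add (t : ℝ) : arcQ q₀ b₀ c₀ t + arcC q₀ b₀ c₀ t = q₀ + c₀ := by
  rw [arcQ, arcC]
  linear_combination (q₀ + c₀) * Real.sin_sq_add_cos_sq t

lemma arc_det (t : ℝ) :
    arcQ q₀ b₀ c₀ t * arcC q₀ b₀ c₀ t - arcB q₀ b₀ c₀ t ^ 2 = q₀ * c₀ - b₀ ^ 2 := by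
  rw [arcQ, arcC, arcB]
  linear_combination (q₀ * c₀ - b₀ ^ 2) * (Real.sin t ^ 2 + Real.cos t ^ 2 + 1) *
    Real.sin_sq_add_cos_sq t

lemma arcQ_nonneg (hq : 0 ≤ q₀) (hc : 0 ≤ c₀) (hb : b₀ ^ 2 ≤ q₀ * c₀) (t : ℝ) :
    0 ≤ arcQ q₀ b₀ c₀ t ∧ 0 ≤ arcC q₀ b₀ c₀ t := by
  have h1 := arc_add (q₀ := q₀) (b₀ := b₀) (c₀ := c₀) t
  have h2 := arc_det (q₀ := q₀) (b₀ := b₀) (c₀ := c₀) t
  have h3 : 0 ≤ arcQ q₀ b₀ c₀ t * arcC q₀ b₀ c₀ t := by nlinarith [sq_nonneg (arcB q₀ b₀ c₀ t)]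
  constructor <;> by_contra hne <;> rw [not_le] at hne
  · have hC : arcC q₀ b₀ c₀ t ≤ 0 := by
      by_contra hC; rw [not_le] at hC; nlinarith [mul_neg_of_neg_of_pos hne hC]
    linarith
  · have hQ : arcQ q₀ b₀ c₀ t ≤ 0 := by
      by_contra hQ; rw [not_le] at hQ; nlinarith [mul_neg_of_pos_of_neg hQ hne]
    linarith

/-- The crude bound on the second derivative. -/
def arcCrude (L q₀ c₀ : ℝ) : ℝ := 180 * √L * (q₀ + c₀ + 1)

/-- The bound on the second derivative for a concentrated state. -/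
def arcFine (L α q₀ b₀ : ℝ) : ℝ := 1300 * L ^ 2 * (|q₀ - 1| + |b₀| + 6 * L * α)

/-- The pointwise bound on the second derivative of the loss along a great circle. -/
lemma second_deriv_le {m : ℕ} (hm : 0 < m) {L σ Q B C ρ : ℝ} (hL : 1 ≤ L) (hQ : 0 ≤ Q)
    (hC : 0 ≤ C) (hQC : Q + C ≤ 2 * L) (hB : B ^ 2 ≤ Q * C) (hρ : 0 < ρ) (hρ1 : ρ ≤ 1)
    (hσ : 0 < σ) (hσ2 : σ ^ 2 = Q + ρ) :
    lstep1 m σ / σ * (C - Q) + (lstep2 m σ - lstep1 m σ / σ) * (B ^ 2 / σ ^ 2) ≤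
        180 * √L * (Q + C + 1) ∧
      lstep1 m σ / σ * (C - Q) + (lstep2 m σ - lstep1 m σ / σ) * (B ^ 2 / σ ^ 2) ≤
        1300 * L ^ 2 * (|σ ^ 2 - 1| + |B|) := by
  have hsL : 1 ≤ √L := Real.one_le_sqrt.2 hL
  have hBC : B ^ 2 / σ ^ 2 ≤ C := by
    rw [div_le_iff₀ (by positivity), hσ2]; nlinarith [mul_nonneg hρ.le hC]
  have hB0 : 0 ≤ B ^ 2 / σ ^ 2 := by positivity
  have hsecond : (lstep2 m σ - lstep1 m σ / σ) * (B ^ 2 / σ ^ 2) ≤ 150 * (B ^ 2 / σ ^ 2) :=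
    mul_le_mul_of_nonneg_right ((le_abs_self _).trans (abs_lstep2_sub_le hm hσ)) hB0
  have hdiff : |C - Q| ≤ Q + C := abs_le.2 ⟨by linarith, by linarith⟩
  have hσL : σ ≤ 2 * √L := by
    refine le_of_pow_le_pow_left₀ two_ne_zero (by positivity) ?_
    rw [mul_pow, Real.sq_sqrt (by linarith), hσ2]; linarith
  have hnear : |σ - 1| ≤ 1 / 2 → lstep1 m σ / σ * (C - Q) ≤ 24 * |σ ^ 2 - 1| * (Q + C) := by
    intro h
    refine (le_abs_self _).trans ?_
    rw [abs_mul]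
    refine mul_le_mul ?_ hdiff (abs_nonneg _) (by positivity)
    rw [abs_div, abs_of_pos hσ, div_le_iff₀ hσ]
    nlinarith [abs_lstep1_le hm hσ.le, (abs_le.1 h).1, abs_nonneg (σ ^ 2 - 1)]
  have hfarfirst : 1 / 2 < |σ - 1| → lstep1 m σ / σ * (C - Q) ≤ 4 * √L * (Q + C) + 2 := by
    intro h
    rw [lstep1_outside hm (by linarith [winW_le m]), mul_div_assoc,
      mul_div_cancel_left₀ _ hσ.ne']
    rcases le_total 1 σ with h1 | h1
    · have e1 := Real.log_nonneg h1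
      have e2 : Real.log σ ≤ 2 * √L := by linarith [Real.log_le_sub_one_of_pos hσ]
      nlinarith [mul_le_mul e2 (le_refl C) hC (by positivity), mul_nonneg e1 hQ,
        mul_nonneg (Real.sqrt_nonneg L) hQ]
    · have e1 := Real.log_nonpos hσ.le h1
      have e2 : -(σ * Real.log σ) ≤ 1 := by
        have := mul_le_mul_of_nonneg_left (Real.one_sub_inv_le_log_of_pos hσ) hσ.le
        rw [mul_sub, mul_one, mul_inv_cancel₀ hσ.ne'] at this
        linarith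
      have e3 : -(Q * Real.log σ) ≤ -(σ ^ 2 * Real.log σ) := by
        nlinarith [mul_nonpos_of_nonneg_of_nonpos hρ.le e1]
      have e4 : -(σ ^ 2 * Real.log σ) ≤ 1 := by
        nlinarith [mul_le_mul h1 e2 (by nlinarith [mul_nonpos_of_nonneg_of_nonpos hσ.le e1])
          zero_le_one]
      nlinarith [mul_nonpos_of_nonneg_of_nonpos hC e1, mul_nonneg (Real.sqrt_nonneg L) hC,
        mul_nonneg (Real.sqrt_nonneg L) hQ]
  have hcrude : lstep1 m σ / σ * (C - Q) + (lstep2 m σ - lstep1 m σ / σ) * (B ^ 2 / σ ^ 2) ≤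
      180 * √L * (Q + C + 1) := by
    have hQC0 : 0 ≤ Q + C := by linarith
    have hm1 : Q + C ≤ √L * (Q + C) := le_mul_of_one_le_left hQC0 hsL
    rcases le_or_gt |σ - 1| (1 / 2) with h | h
    · have h2 : |σ ^ 2 - 1| ≤ 5 / 4 := by
        obtain ⟨a, b⟩ := abs_le.1 h
        exact abs_le.2 ⟨by nlinarith, by nlinarith⟩
      linarith [hnear h, mul_le_mul_of_nonneg_right h2 hQC0, mul_nonneg (Real.sqrt_nonneg L) hQC0]
    · linarith [hfarfirst h, mul_nonneg (Real.sqrt_nonneg L) hQC0]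
  refine ⟨hcrude, ?_⟩
  rcases le_or_gt |σ - 1| (1 / 2) with h | h
  · have hσlow : 1 / 4 ≤ σ ^ 2 := by nlinarith [(abs_le.1 h).1]
    have hB2 : |B| ≤ 2 * L := by
      refine abs_le_of_sq_le_sq ?_ (by linarith)
      nlinarith [sq_nonneg (Q - C)]
    have e1 : B ^ 2 / σ ^ 2 ≤ 8 * L * |B| := by
      rw [div_le_iff₀ (by positivity), ← sq_abs]
      nlinarith [mul_le_mul_of_nonneg_left hB2 (abs_nonneg B),
        mul_le_mul_of_nonneg_left hσlow (by positivity : 0 ≤ L * |B|)]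
    have hLL : L ≤ L ^ 2 := le_self_pow₀ hL two_ne_zero
    have e2 : 24 * |σ ^ 2 - 1| * (Q + C) ≤ 48 * L ^ 2 * |σ ^ 2 - 1| :=
      calc 24 * |σ ^ 2 - 1| * (Q + C) ≤ 24 * |σ ^ 2 - 1| * (2 * L) :=
            mul_le_mul_of_nonneg_left hQC (by positivity)
        _ = 48 * L * |σ ^ 2 - 1| := by ring
        _ ≤ _ := by gcongr
    have e3 : 150 * (B ^ 2 / σ ^ 2) ≤ 1200 * L ^ 2 * |B| :=
      calc 150 * (B ^ 2 / σ ^ 2) ≤ 150 * (8 * L * |B|) :=
            mul_le_mul_of_nonneg_left e1 (by norm_num)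
        _ = 1200 * L * |B| := by ring
        _ ≤ _ := by gcongr
    have e4 : 0 ≤ L ^ 2 * |σ ^ 2 - 1| := by positivity
    have e5 : 0 ≤ L ^ 2 * |B| := by positivity
    linarith [hnear h]
  · have h2 : 1 / 2 ≤ |σ ^ 2 - 1| := by
      rw [show σ ^ 2 - 1 = (σ - 1) * (σ + 1) by ring, abs_mul, abs_of_pos (by linarith : 0 < σ + 1)]
      nlinarith
    refine hcrude.trans ?_
    have h3 : √L ≤ L := (Real.sqrt_le_left (by linarith)).2 (by nlinarith)
    calc 180 * √L * (Q + C + 1) ≤ 180 * L * (3 * L) := by gcongr; linarith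
      _ = 540 * L ^ 2 := by ring
      _ ≤ 1300 * L ^ 2 * (1 / 2) := by linarith [sq_nonneg L]
      _ ≤ _ := mul_le_mul_of_nonneg_left (by linarith [abs_nonneg B]) (by positivity)

lemma arc_dev {L t : ℝ} (ht : 0 ≤ t) (hq : 0 ≤ q₀) (hc : 0 ≤ c₀) (hb : b₀ ^ 2 ≤ q₀ * c₀)
    (hqL : q₀ ≤ L) (hcL : c₀ ≤ L) :
    |arcQ q₀ b₀ c₀ t - q₀| ≤ 4 * L * t ∧ |arcB q₀ b₀ c₀ t| ≤ |b₀| + 2 * L * t := by
  have hs : |Real.sin t| ≤ t := (Real.abs_sin_le_abs).trans_eq (abs_of_nonneg ht)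
  have hs2 : Real.sin t ^ 2 ≤ t := by
    rw [← sq_abs, sq]
    exact (mul_le_of_le_one_left (abs_nonneg _) (Real.abs_sin_le_one t)).trans hs
  have hbL : |b₀| ≤ L := abs_le_of_sq_le_sq (by nlinarith) (hq.trans hqL)
  have hd : |c₀ - q₀| ≤ L := abs_le.2 ⟨by linarith, by linarith⟩
  have hsc : |Real.sin t * Real.cos t| ≤ t := by
    rw [abs_mul]; exact (mul_le_of_le_one_right (abs_nonneg _) (Real.abs_cos_le_one t)).trans hs
  constructor
  · rw [show arcQ q₀ b₀ c₀ t - q₀ =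
        Real.sin t ^ 2 * (c₀ - q₀) + 2 * (Real.sin t * Real.cos t) * b₀ by
      rw [arcQ]; linear_combination q₀ * Real.sin_sq_add_cos_sq t]
    refine (abs_add_le _ _).trans ?_
    rw [abs_mul, abs_mul, abs_mul 2, abs_two, abs_of_nonneg (sq_nonneg (Real.sin t))]
    calc Real.sin t ^ 2 * |c₀ - q₀| + 2 * |Real.sin t * Real.cos t| * |b₀| ≤ t * L + 2 * t * L := by
          gcongr
      _ ≤ _ := by nlinarith [mul_nonneg ht (hq.trans hqL)]
  · rw [arcB]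
    refine (abs_add_le _ _).trans ?_
    rw [abs_mul, abs_mul (_ - _)]
    have h1 : |Real.cos t ^ 2 - Real.sin t ^ 2| ≤ 1 := abs_le.2
      ⟨by nlinarith [Real.sin_sq_add_cos_sq t, sq_nonneg (Real.cos t)],
        by nlinarith [Real.sin_sq_add_cos_sq t, sq_nonneg (Real.sin t)]⟩
    calc |Real.sin t * Real.cos t| * |c₀ - q₀| + |Real.cos t ^ 2 - Real.sin t ^ 2| * |b₀|
        ≤ t * L + 1 * |b₀| := by gcongr
      _ ≤ _ := by nlinarith [mul_nonneg ht (hq.trans hqL)]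

/-- The loss at the end of an arc, to second order. -/
lemma lstep_arc_le {m : ℕ} (hm : 0 < m) {L α : ℝ} (hL : 1 ≤ L) (hα : 0 ≤ α)
    (hq : 0 ≤ q₀) (hc : 0 ≤ c₀) (hb : b₀ ^ 2 ≤ q₀ * c₀) (hqL : q₀ ≤ L) (hcL : c₀ ≤ L) :
    lstep m √(arcQ q₀ b₀ c₀ α) ≤ lstep m √q₀ + lstep1 m √q₀ * (b₀ / √q₀) * α +
      min (arcCrude L q₀ c₀) (arcFine L α q₀ b₀) * α ^ 2 / 2 := by
  set Q := arcQ q₀ b₀ c₀
  set B := arcB q₀ b₀ c₀
  set C := arcC q₀ b₀ c₀
  have hQ := fun t => (arcQ_nonneg hq hc hb t).1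
  have hC := fun t => (arcQ_nonneg hq hc hb t).2
  have hQ0 : Q 0 = q₀ := by simp [Q, arcQ]
  have hB0 : B 0 = b₀ := by simp [B, arcB]
  have approx : ∀ ρ : ℝ, 0 < ρ → ρ ≤ 1 →
      lstep m √(Q α + ρ) ≤ lstep m √(q₀ + ρ) + lstep1 m √(q₀ + ρ) * (b₀ / √(q₀ + ρ)) * α +
        (min (arcCrude L q₀ c₀) (arcFine L α q₀ b₀) + 1300 * L ^ 2 * ρ) * α ^ 2 / 2 := by
    intro ρ hρ hρ1
    set σ : ℝ → ℝ := fun t => √(Q t + ρ)
    have hσ : ∀ t, 0 < σ t := fun t => Real.sqrt_pos.2 (by linarith [hQ t])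
    have hσd : ∀ t, HasDerivAt σ (B t / σ t) t := fun t => by
      have := ((hasDerivAt_arcQ (q₀ := q₀) (b₀ := b₀) (c₀ := c₀) t).add_const ρ).sqrt
        (ne_of_gt (show 0 < Q t + ρ by linarith [hQ t]))
      refine this.congr_deriv ?_
      simp only [σ, B, Q]; field_simp
    have h1 : ∀ t, HasDerivAt (fun t => lstep m (σ t)) (lstep1 m (σ t) * (B t / σ t)) t :=
      fun t => (hasDerivAt_lstep hm (hσ t)).comp t (hσd t)
    have h2 : ∀ t, HasDerivAt (fun t => lstep1 m (σ t) * (B t / σ t))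
        (lstep1 m (σ t) / σ t * (C t - Q t) +
          (lstep2 m (σ t) - lstep1 m (σ t) / σ t) * (B t ^ 2 / σ t ^ 2)) t := fun t => by
      have := (((hasDerivAt_lstep1 hm (hσ t)).comp t (hσd t)).fun_mul
        ((hasDerivAt_arcB (q₀ := q₀) (b₀ := b₀) (c₀ := c₀) t).fun_div (hσd t) (hσ t).ne'))
      refine this.congr_deriv ?_
      simp only [Function.comp_apply, B, C, Q]
      have := (hσ t).ne'
      field_simp
      ring
    have hM : ∀ t ∈ Icc 0 α, lstep1 m (σ t) / σ t * (C t - Q t) +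
        (lstep2 m (σ t) - lstep1 m (σ t) / σ t) * (B t ^ 2 / σ t ^ 2) ≤
        min (arcCrude L q₀ c₀) (arcFine L α q₀ b₀) + 1300 * L ^ 2 * ρ := by
      intro t ht
      have hs : σ t ^ 2 = Q t + ρ := Real.sq_sqrt (by linarith [hQ t])
      have hadd := arc_add (q₀ := q₀) (b₀ := b₀) (c₀ := c₀) t
      have hdet := arc_det (q₀ := q₀) (b₀ := b₀) (c₀ := c₀) t
      obtain ⟨e1, e2⟩ := second_deriv_le hm hL (hQ t) (hC t)
        (by simp only [Q, C] at *; linarith) (B := B t) (by simp only [B]; linarith)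
        hρ hρ1 (hσ t) hs
      rw [show Q t + C t = q₀ + c₀ from hadd] at e1
      rw [← min_add_add_right]
      refine le_min ?_ ?_
      · rw [arcCrude]
        linarith [(by positivity : 0 ≤ 1300 * L ^ 2 * ρ)]
      · refine e2.trans ?_
        obtain ⟨d1, d2⟩ := arc_dev ht.1 hq hc hb hqL hcL
        have d3 : |σ t ^ 2 - 1| ≤ |q₀ - 1| + 4 * L * t + ρ := by
          rw [hs, show Q t + ρ - 1 = (q₀ - 1) + (Q t - q₀) + ρ by ring]
          refine (abs_add_le _ _).trans (add_le_add ((abs_add_le _ _).trans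
            (add_le_add le_rfl d1)) (abs_of_pos hρ).le)
        have d4 : |σ t ^ 2 - 1| + |B t| ≤ |q₀ - 1| + |b₀| + 6 * L * α + ρ := by
          have : L * t ≤ L * α := mul_le_mul_of_nonneg_left ht.2 (by linarith)
          linarith
        rw [arcFine, ← mul_add]
        exact mul_le_mul_of_nonneg_left d4 (by positivity)
    have := taylor_le hα h1 h2 hM
    simp only [σ, hQ0, hB0] at this
    exact this
  have hlim : ∀ x : ℝ, 0 ≤ x →
      Tendsto (fun ρ => lstep m √(x + ρ)) (𝓝[>] 0) (𝓝 (lstep m √x)) := by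
    intro x hx
    have hin : Tendsto (fun ρ => √(x + ρ)) (𝓝[>] 0) (𝓝[Ici 0] √x) := by
      refine tendsto_nhdsWithin_iff.2 ⟨?_, Eventually.of_forall fun ρ => Real.sqrt_nonneg _⟩
      have : Continuous fun ρ : ℝ => √(x + ρ) := by fun_prop
      simpa using this.continuousWithinAt.tendsto (x := (0 : ℝ)) (s := Ioi 0)
    exact ((continuousOn_lstep hm) _ (Real.sqrt_nonneg x)).tendsto.comp hin
  have hlim1 : Tendsto (fun ρ => lstep1 m √(q₀ + ρ) * (b₀ / √(q₀ + ρ))) (𝓝[>] 0)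
      (𝓝 (lstep1 m √q₀ * (b₀ / √q₀))) := by
    rcases hq.eq_or_lt with h | h
    · have : b₀ = 0 := by
        rw [← h, zero_mul] at hb
        exact pow_eq_zero_iff two_ne_zero |>.1 (le_antisymm hb (sq_nonneg _))
      simp [this]
    · have hc1 : ContinuousAt (fun ρ => lstep1 m √(q₀ + ρ) * (b₀ / √(q₀ + ρ))) 0 := by
        have hs : ContinuousAt (fun ρ : ℝ => √(q₀ + ρ)) 0 := by fun_prop
        have hl : ContinuousAt (lstep1 m) √(q₀ + 0) :=
          (hasDerivAt_lstep1 hm (by rw [add_zero]; exact Real.sqrt_pos.2 h)).continuousAt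
        exact (ContinuousAt.comp (f := fun ρ : ℝ => √(q₀ + ρ)) hl hs).mul
          (continuousAt_const.div hs (by simpa using (Real.sqrt_pos.2 h).ne'))
      simpa using hc1.continuousWithinAt.tendsto (s := Ioi 0)
  have hR : Tendsto (fun ρ : ℝ => (min (arcCrude L q₀ c₀) (arcFine L α q₀ b₀) +
      1300 * L ^ 2 * ρ) * α ^ 2 / 2) (𝓝[>] 0)
      (𝓝 (min (arcCrude L q₀ c₀) (arcFine L α q₀ b₀) * α ^ 2 / 2)) := by
    have : Continuous fun ρ : ℝ => (min (arcCrude L q₀ c₀) (arcFine L α q₀ b₀) +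
      1300 * L ^ 2 * ρ) * α ^ 2 / 2 := by fun_prop
    simpa using this.continuousWithinAt.tendsto (x := (0 : ℝ)) (s := Ioi 0)
  refine le_of_tendsto_of_tendsto (hlim _ (hQ α))
    (((hlim q₀ hq).add (hlim1.mul_const α)).add hR) ?_
  filter_upwards [self_mem_nhdsWithin,
    mem_nhdsWithin_of_mem_nhds (Iic_mem_nhds (show (0 : ℝ) < 1 by norm_num))] with ρ h1 h2
  exact approx ρ h1 h2

/-- The linear term is controlled by the two deviations. -/
lemma ratio_sq_le {L : ℝ} (hL : 1 ≤ L) (hq : 0 ≤ q₀) (hc : 0 ≤ c₀) (hb : b₀ ^ 2 ≤ q₀ * c₀)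
    (hqL : q₀ ≤ L) (hcL : c₀ ≤ L) :
    (b₀ / √q₀) ^ 2 ≤ c₀ ∧ (b₀ / √q₀) ^ 2 ≤ 4 * L * (|q₀ - 1| + |b₀|) := by
  rw [div_pow, Real.sq_sqrt hq]
  have h1 : b₀ ^ 2 / q₀ ≤ c₀ := by
    rcases hq.eq_or_lt with h | h
    · simp [← h, hc]
    · rw [div_le_iff₀ h]; linarith
  refine ⟨h1, ?_⟩
  have ha := abs_nonneg (q₀ - 1)
  have hb' := abs_nonneg b₀
  rcases le_or_gt (1 / 4) q₀ with h | h
  · have hbL : |b₀| ≤ L := abs_le_of_sq_le_sq (by nlinarith) (by linarith)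
    rw [div_le_iff₀ (by linarith), ← sq_abs]
    nlinarith [mul_le_mul_of_nonneg_left hbL hb',
      mul_le_mul_of_nonneg_left h (by positivity : 0 ≤ L * (|q₀ - 1| + |b₀|))]
  · have h2 : 3 / 4 ≤ |q₀ - 1| := by rw [abs_sub_comm]; linarith [le_abs_self (1 - q₀)]
    nlinarith

end Vale.Agent.P237.Sharp
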