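import Vale.Agent.P237.Sharp.Law
import Vale.Agent.P237.Sharp.ShapePath

/-!
P237: expectations along the tilted chain used for the shape of the loss.
-/

noncomputable section

open MeasureTheory Set Filter
open scoped RealInnerProductSpace Topology

namespace Vale.Agent.P237.Sharp

open Asymp

variable {n N : ℕ} {c : Fin N → ℝ} {u : Fin N → E n}

/-- The Cauchy-Schwarz inequality along the chain. -/
lemma tchain_abs_mul_le (hF : Frame c u) {k : ℕ} (hk : k ≤ n) {f g : List (E n) → ℝ} {A B : ℝ}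
    (hA : tchain c u k [] (fun es => f es ^ 2) ≤ A) (hB : tchain c u k [] (fun es => g es ^ 2) ≤ B) :
    tchain c u k [] (fun es => |f es * g es|) ≤ √A * √B := by
  have hk0 : ([] : List (E n)).length + k ≤ n := by simpa using hk
  have hA0 : 0 ≤ A := (tchain_nonneg hF k [] Ortho.nil hk0 fun fs _ _ => sq_nonneg _).trans hA
  have hB0 : 0 ≤ B := (tchain_nonneg hF k [] Ortho.nil hk0 fun fs _ _ => sq_nonneg _).trans hB
  have key : ∀ ε : ℝ, 0 < ε →
      tchain c u k [] (fun es => |f es * g es|) ≤ (√A + ε) * (√B + ε) := by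
    intro ε hε
    set a := √A + ε
    set b := √B + ε
    have ha : 0 < a := by positivity
    have hb : 0 < b := by positivity
    have hAa : A ≤ a ^ 2 := by nlinarith [Real.sq_sqrt hA0, Real.sqrt_nonneg A]
    have hBb : B ≤ b ^ 2 := by nlinarith [Real.sq_sqrt hB0, Real.sqrt_nonneg B]
    calc tchain c u k [] (fun es => |f es * g es|)
        ≤ tchain c u k [] (fun es => b / (2 * a) * f es ^ 2 + a / (2 * b) * g es ^ 2) := by
          refine tchain_mono hF k [] Ortho.nil hk0 fun fs _ _ => ?_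
          rw [abs_mul, ← sq_abs (f fs), ← sq_abs (g fs), div_mul_eq_mul_div, div_mul_eq_mul_div,
            div_add_div _ _ (by positivity) (by positivity), le_div_iff₀ (by positivity)]
          nlinarith [sq_nonneg (b * |f fs| - a * |g fs|)]
      _ = b / (2 * a) * tchain c u k [] (fun es => f es ^ 2) +
            a / (2 * b) * tchain c u k [] (fun es => g es ^ 2) := by
          rw [tchain_add, tchain_const_mul, tchain_const_mul]
      _ ≤ b / (2 * a) * a ^ 2 + a / (2 * b) * b ^ 2 := by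
          gcongr
          · exact hA.trans hAa
          · exact hB.trans hBb
      _ = a * b := by field_simp; ring
  have ht : Tendsto (fun ε : ℝ => (√A + ε) * (√B + ε)) (𝓝[>] 0) (𝓝 (√A * √B)) := by
    have : Continuous fun ε : ℝ => (√A + ε) * (√B + ε) := by fun_prop
    simpa using this.continuousWithinAt.tendsto (x := (0 : ℝ)) (s := Ioi 0)
  exact ge_of_tendsto ht (eventually_nhdsWithin_of_forall key)

/-- The squared relative length at the state of dimension `m`. -/
lemma sval_sq_eq {m : ℕ} (hm : m ≤ n) {es : List (E n)} (hl : es.length = n - m) (v : E n) :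
    sval es v ^ 2 = ‖perp es v‖ ^ 2 / ((m : ℝ) / n) := by
  rw [sval_sq (by omega), hl, Nat.cast_sub hm, sub_sub_cancel]

lemma sval_sq_le {m : ℕ} (hm : 0 < m) (hmn : m ≤ n) {es : List (E n)} (ho : Ortho es)
    (hl : es.length = n - m) {v : E n} (hv : ‖v‖ ≤ 1) : sval es v ^ 2 ≤ (n : ℝ) / m := by
  have hm' : (0 : ℝ) < m := by exact_mod_cast hm
  have hn : (0 : ℝ) < n := by exact_mod_cast hm.trans_le hmn
  rw [sval_sq_eq hmn hl, div_div_eq_mul_div]
  gcongr
  exact mul_le_of_le_one_left hn.le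
    (pow_le_one₀ (norm_nonneg _) ((ho.norm_perp_le v).trans hv))

/-- The tilted chain keeps the squared relative length, up to the width of the window. -/
lemma exists_sval_sq_mean :
    ∃ C : ℝ, 0 < C ∧ ∀ (n N : ℕ) (c : Fin N → ℝ) (u : Fin N → E n) (m : ℕ) (v : E n),
      Frame c u → 0 < m → m ≤ n → ‖v‖ = 1 →
      |tchain c u (n - m) [] (fun es => sval es v ^ 2) - 1| ≤ C * (m : ℝ) ^ (-(1 / 3) : ℝ) ∧
        tchain c u (n - m) [] (fun es => sval es v ^ 2) ≤ 1 + C := by
  obtain ⟨C, hC, h⟩ := secondMoment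
  refine ⟨C, hC, fun n N c u m v hF hm hmn hv => ?_⟩
  have hn : (0 : ℝ) < n := by exact_mod_cast hm.trans_le hmn
  have hm' : (0 : ℝ) < m := by exact_mod_cast hm
  have hk : n - m < n := by omega
  have h1 := h n N c u (n - m) v hF hk
  have hq : (1 : ℝ) - ((n - m : ℕ) : ℝ) / n = (m : ℝ) / n := by
    rw [Nat.cast_sub hmn]; field_simp; ring
  rw [hv, one_pow, mul_one, mul_one, hq, Nat.cast_sub hmn, sub_sub_cancel] at h1
  set T := tchain c u (n - m) [] fun es => ‖perp es v‖ ^ 2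
  have he : tchain c u (n - m) [] (fun es => sval es v ^ 2) = ((m : ℝ) / n)⁻¹ * T := by
    rw [← tchain_const_mul]
    refine tchain_congr hF _ [] Ortho.nil (by simp) fun fs _ hl => ?_
    rw [sval_sq_eq hmn (by simpa using hl), inv_mul_eq_div]
  have h2 : |((m : ℝ) / n)⁻¹ * T - 1| ≤ C * (m : ℝ) ^ (-(1 / 3) : ℝ) := by
    rw [show ((m : ℝ) / n)⁻¹ * T - 1 = ((m : ℝ) / n)⁻¹ * (T - (m : ℝ) / n) by
      rw [mul_sub, inv_mul_cancel₀ (by positivity)], abs_mul,
      abs_of_pos (by positivity : 0 < ((m : ℝ) / n)⁻¹), inv_mul_le_iff₀ (by positivity)]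
    linarith
  rw [he]
  refine ⟨h2, ?_⟩
  have h3 : (m : ℝ) ^ (-(1 / 3) : ℝ) ≤ 1 :=
    Real.rpow_le_one_of_one_le_of_nonpos (by exact_mod_cast hm) (by norm_num)
  linarith [(abs_le.1 h2).2, mul_le_of_le_one_right hC.le h3]

/-- The mean deviations of a good direction are small. -/
lemma dev_small (η κ : ℝ) (hη : 0 < η) (hκ : 0 < κ) :
    ∃ n₀ : ℕ, ∀ (n N : ℕ) (c : Fin N → ℝ) (u : Fin N → E n) (m : ℕ) (θ h : E n), n₀ ≤ n →
      Frame c u → GoodDir c u θ → ‖h‖ ≤ 1 → 0 < m → m ≤ n → η * n ≤ m →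
      tchain c u (n - m) [] (fun es => |⟪perp es θ, h⟫ - (m : ℝ) / n * ⟪θ, h⟫|) ≤
        κ * ((m : ℝ) / n) := by
  obtain ⟨n₀, hn₀⟩ := goodVariance η ((κ * η) ^ 2) hη (by positivity)
  refine ⟨n₀, fun n N c u m θ h hn hF hg hh hm hmn hηm => ?_⟩
  have hn' : (0 : ℝ) < n := by exact_mod_cast hm.trans_le hmn
  have hk0 : ([] : List (E n)).length + (n - m) ≤ n := by simp
  rcases eq_or_ne h 0 with rfl | hne
  · simp only [inner_zero_right, mul_zero, sub_zero, abs_zero]
    rw [tchain_const hF _ [] Ortho.nil hk0]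
    positivity
  set h' := ‖h‖⁻¹ • h
  have hh' : ‖h'‖ = 1 := by
    rw [norm_smul, norm_inv, norm_norm, inv_mul_cancel₀ (norm_ne_zero_iff.2 hne)]
  have h1 := hn₀ n N c u θ h' (n - m) hn hF hg hh' (by omega)
    (by rw [Nat.cast_sub hmn, sub_sub_cancel]; exact hηm)
  have hq : (1 : ℝ) - ((n - m : ℕ) : ℝ) / n = (m : ℝ) / n := by
    rw [Nat.cast_sub hmn]; field_simp; ring
  rw [hq] at h1
  have h2 : tchain c u (n - m) []
      (fun es => |(⟪perp es θ, h'⟫ - (m : ℝ) / n * ⟪θ, h'⟫) * 1|) ≤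
        √((κ * η) ^ 2) * √(1 : ℝ) :=
    tchain_abs_mul_le hF (by omega) (g := fun _ => (1 : ℝ)) h1
      (by rw [one_pow, tchain_const hF _ [] Ortho.nil hk0])
  rw [Real.sqrt_sq (by positivity), Real.sqrt_one, mul_one] at h2
  simp only [mul_one] at h2
  refine (tchain_mono hF _ [] Ortho.nil hk0
    (g := fun es => |⟪perp es θ, h'⟫ - (m : ℝ) / n * ⟪θ, h'⟫|) fun es _ _ => ?_).trans ?_
  · simp only [h', real_inner_smul_right]
    rw [mul_left_comm, ← mul_sub, abs_mul, abs_of_nonneg (by positivity : 0 ≤ ‖h‖⁻¹)]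
    exact le_mul_of_one_le_left (abs_nonneg _)
      (one_le_inv₀ (norm_pos_iff.2 hne) |>.2 hh)
  · refine h2.trans (mul_le_mul_of_nonneg_left ?_ hκ.le)
    rwa [le_div_iff₀ hn']

/-- An average over the sphere passes through the chain. -/
lemma sphAvg_tchain_le (hF : Frame c u) (f : List (E n) → E n → ℝ) (K : ℕ) (B : ℝ)
    (hf : ∀ es, Ortho es → es.length = K → DirInt (f es) ∧ sphAvg (f es) ≤ B) (k : ℕ) :
    ∀ es, Ortho es → es.length + k = K → K ≤ n →
      DirInt (fun v => tchain c u k es fun fs => f fs v) ∧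
        sphAvg (fun v => tchain c u k es fun fs => f fs v) ≤ B := by
  induction k with
  | zero => intro es ho hl _; exact hf es ho hl
  | succ k ih =>
    intro es ho hl hK
    have hterm : ∀ i, DirInt (fun v => tprob c u es i * tchain c u k (nxt es (u i)) fun fs => f fs v) ∧
        sphAvg (fun v => tprob c u es i * tchain c u k (nxt es (u i)) fun fs => f fs v) ≤
          tprob c u es i * B := fun i => by
      by_cases hx : perp es (u i) = 0
      · simp [tprob_eq_zero hx, DirInt, sphAvg]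
      · obtain ⟨h1, h2⟩ := ih _ (ho.nxt hx) (by rw [length_nxt]; omega) hK
        exact ⟨h1.const_mul _, by
          rw [sphAvg_const_mul]
          exact mul_le_mul_of_nonneg_left h2 (tprob_nonneg hF ho (by omega) i)⟩
    refine ⟨?_, ?_⟩
    · exact integrable_finsetSum _ fun i _ => (hterm i).1
    · simp only [tchain, sphAvg]
      rw [integral_finsetSum _ fun i _ => (hterm i).1, Finset.mul_sum]
      refine (Finset.sum_le_sum fun i _ => (hterm i).2).trans_eq ?_
      rw [← Finset.sum_mul, sum_tprob hF ho (by omega), one_mul]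

/-- The squared slope of the loss. -/
def slopeSq (c : Fin N → ℝ) (u : Fin N → E n) (m : ℕ) (θ : E n) : ℝ :=
  tchain c u (n - m) [] fun es => lstep1 m (sval es θ) ^ 2

lemma slopeSq_nonneg (hF : Frame c u) (m : ℕ) (θ : E n) : 0 ≤ slopeSq c u m θ :=
  tchain_nonneg hF _ [] Ortho.nil (by simp) fun _ _ _ => sq_nonneg _

lemma measurable_slopeSq (c : Fin N → ℝ) (u : Fin N → E n) (m : ℕ) :
    Measurable (slopeSq c u m) :=
  measurable_tchain (fun es θ => lstep1 m (sval es θ) ^ 2)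
    (fun es => ((measurable_lstep1 m).comp (continuous_sval es).measurable).pow_const 2) _ _

lemma lstep1_sq_le {m : ℕ} (hm : 0 < m) {s : ℝ} (hs : 0 ≤ s) :
    lstep1 m s ^ 2 ≤ 144 * (s ^ 2 - 1) ^ 2 := by
  have h := pow_le_pow_left₀ (abs_nonneg _) (abs_lstep1_le hm hs) 2
  rw [sq_abs, mul_pow, sq_abs] at h
  linarith

lemma dev_sq_le {m : ℕ} (hm : 0 < m) (hmn : m ≤ n) {es : List (E n)} (ho : Ortho es)
    (hl : es.length = n - m) {v : E n} (hv : ‖v‖ ≤ 1) :
    (sval es v ^ 2 - 1) ^ 2 ≤ (n : ℝ) / m * (sval es v ^ 2 + 1) := by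
  have h1 := sval_sq_le hm hmn ho hl hv
  have h2 : 1 ≤ (n : ℝ) / m := by
    rw [one_le_div (by exact_mod_cast hm)]; exact_mod_cast hmn
  have h3 := sq_nonneg (sval es v)
  nlinarith

/-- The slope is square-integrable with a bound of order `1 / m`. -/
lemma slopeSq_avg_le (hP : ProjMoments) :
    ∃ C : ℝ, 0 < C ∧ ∀ (n N : ℕ) (c : Fin N → ℝ) (u : Fin N → E n) (m : ℕ), Frame c u → 0 < m →
      m ≤ n → DirInt (slopeSq c u m) ∧ sphAvg (slopeSq c u m) ≤ C / m := by
  obtain ⟨C, hC, hP⟩ := hP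
  refine ⟨144 * C, by positivity, fun n N c u m hF hm hmn => ?_⟩
  refine sphAvg_tchain_le hF (fun es v => lstep1 m (sval es v) ^ 2) (n - m) _ (fun es ho hl => ?_)
    (n - m) [] Ortho.nil (by simp) (by omega)
  have hms : Measurable fun v => sval es v := (continuous_sval es).measurable
  set L := (n : ℝ) / m
  have hb : ∀ v : E n, ‖v‖ ≤ 1 → (sval es v ^ 2 - 1) ^ 2 ≤ L * (L + 1) := fun v hv =>
    (dev_sq_le hm hmn ho hl hv).trans (mul_le_mul_of_nonneg_left
      (by linarith [sval_sq_le hm hmn ho hl hv]) (by positivity))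
  have h1 : DirInt fun v => lstep1 m (sval es v) ^ 2 := by
    refine .of_bounded (((measurable_lstep1 m).comp hms).pow_const 2) (B := 144 * (L * (L + 1)))
      fun v hv => ?_
    rw [abs_of_nonneg (sq_nonneg _)]
    exact (lstep1_sq_le hm (sval_nonneg es v)).trans (mul_le_mul_of_nonneg_left (hb v hv)
      (by norm_num))
  have h2 : DirInt fun v => (sval es v ^ 2 - 1) ^ 2 := by
    refine .of_bounded (((hms.pow_const 2).sub_const 1).pow_const 2) (B := L * (L + 1))
      fun v hv => ?_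
    rw [abs_of_nonneg (sq_nonneg _)]
    exact hb v hv
  refine ⟨h1, (sphAvg_mono h1 (h2.const_mul 144) (hm.trans_le hmn)
    fun v _ => lstep1_sq_le hm (sval_nonneg es v)).trans ?_⟩
  rw [sphAvg_const_mul]
  have h3 := (hP n es ho (by omega)).1
  rw [hl, Nat.cast_sub hmn, sub_sub_cancel] at h3
  exact (mul_le_mul_of_nonneg_left h3 (by norm_num)).trans_eq (by ring)

/-- An average of terms of order `√(n/m)` that are small above `η n`. -/
lemma rate_avg_le {n m₀ : ℕ} (hn : 0 < n) {η A B : ℝ} (hη : 0 ≤ η) (hA : 0 ≤ A) (hB : 0 ≤ B)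
    (a : ℕ → ℝ) (h1 : ∀ m, 0 < m → m ≤ n → a m ≤ A * √((n : ℝ) / m))
    (h2 : ∀ m, 0 < m → m ≤ n → η * n ≤ m → a m ≤ B) :
    (n : ℝ)⁻¹ * ∑ m ∈ Finset.Ioc m₀ n, a m ≤ 2 * A * √η + B := by
  set S := (Finset.Ioc 0 n).filter fun m : ℕ => (m : ℝ) < η * n
  have hroot : ∀ M : ℕ, ∑ m ∈ Finset.Ioc 0 M, (√(m : ℝ))⁻¹ ≤ 2 * √(M : ℝ) := by
    intro M
    induction M with
    | zero => simp
    | succ M ih =>
      rw [Finset.sum_Ioc_succ_top (Nat.zero_le M)]
      refine (add_le_add ih le_rfl).trans ?_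
      set a := √(M : ℝ)
      set b := √((M + 1 : ℕ) : ℝ)
      have hb : 0 < b := Real.sqrt_pos.2 (by positivity)
      have hab : b ^ 2 - a ^ 2 = 1 := by
        rw [Real.sq_sqrt (by positivity), Real.sq_sqrt (by positivity)]; push_cast; ring
      have hle : a ≤ b := Real.sqrt_le_sqrt (by push_cast; linarith)
      have : b⁻¹ ≤ 2 * (b - a) := by
        rw [inv_le_iff_one_le_mul₀ hb]
        nlinarith [mul_nonneg (sub_nonneg.2 hle) (sub_nonneg.2 hle)]
      linarith
  have hn' : (0 : ℝ) < n := by exact_mod_cast hn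
  have hsum : ∑ m ∈ S, √((n : ℝ) / m) ≤ 2 * √η * n := by
    have hsub : S ⊆ Finset.Ioc 0 ⌊η * n⌋₊ := fun m hm => by
      simp only [S, Finset.mem_filter, Finset.mem_Ioc] at hm ⊢
      exact ⟨hm.1.1, Nat.le_floor hm.2.le⟩
    refine (Finset.sum_le_sum_of_subset_of_nonneg hsub fun m _ _ => Real.sqrt_nonneg _).trans ?_
    rw [Finset.sum_congr rfl fun (m : ℕ) _ =>
      show √((n : ℝ) / m) = √(n : ℝ) * (√(m : ℝ))⁻¹ by rw [Real.sqrt_div hn'.le, div_eq_mul_inv],
      ← Finset.mul_sum]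
    refine (mul_le_mul_of_nonneg_left ((hroot _).trans (mul_le_mul_of_nonneg_left
      (Real.sqrt_le_sqrt (Nat.floor_le (by positivity))) (by norm_num)))
      (Real.sqrt_nonneg _)).trans_eq ?_
    rw [Real.sqrt_mul hη]
    linear_combination 2 * √η * Real.mul_self_sqrt hn'.le
  have hmain : ∑ m ∈ Finset.Ioc m₀ n, a m ≤ A * ∑ m ∈ S, √((n : ℝ) / m) + B * n := by
    calc ∑ m ∈ Finset.Ioc m₀ n, a m
        ≤ ∑ m ∈ Finset.Ioc m₀ n, ((if (m : ℝ) < η * n then A * √((n : ℝ) / m) else 0) + B) := by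
          refine Finset.sum_le_sum fun m hm => ?_
          rw [Finset.mem_Ioc] at hm
          split_ifs with h
          · linarith [h1 m (by omega) hm.2]
          · linarith [h2 m (by omega) hm.2 (not_lt.1 h)]
      _ ≤ ∑ m ∈ Finset.Ioc 0 n, ((if (m : ℝ) < η * n then A * √((n : ℝ) / m) else 0) + B) :=
          Finset.sum_le_sum_of_subset_of_nonneg (Finset.Ioc_subset_Ioc_left (Nat.zero_le _))
            fun m _ _ => by split_ifs <;> positivity
      _ = _ := by
          rw [Finset.sum_add_distrib, ← Finset.sum_filter, Finset.mul_sum, Finset.sum_const,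
            Nat.card_Ioc, nsmul_eq_mul, Nat.sub_zero, mul_comm B]
  rw [inv_mul_le_iff₀ hn']
  nlinarith [mul_le_mul_of_nonneg_left hsum hA]

end Vale.Agent.P237.Sharp
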