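import Vale.Agent.P237.Sharp.ShapeChain
import Vale.Agent.P237.Asymp.StepBound

/-!
P237: the loss at any direction, from the entropy along the chain at a good direction.
-/

noncomputable section

open MeasureTheory Set Filter
open scoped RealInnerProductSpace Topology

namespace Vale.Agent.P237.Sharp

open Asymp

variable {n N : ℕ} {c : Fin N → ℝ} {u : Fin N → E n}

/-- The logarithms of the ratios sum to at most `n`. -/
lemma sum_log_ratio_le (n : ℕ) :
    ∑ m ∈ Finset.Ioc 0 n, Real.log ((n : ℝ) / m) ≤ n := by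
  rcases Nat.eq_zero_or_pos n with rfl | hn
  · simp
  have hn' : (0 : ℝ) < n := by exact_mod_cast hn
  have hfac : ∀ M : ℕ, ∑ m ∈ Finset.Ioc 0 M, Real.log (m : ℝ) = Real.log (M.factorial : ℝ) := by
    intro M
    induction M with
    | zero => simp
    | succ M ih =>
      rw [Finset.sum_Ioc_succ_top (Nat.zero_le M), ih, Nat.factorial_succ, Nat.cast_mul,
        Real.log_mul (by positivity) (by positivity)]
      ring
  have h := Real.pow_div_factorial_le_exp (x := (n : ℝ)) hn'.le n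
  have h2 := Real.log_le_log (by positivity) h
  rw [Real.log_div (by positivity) (by positivity), Real.log_pow, Real.log_exp] at h2
  calc ∑ m ∈ Finset.Ioc 0 n, Real.log ((n : ℝ) / m)
      = ∑ m ∈ Finset.Ioc 0 n, (Real.log n - Real.log (m : ℝ)) :=
        Finset.sum_congr rfl fun m hm => Real.log_div hn'.ne'
          (by exact_mod_cast (Finset.mem_Ioc.1 hm).1.ne')
    _ ≤ n := by
        rw [Finset.sum_sub_distrib, Finset.sum_const, Nat.card_Ioc, nsmul_eq_mul, Nat.sub_zero,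
          hfac]
        exact h2

lemma xi_sval {m : ℕ} (hm : 0 < m) (hmn : m ≤ n) {es : List (E n)} (hl : es.length = n - m)
    (v : E n) :
    xi (sval es v) = (2 * ((m : ℝ) / n))⁻¹ * (‖perp es v‖ ^ 2 * Real.log (‖perp es v‖ ^ 2)) +
      (Real.log ((n : ℝ) / m) - 1) / 2 * sval es v ^ 2 + 1 / 2 := by
  have hn : (0 : ℝ) < n := by exact_mod_cast hm.trans_le hmn
  have hm' : (0 : ℝ) < m := by exact_mod_cast hm
  set t := ‖perp es v‖ ^ 2 with ht
  have hs := sval_sq_eq hmn hl v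
  rw [← ht] at hs
  rw [show Real.log ((n : ℝ) / m) = -Real.log ((m : ℝ) / n) by rw [← Real.log_inv, inv_div]]
  set q := (m : ℝ) / n
  have hq : 0 < q := by positivity
  have hx : xi (sval es v) = sval es v ^ 2 * Real.log (sval es v ^ 2) / 2 -
      (sval es v ^ 2 - 1) / 2 := by
    rw [xi, Real.log_pow]; push_cast; ring
  rw [hx, hs]
  have : t / q * Real.log (t / q) = t / q * (Real.log t - Real.log q) := by
    rcases eq_or_ne t 0 with h0 | h0
    · simp [h0]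
    · rw [Real.log_div h0 hq.ne']
  rw [this]
  field_simp
  ring

/-- The mean loss of a step, in terms of the entropy. -/
lemma step_loss_le (hF : Frame c u) {m : ℕ} (hm : 0 < m) (hmn : m ≤ n) {C : ℝ} {v : E n}
    (hv2 : |tchain c u (n - m) [] (fun es => sval es v ^ 2) - 1| ≤ C * (m : ℝ) ^ (-(1 / 3) : ℝ)) :
    tchain c u (n - m) [] (fun es => lstep m (sval es v)) ≤
      (2 * ((m : ℝ) / n))⁻¹ *
          tchain c u (n - m) [] (fun es => ‖perp es v‖ ^ 2 * Real.log (‖perp es v‖ ^ 2)) +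
        Real.log ((n : ℝ) / m) / 2 + C * (m : ℝ) ^ (-(1 / 3) : ℝ) *
          ((Real.log ((n : ℝ) / m) + 1) / 2) + 2 * winW m ^ 2 := by
  have hk0 : ([] : List (E n)).length + (n - m) ≤ n := by simp
  have hℓ : 0 ≤ Real.log ((n : ℝ) / m) :=
    Real.log_nonneg (by rw [one_le_div (by exact_mod_cast hm)]; exact_mod_cast hmn)
  set ℓ := Real.log ((n : ℝ) / m)
  calc tchain c u (n - m) [] (fun es => lstep m (sval es v))
      ≤ tchain c u (n - m) [] (fun es =>
          (2 * ((m : ℝ) / n))⁻¹ * (‖perp es v‖ ^ 2 * Real.log (‖perp es v‖ ^ 2)) +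
            (ℓ - 1) / 2 * sval es v ^ 2 + (1 / 2 + 2 * winW m ^ 2)) := by
        refine tchain_mono hF _ [] Ortho.nil hk0 fun es _ hl => ?_
        linarith [lstep_le_xi_add hm (sval_nonneg es v), xi_sval hm hmn (by simpa using hl) v]
    _ = (2 * ((m : ℝ) / n))⁻¹ *
          tchain c u (n - m) [] (fun es => ‖perp es v‖ ^ 2 * Real.log (‖perp es v‖ ^ 2)) +
          (ℓ - 1) / 2 * tchain c u (n - m) [] (fun es => sval es v ^ 2) +
          (1 / 2 + 2 * winW m ^ 2) := by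
        rw [tchain_add, tchain_add, tchain_const_mul, tchain_const_mul,
          tchain_const hF _ [] Ortho.nil hk0]
    _ ≤ _ := by
        set S := tchain c u (n - m) [] (fun es => sval es v ^ 2)
        have h1 : (ℓ - 1) / 2 * (S - 1) ≤ (ℓ + 1) / 2 * (C * (m : ℝ) ^ (-(1 / 3) : ℝ)) := by
          refine (le_abs_self _).trans ?_
          rw [abs_mul]
          refine mul_le_mul ?_ hv2 (abs_nonneg _) (by positivity)
          rw [abs_div, abs_two]
          gcongr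
          exact abs_le.2 ⟨by linarith, by linarith⟩
        linarith

/-- The entropy at a direction, from the deviations at a good one. -/
lemma entropy_le (hF : Frame c u) {m : ℕ} (hm : 0 < m) (hmn : m ≤ n) {θ v : E n} {d κ : ℝ}
    (hθ : ‖θ‖ = 1) (hv : ‖v‖ = 1) (hd : 0 < d) (hd1 : d ≤ 1)
    (hA : tchain c u (n - m) [] (fun es => |⟪perp es θ, θ⟫ - (m : ℝ) / n * ⟪θ, θ⟫|) ≤
      κ * ((m : ℝ) / n))
    (hB : tchain c u (n - m) [] (fun es => |⟪perp es θ, v - ⟪v, θ⟫ • θ⟫ -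
      (m : ℝ) / n * ⟪θ, v - ⟪v, θ⟫ • θ⟫|) ≤ κ * ((m : ℝ) / n)) :
    tchain c u (n - m) [] (fun es => ‖perp es v‖ ^ 2 * Real.log (‖perp es v‖ ^ 2)) ≤
      ⟪v, θ⟫ ^ 2 * ((m : ℝ) / n * Real.log ((m : ℝ) / n)) + d +
        (|Real.log d| + 2) * (3 * (κ * ((m : ℝ) / n))) := by
  have hk0 : ([] : List (E n)).length + (n - m) ≤ n := by simp
  set q := (m : ℝ) / n
  have hn : (0 : ℝ) < n := by exact_mod_cast hm.trans_le hmn
  have hq0 : 0 ≤ q := by positivity
  have hq1 : q ≤ 1 := (div_le_one hn).2 (by exact_mod_cast hmn)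
  set t := ⟪v, θ⟫ with htdef
  set w := v - t • θ with hwdef
  have hvw : v = t • θ + w := by rw [hwdef]; abel
  have hxx : ⟪θ, θ⟫ = 1 := by rw [real_inner_self_eq_norm_sq, hθ]; norm_num
  have hxw : ⟪θ, w⟫ = 0 := by
    rw [hwdef, inner_sub_right, real_inner_smul_right, hxx, htdef, real_inner_comm]; ring
  have hw2 : ‖w‖ ^ 2 = 1 - t ^ 2 := by
    have := norm_add_sq_real (t • θ) w
    rw [← hvw, hv, real_inner_smul_left, hxw, norm_smul, hθ, Real.norm_eq_abs, mul_one,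
      sq_abs] at this
    linarith
  have ht2 : t ^ 2 ≤ 1 := by nlinarith [sq_nonneg ‖w‖]
  rw [hxx, mul_one] at hA
  rw [hxw, mul_zero] at hB
  simp only [sub_zero] at hB
  set L := |Real.log d| + 2
  have hL0 : 0 ≤ L := by positivity
  have hpt : ∀ es, Ortho es → es.length = ([] : List (E n)).length + (n - m) →
      ‖perp es v‖ ^ 2 * Real.log (‖perp es v‖ ^ 2) ≤
        (t ^ 2 * (q * Real.log q) + d) +
          (L * |⟪perp es θ, θ⟫ - q| + (2 * L) * |⟪perp es θ, w⟫|) := by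
    intro es ho _
    have hsq : ∀ z : E n, ‖perp es z‖ ^ 2 = ⟪perp es z, z⟫ := fun z => by
      rw [← real_inner_self_eq_norm_sq, ho.inner_perp_perp]
    have hle : ∀ z : E n, ‖perp es z‖ ^ 2 ≤ ‖z‖ ^ 2 := fun z =>
      pow_le_pow_left₀ (norm_nonneg _) (ho.norm_perp_le z) 2
    have hy : ‖perp es v‖ ^ 2 =
        t ^ 2 * ⟪perp es θ, θ⟫ + 2 * t * ⟪perp es θ, w⟫ + ‖perp es w‖ ^ 2 := by
      rw [hsq v, hsq w, hvw, perp_add, perp_smul]
      simp only [inner_add_left, inner_add_right, real_inner_smul_left, real_inner_smul_right,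
        inner_perp_comm es w θ]
      ring
    have hy1 : ‖perp es v‖ ^ 2 ≤ 1 := by simpa [hv] using hle v
    have hr : ‖perp es w‖ ^ 2 ≤ 1 - t ^ 2 := hw2 ▸ hle w
    have hz : 0 ≤ t ^ 2 * q + ‖perp es w‖ ^ 2 := by positivity
    have hz1 : t ^ 2 * q + ‖perp es w‖ ^ 2 ≤ 1 := by
      nlinarith [mul_le_mul_of_nonneg_left hq1 (sq_nonneg t)]
    have hdiff : |‖perp es v‖ ^ 2 - (t ^ 2 * q + ‖perp es w‖ ^ 2)| ≤
        |⟪perp es θ, θ⟫ - q| + 2 * |⟪perp es θ, w⟫| := by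
      rw [hy, show t ^ 2 * ⟪perp es θ, θ⟫ + 2 * t * ⟪perp es θ, w⟫ + ‖perp es w‖ ^ 2 -
          (t ^ 2 * q + ‖perp es w‖ ^ 2) =
          t ^ 2 * (⟪perp es θ, θ⟫ - q) + t * (2 * ⟪perp es θ, w⟫) by ring]
      have habs : |t| ≤ 1 := (sq_le_one_iff_abs_le_one t).1 ht2
      refine (abs_add_le _ _).trans (add_le_add ?_ ?_)
      · rw [abs_mul, abs_of_nonneg (sq_nonneg t)]
        exact mul_le_of_le_one_left (abs_nonneg _) ht2
      · rw [abs_mul, abs_mul 2, abs_two]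
        exact mul_le_of_le_one_left (by positivity) habs
    have h1 := mulLog_sub_le (sq_nonneg _) hy1 hz hz1 hd hd1
    have h2 := mulLog_mix_le (sq_nonneg t) ht2 hq0 (sq_nonneg ‖perp es w‖) hr
    have h3 := mul_le_mul_of_nonneg_left hdiff hL0
    linarith
  refine (tchain_mono hF _ [] Ortho.nil hk0 hpt).trans ?_
  rw [tchain_add, tchain_const hF _ [] Ortho.nil hk0, tchain_add, tchain_const_mul,
    tchain_const_mul]
  have h1 := mul_le_mul_of_nonneg_left hA hL0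
  have h2 := mul_le_mul_of_nonneg_left hB (show 0 ≤ 2 * L by positivity)
  linarith

private lemma crude_real {C ℓ y w σ r T E : ℝ} (hC : 0 ≤ C) (hℓ : 0 ≤ ℓ) (hy : y ^ 2 ≤ 1)
    (hw0 : 0 ≤ w) (hw : w ≤ 1 / 6) (hσ1 : σ ≤ 1) (hr : 1 ≤ r) (hℓr : ℓ ≤ 2 * r)
    (hb : T ≤ E + ℓ / 2 + C * σ * ((ℓ + 1) / 2) + 2 * w ^ 2) (hE : E ≤ 0) (hT0 : 0 ≤ T) :
    (1 + 3 * w) * T - (1 - y ^ 2) / 2 * ℓ ≤ 6 * (C + 2) * r := by
  have h1 : C * σ * ((ℓ + 1) / 2) ≤ C * ((ℓ + 1) / 2) :=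
    mul_le_mul_of_nonneg_right (mul_le_of_le_one_right hC hσ1) (by positivity)
  have h2 : 2 * w ^ 2 ≤ 1 := by nlinarith
  have h3 : (1 + 3 * w) * T ≤ 2 * (ℓ / 2 + C * ((ℓ + 1) / 2) + 1) :=
    mul_le_mul (by linarith) (by linarith) hT0 (by norm_num)
  have h4 : C * ℓ ≤ C * (2 * r) := mul_le_mul_of_nonneg_left hℓr hC
  have h5 : C ≤ C * r := le_mul_of_one_le_right hC hr
  have h6 : 0 ≤ (1 - y ^ 2) / 2 * ℓ := mul_nonneg (by linarith) hℓ
  linarith [mul_nonneg hC (by linarith : 0 ≤ r)]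

private lemma fine_real {C Λ ℓ y w σ s T E a b ε : ℝ} (hC : 0 ≤ C) (hΛ : 0 ≤ Λ) (hℓ : 0 ≤ ℓ)
    (hy : y ^ 2 ≤ 1) (hb : T ≤ E + ℓ / 2 + C * σ * ((ℓ + 1) / 2) + 2 * w ^ 2)
    (hE : E ≤ -(y ^ 2) * ℓ / 2 + a + b) (ha : a ≤ ε / 16) (hbε : b ≤ ε / 32) (hw0 : 0 ≤ w)
    (hw : w ≤ 1 / 6) (hws : w ≤ s) (hσ : σ ≤ s) (hwsq : 2 * w ^ 2 ≤ s) (hℓΛ : ℓ ≤ Λ)
    (hs : (C + 6) * (Λ + 1) * s ≤ ε / 8) :
    (1 + 3 * w) * T - (1 - y ^ 2) / 2 * ℓ ≤ ε / 2 := by
  have hs0 : 0 ≤ s := hw0.trans hws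
  have h1 : C * σ * ((ℓ + 1) / 2) ≤ C * s * ((Λ + 1) / 2) :=
    mul_le_mul (mul_le_mul_of_nonneg_left hσ hC) (by linarith) (by positivity)
      (mul_nonneg hC hs0)
  have h4 : 0 ≤ C * s * (Λ + 1) := by positivity
  have h5 : 0 ≤ s * Λ := by positivity
  have hε : 0 ≤ ε := by
    have : 0 ≤ (C + 6) * (Λ + 1) * s := by positivity
    linarith
  set R := ε / 16 + ε / 32 + C * s * ((Λ + 1) / 2) + s with hR
  have hT : T ≤ (1 - y ^ 2) / 2 * ℓ + R := by linarith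
  have hR0 : 0 ≤ R := by positivity
  have hTT := mul_le_mul_of_nonneg_left hT (by linarith : 0 ≤ 1 + 3 * w)
  have hy' : (1 - y ^ 2) / 2 * ℓ ≤ 1 / 2 * Λ :=
    mul_le_mul (by linarith [sq_nonneg y]) hℓΛ hℓ (by norm_num)
  have h2 : 3 * w * ((1 - y ^ 2) / 2 * ℓ) ≤ 3 * s * (1 / 2 * Λ) :=
    mul_le_mul (by linarith) hy' (mul_nonneg (by linarith) hℓ) (by linarith)
  have h3 : 3 * w * R ≤ R := mul_le_of_le_one_left hR0 (by linarith)
  linarith

/-- The loss at any direction is at most half the squared sine of its angle to a good one. -/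
lemma lossFun_le_far (ε : ℝ) (hε : 0 < ε) :
    ∃ n₀ : ℕ, ∀ (n N : ℕ) (c : Fin N → ℝ) (u : Fin N → E n) (m₀ : ℕ) (θ v : E n), n₀ ≤ n →
      Frame c u → GoodDir c u θ → ‖v‖ = 1 →
      lossFun c u m₀ v ≤ (1 - ⟪v, θ⟫ ^ 2) / 2 + ε := by
  obtain ⟨C, hC, hsecond⟩ := exists_sval_sq_mean
  set A := 6 * (C + 2) with hA
  have hA0 : 0 < A := by rw [hA]; positivity
  set η := min 1 ((ε / (4 * A)) ^ 2) with hη
  have hη0 : 0 < η := lt_min one_pos (by positivity)
  have hηA : 2 * A * √η ≤ ε / 2 := by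
    have : √η ≤ ε / (4 * A) := (Real.sqrt_le_left (by positivity)).2 (min_le_right _ _)
    calc 2 * A * √η ≤ 2 * A * (ε / (4 * A)) := mul_le_mul_of_nonneg_left this (by positivity)
      _ = _ := by field_simp; ring
  set d := min 1 (ε * η / 8) with hd
  have hd0 : 0 < d := lt_min one_pos (by positivity)
  set κ := ε / (48 * (|Real.log d| + 2)) with hκ
  have hκ0 : 0 < κ := by positivity
  obtain ⟨n₁, hn₁⟩ := dev_small η κ hη0 hκ0
  set Λ := -Real.log η with hΛ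
  have hΛ0 : 0 ≤ Λ := neg_nonneg.2 (Real.log_nonpos hη0.le (min_le_left _ _))
  have hlim : Tendsto
      (fun n : ℕ => (C + 6) * (Λ + 1) * η ^ (-(1 / 3) : ℝ) * (n : ℝ) ^ (-(1 / 3) : ℝ))
      atTop (𝓝 0) := by
    simpa using ((tendsto_rpow_neg_atTop (by norm_num : (0 : ℝ) < 1 / 3)).comp
      tendsto_natCast_atTop_atTop).const_mul _
  obtain ⟨n₂, hn₂⟩ := eventually_atTop.1 (hlim.eventually
    (ge_mem_nhds (show (0 : ℝ) < ε / 8 by positivity)))
  refine ⟨max (max n₁ n₂) 1, fun n N c u m₀ θ v hn hF hg hv => ?_⟩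
  simp only [max_le_iff] at hn
  have hn' : (0 : ℝ) < n := by exact_mod_cast (show 0 < n by omega)
  set y := ⟪v, θ⟫ with hy
  have hy2 : y ^ 2 ≤ 1 := by
    have := abs_real_inner_le_norm v θ
    rw [hv, hg.1, mul_one] at this
    exact (sq_le_one_iff_abs_le_one y).2 this
  set T := fun m => (1 + 3 * winW m) * tchain c u (n - m) [] (fun es => lstep m (sval es v))
  have hbase : ∀ m, 0 < m → m ≤ n →
      0 ≤ Real.log ((n : ℝ) / m) ∧ (m : ℝ) ^ (-(1 / 3) : ℝ) ≤ 1 ∧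
      tchain c u (n - m) [] (fun es => lstep m (sval es v)) ≤
      (2 * ((m : ℝ) / n))⁻¹ *
          tchain c u (n - m) [] (fun es => ‖perp es v‖ ^ 2 * Real.log (‖perp es v‖ ^ 2)) +
        Real.log ((n : ℝ) / m) / 2 + C * (m : ℝ) ^ (-(1 / 3) : ℝ) *
          ((Real.log ((n : ℝ) / m) + 1) / 2) + 2 * winW m ^ 2 := fun m hm hmn =>
    ⟨Real.log_nonneg (by rw [one_le_div (by exact_mod_cast hm)]; exact_mod_cast hmn),
      Real.rpow_le_one_of_one_le_of_nonpos (by exact_mod_cast hm) (by norm_num),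
      step_loss_le hF hm hmn (hsecond n N c u m v hF hm hmn hv).1⟩
  have hcrude : ∀ m, 0 < m → m ≤ n →
      T m - (1 - y ^ 2) / 2 * Real.log ((n : ℝ) / m) ≤ A * √((n : ℝ) / m) := by
    intro m hm hmn
    obtain ⟨hℓ, hs, hb⟩ := hbase m hm hmn
    set ℓ := Real.log ((n : ℝ) / m)
    have hm' : (0 : ℝ) < m := by exact_mod_cast hm
    have hneg : tchain c u (n - m) []
        (fun es => ‖perp es v‖ ^ 2 * Real.log (‖perp es v‖ ^ 2)) ≤ 0 :=
      (tchain_mono hF _ [] Ortho.nil (by simp) fun es ho _ =>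
        mul_nonpos_of_nonneg_of_nonpos (sq_nonneg _) (Real.log_nonpos (sq_nonneg _)
          (pow_le_one₀ (norm_nonneg _) ((ho.norm_perp_le v).trans_eq hv)))).trans
        (tchain_const hF _ [] Ortho.nil (by simp) 0).le
    have h0 : (2 * ((m : ℝ) / n))⁻¹ *
        tchain c u (n - m) [] (fun es => ‖perp es v‖ ^ 2 * Real.log (‖perp es v‖ ^ 2)) ≤ 0 :=
      mul_nonpos_of_nonneg_of_nonpos (by positivity) hneg
    set r := √((n : ℝ) / m)
    have hnm : 1 ≤ (n : ℝ) / m := by rw [one_le_div hm']; exact_mod_cast hmn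
    have hr1 : 1 ≤ r := Real.one_le_sqrt.2 hnm
    have hℓr : ℓ ≤ 2 * r := by
      have h := Real.log_le_sub_one_of_pos (show 0 < r by linarith)
      have h' : ℓ = 2 * Real.log r := by
        rw [Real.log_sqrt (by positivity)]; ring
      linarith
    rw [hA]
    exact crude_real hC.le hℓ hy2 (winW_nonneg m) (winW_le m) hs hr1 hℓr hb h0
      (tchain_nonneg hF _ [] Ortho.nil (by simp) fun es _ _ => lstep_nonneg m (sval_nonneg es v))
  have hfine : ∀ m, 0 < m → m ≤ n → η * n ≤ m →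
      T m - (1 - y ^ 2) / 2 * Real.log ((n : ℝ) / m) ≤ ε / 2 := by
    intro m hm hmn hηm
    obtain ⟨hℓ, hs, hb⟩ := hbase m hm hmn
    have hm' : (0 : ℝ) < m := by exact_mod_cast hm
    have hw1 : ‖v - y • θ‖ ≤ 1 := by
      refine le_of_pow_le_pow_left₀ two_ne_zero zero_le_one ?_
      rw [norm_sub_sq_real, real_inner_smul_right, norm_smul, hv, hg.1, Real.norm_eq_abs, mul_one,
        sq_abs, ← hy]
      nlinarith [sq_nonneg y]
    have hE := entropy_le hF hm hmn hg.1 hv hd0 (min_le_left _ _)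
      (hn₁ n N c u m θ θ hn.1.1 hF hg hg.1.le hm hmn hηm)
      (hn₁ n N c u m θ (v - y • θ) hn.1.1 hF hg hw1 hm hmn hηm)
    rw [← hy] at hE
    set ℓ := Real.log ((n : ℝ) / m) with hℓdef
    set q := (m : ℝ) / n with hq
    have hqℓ : Real.log q = -ℓ := by rw [hℓdef, hq, ← Real.log_inv, inv_div]
    have hqη : η ≤ q := by rw [hq, le_div_iff₀ hn']; exact hηm
    have hq0 : 0 < q := hη0.trans_le hqη
    set Ld := |Real.log d| + 2 with hLd
    have hent : (2 * q)⁻¹ *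
        tchain c u (n - m) [] (fun es => ‖perp es v‖ ^ 2 * Real.log (‖perp es v‖ ^ 2)) ≤
        -(y ^ 2) * ℓ / 2 + d / (2 * η) + 3 / 2 * (Ld * κ) := by
      refine (mul_le_mul_of_nonneg_left hE (by positivity)).trans ?_
      rw [hqℓ, show (2 * q)⁻¹ * (y ^ 2 * (q * -ℓ) + d + Ld * (3 * (κ * q))) =
        -(y ^ 2) * ℓ / 2 + d / (2 * q) + 3 / 2 * (Ld * κ) by field_simp]
      gcongr
    have hd2 : d / (2 * η) ≤ ε / 16 := by
      rw [div_le_iff₀ (by positivity)]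
      linarith [min_le_right (1 : ℝ) (ε * η / 8)]
    have hκ2 : 3 / 2 * (Ld * κ) = ε / 32 := by
      have : Ld ≠ 0 := ne_of_gt (by rw [hLd]; positivity)
      rw [hκ]; field_simp; ring
    set s := (η * n) ^ (-(1 / 3) : ℝ) with hsdef
    have hsm : (m : ℝ) ^ (-(1 / 3) : ℝ) ≤ s :=
      Real.rpow_le_rpow_of_nonpos (by positivity) hηm (by norm_num)
    have hs' : (C + 6) * (Λ + 1) * s ≤ ε / 8 := by
      rw [hsdef, Real.mul_rpow hη0.le hn'.le, ← mul_assoc]
      exact hn₂ n hn.1.2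
    have hℓΛ : ℓ ≤ Λ := by
      rw [hΛ, show ℓ = -Real.log q by linarith]
      linarith [Real.log_le_log hη0 hqη]
    have hw0 := winW_nonneg m
    have hws : winW m ≤ s := (winW_le_rpow m).trans hsm
    have hs0 : 0 ≤ s := hw0.trans hws
    have hwsq : 2 * winW m ^ 2 ≤ s := by nlinarith [winW_le m]
    exact fine_real hC.le hΛ0 hℓ hy2 hb hent hd2 hκ2.le hw0 (winW_le m) hws hsm hwsq hℓΛ hs'
  have hsum := rate_avg_le (m₀ := m₀) (show 0 < n by omega) hη0.le (by rw [hA]; positivity)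
    (by positivity) _ hcrude hfine
  rw [Finset.sum_sub_distrib, mul_sub, ← Finset.mul_sum] at hsum
  have hmain : (n : ℝ)⁻¹ * ((1 - y ^ 2) / 2 * ∑ m ∈ Finset.Ioc m₀ n, Real.log ((n : ℝ) / m)) ≤
      (1 - y ^ 2) / 2 := by
    rw [mul_left_comm]
    refine mul_le_of_le_one_right (by linarith) ?_
    rw [inv_mul_le_iff₀ hn', mul_one]
    refine le_trans (Finset.sum_le_sum_of_subset_of_nonneg
      (Finset.Ioc_subset_Ioc_left (Nat.zero_le _)) fun m hm _ => ?_) (sum_log_ratio_le n)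
    exact (hbase m (Finset.mem_Ioc.1 hm).1 (Finset.mem_Ioc.1 hm).2).1
  change (n : ℝ)⁻¹ * ∑ m ∈ Finset.Ioc m₀ n, T m ≤ _
  linarith

end Vale.Agent.P237.Sharp
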