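import Vale.Agent.P237.Sharp.Avg

/-!
P237: the exact loss of a step as a function of the relative length, with two derivatives.
-/

noncomputable section

open Set Filter
open scoped Topology

namespace Vale.Agent.P237.Sharp

open Asymp

/-- The positive part. -/
def posPart' (x : ℝ) : ℝ := max 0 x

lemma hasDerivAt_posPart_pow (k : ℕ) (x : ℝ) :
    HasDerivAt (fun y => posPart' y ^ (k + 2)) ((k + 2) * posPart' x ^ (k + 1)) x := by
  rcases lt_trichotomy x 0 with hx | rfl | hx
  · have h : (fun y => posPart' y ^ (k + 2)) =ᶠ[𝓝 x] fun _ => 0 := by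
      filter_upwards [eventually_lt_nhds hx] with y hy
      simp [posPart', hy.le]
    simpa [posPart', hx.le] using (hasDerivAt_const x (0 : ℝ)).congr_of_eventuallyEq h
  · rw [hasDerivAt_iff_isLittleO]
    have h0 : posPart' 0 = 0 := max_self 0
    simp only [h0, zero_pow (Nat.succ_ne_zero _), mul_zero, smul_zero, sub_zero]
    refine (Asymptotics.IsBigO.of_bound 1 (Eventually.of_forall fun y => ?_)).trans_isLittleO
      (Asymptotics.isLittleO_pow_id (show 1 < k + 2 by omega))
    rw [one_mul, norm_pow, norm_pow]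
    refine pow_le_pow_left₀ (norm_nonneg _) ?_ _
    simp only [Real.norm_eq_abs, posPart']
    rcases le_total 0 y with h | h <;> simp [h]
  · have h : (fun y => posPart' y ^ (k + 2)) =ᶠ[𝓝 x] fun y => y ^ (k + 2) := by
      filter_upwards [eventually_gt_nhds hx] with y hy
      simp [posPart', hy.le]
    simpa [posPart', hx.le] using (hasDerivAt_pow (k + 2) x).congr_of_eventuallyEq h

/-- The derivative of the window. -/
def win1 (m : ℕ) (e : ℝ) : ℝ :=
  3 * posPart' (1 - (e / winW m) ^ 2) ^ 2 * (-2 * e / winW m ^ 2)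

/-- The second derivative of the window. -/
def win2 (m : ℕ) (e : ℝ) : ℝ :=
  6 * posPart' (1 - (e / winW m) ^ 2) * (-2 * e / winW m ^ 2) ^ 2 +
    3 * posPart' (1 - (e / winW m) ^ 2) ^ 2 * (-2 / winW m ^ 2)

/-- The tilted length. -/
def rad (m : ℕ) (s : ℝ) : ℝ := 1 + (s - 1) * (1 - win m (s - 1))

/-- The derivative of the tilted length. -/
def rad1 (m : ℕ) (s : ℝ) : ℝ := 1 - win m (s - 1) - (s - 1) * win1 m (s - 1)

/-- The second derivative of the tilted length. -/
def rad2 (m : ℕ) (s : ℝ) : ℝ := -2 * win1 m (s - 1) - (s - 1) * win2 m (s - 1)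

/-- The convex function `r log r - r + 1`. -/
def Kfun (r : ℝ) : ℝ := r * Real.log r - r + 1

/-- The derivative of the loss. -/
def lstep1 (m : ℕ) (s : ℝ) : ℝ :=
  Kfun (rad m s) + s * Real.log (rad m s) * rad1 m s + (s - 1)

/-- The second derivative of the loss. -/
def lstep2 (m : ℕ) (s : ℝ) : ℝ :=
  2 * Real.log (rad m s) * rad1 m s + s * rad1 m s ^ 2 / rad m s +
    s * Real.log (rad m s) * rad2 m s + 1

/-- The loss outside the window. -/
def xi (s : ℝ) : ℝ := s ^ 2 * Real.log s - (s ^ 2 - 1) / 2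

lemma lstep_eq {m : ℕ} (hm : 0 < m) {s : ℝ} (hs : 0 ≤ s) :
    lstep m s = s * Kfun (rad m s) + (s - 1) ^ 2 / 2 := by
  rcases hs.eq_or_lt with rfl | h
  · simp [lstep]
  · have : s * tilt m s = rad m s := by
      rw [tilt, rad]; field_simp; ring
    rw [lstep, this, Kfun]

variable {m : ℕ}

lemma hasDerivAt_win (hm : 0 < m) (e : ℝ) : HasDerivAt (win m) (win1 m e) e := by
  have hw := (winW_pos hm).ne'
  have h1 : HasDerivAt (fun y => 1 - (y / winW m) ^ 2) (-2 * e / winW m ^ 2) e := by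
    have := (((hasDerivAt_id e).div_const (winW m)).pow 2).const_sub 1
    simp only [id_eq] at this
    refine this.congr_deriv ?_
    push_cast; field_simp
  have h := (hasDerivAt_posPart_pow 1 _).comp e h1
  refine h.congr_deriv ?_
  rw [win1]; push_cast; ring

lemma hasDerivAt_win1 (hm : 0 < m) (e : ℝ) : HasDerivAt (win1 m) (win2 m e) e := by
  have hw := (winW_pos hm).ne'
  have h1 : HasDerivAt (fun y => 1 - (y / winW m) ^ 2) (-2 * e / winW m ^ 2) e := by
    have := (((hasDerivAt_id e).div_const (winW m)).pow 2).const_sub 1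
    simp only [id_eq] at this
    refine this.congr_deriv ?_
    push_cast; field_simp
  have h2 : HasDerivAt (fun y => -2 * y / winW m ^ 2) (-2 / winW m ^ 2) e := by
    simpa using ((hasDerivAt_id e).const_mul (-2 : ℝ)).div_const (winW m ^ 2)
  have h := (((hasDerivAt_posPart_pow 0 _).comp e h1).const_mul 3).mul h2
  refine h.congr_deriv ?_
  simp only [win2, Function.comp_apply]; push_cast; ring

lemma hasDerivAt_rad (hm : 0 < m) (s : ℝ) : HasDerivAt (rad m) (rad1 m s) s := by
  have h := (((hasDerivAt_id s).sub_const 1).mul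
    (((hasDerivAt_win hm (s - 1)).comp s ((hasDerivAt_id s).sub_const 1)).const_sub 1)).const_add 1
  refine h.congr_deriv ?_
  simp only [rad1, Function.comp_apply, id_eq]; ring

lemma hasDerivAt_rad1 (hm : 0 < m) (s : ℝ) : HasDerivAt (rad1 m) (rad2 m s) s := by
  have hs := (hasDerivAt_id s).sub_const 1
  have h := (((hasDerivAt_win hm (s - 1)).comp s hs).const_sub 1).sub
    (hs.mul ((hasDerivAt_win1 hm (s - 1)).comp s hs))
  refine h.congr_deriv ?_
  simp only [rad2, Function.comp_apply, id_eq]; ring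

lemma posPart'_le_one (hm : 0 < m) (e : ℝ) : posPart' (1 - (e / winW m) ^ 2) ≤ 1 :=
  max_le zero_le_one (by have := winW_pos hm; linarith [sq_nonneg (e / winW m)])

lemma posPart'_nonneg (x : ℝ) : 0 ≤ posPart' x := le_max_left _ _

lemma posPart_win_eq_zero (hm : 0 < m) {e : ℝ} (he : winW m ≤ |e|) :
    posPart' (1 - (e / winW m) ^ 2) = 0 := by
  have h1 : 1 ≤ |e / winW m| := by
    rw [abs_div, abs_of_pos (winW_pos hm), one_le_div (winW_pos hm)]; exact he
  exact max_eq_left (by linarith [(one_le_sq_iff_one_le_abs _).2 h1])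

lemma win_outside (hm : 0 < m) {e : ℝ} (he : winW m ≤ |e|) :
    win m e = 0 ∧ win1 m e = 0 ∧ win2 m e = 0 := by
  refine ⟨win_eq_zero hm he, ?_, ?_⟩ <;> simp [win1, win2, posPart_win_eq_zero hm he]

lemma rad_outside (hm : 0 < m) {s : ℝ} (he : winW m ≤ |s - 1|) :
    rad m s = s ∧ rad1 m s = 1 ∧ rad2 m s = 0 := by
  obtain ⟨h0, h1, h2⟩ := win_outside hm he
  simp [rad, rad1, rad2, h0, h1, h2]

lemma lstep1_outside (hm : 0 < m) {s : ℝ} (he : winW m ≤ |s - 1|) :
    lstep1 m s = 2 * (s * Real.log s) := by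
  obtain ⟨h0, h1, -⟩ := rad_outside hm he
  rw [lstep1, h0, h1, Kfun]; ring

lemma lstep2_outside (hm : 0 < m) {s : ℝ} (hs : 0 < s) (he : winW m ≤ |s - 1|) :
    lstep2 m s = 2 * Real.log s + 2 := by
  obtain ⟨h0, h1, h2⟩ := rad_outside hm he
  rw [lstep2, h0, h1, h2]; field_simp; ring

lemma abs_rad_sub_one_le (m : ℕ) (s : ℝ) : |rad m s - 1| ≤ |s - 1| := by
  rw [rad, add_sub_cancel_left, abs_mul]
  refine mul_le_of_le_one_right (abs_nonneg _) (abs_le.2 ⟨?_, ?_⟩) <;>
    linarith [win_nonneg m (s - 1), win_le_one m (s - 1)]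

lemma rad_pos (hm : 0 < m) {s : ℝ} (hs : 0 < s) : 0 < rad m s := by
  rcases le_or_gt (winW m) |s - 1| with h | h
  · rwa [(rad_outside hm h).1]
  · have := abs_le.1 (abs_rad_sub_one_le m s)
    linarith [winW_le m]

lemma hasDerivAt_Kfun {r : ℝ} (hr : r ≠ 0) : HasDerivAt Kfun (Real.log r) r := by
  have h := ((Real.hasDerivAt_mul_log hr).sub (hasDerivAt_id r)).add_const 1
  exact (h.congr_deriv (by ring)).congr_of_eventuallyEq (Eventually.of_forall fun _ => rfl)

lemma hasDerivAt_lstep (hm : 0 < m) {s : ℝ} (hs : 0 < s) :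
    HasDerivAt (lstep m) (lstep1 m s) s := by
  have h := ((hasDerivAt_id s).mul
    ((hasDerivAt_Kfun (rad_pos hm hs).ne').comp s (hasDerivAt_rad hm s))).add
    ((((hasDerivAt_id s).sub_const 1).pow 2).div_const 2)
  refine (h.congr_deriv ?_).congr_of_eventuallyEq ?_
  · simp only [lstep1, Function.comp_apply, id_eq]; push_cast; ring
  · filter_upwards [eventually_gt_nhds hs] with y hy
    simp [lstep_eq hm hy.le]

lemma hasDerivAt_lstep1 (hm : 0 < m) {s : ℝ} (hs : 0 < s) :
    HasDerivAt (lstep1 m) (lstep2 m s) s := by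
  have hr := rad_pos hm hs
  have hid := hasDerivAt_id s
  have h := (((hasDerivAt_Kfun hr.ne').comp s (hasDerivAt_rad hm s)).add
    ((hid.mul ((hasDerivAt_rad hm s).log hr.ne')).mul (hasDerivAt_rad1 hm s))).add
    (hid.sub_const 1)
  refine h.congr_deriv ?_
  simp only [lstep2, Pi.mul_apply, id_eq]; field_simp; ring

lemma Kfun_nonneg {r : ℝ} (hr : 0 ≤ r) : 0 ≤ Kfun r := by
  rcases hr.eq_or_lt with h | h
  · simp [Kfun, ← h]
  · have h1 := mul_le_mul_of_nonneg_left (Real.one_sub_inv_le_log_of_pos h) h.le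
    rw [mul_sub, mul_one, mul_inv_cancel₀ h.ne'] at h1
    unfold Kfun; linarith

lemma Kfun_le_sq {r : ℝ} (hr : 0 < r) : Kfun r ≤ (r - 1) ^ 2 := by
  have h1 := mul_le_mul_of_nonneg_left (Real.log_le_sub_one_of_pos hr) hr.le
  unfold Kfun; nlinarith

lemma abs_log_le {r : ℝ} (hr : 5 / 6 ≤ r) : |Real.log r| ≤ 6 / 5 * |r - 1| := by
  have h0 : 0 < r := by linarith
  have h1 := Real.log_le_sub_one_of_pos h0
  have h2 : (r - 1) / r ≤ Real.log r := by
    rw [sub_div, div_self h0.ne', one_div]; exact Real.one_sub_inv_le_log_of_pos h0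
  have h3 : |(r - 1) / r| ≤ 6 / 5 * |r - 1| := by
    rw [abs_div, abs_of_pos h0, div_le_iff₀ h0]
    nlinarith [mul_le_mul_of_nonneg_left hr (abs_nonneg (r - 1))]
  have h4 := abs_le.1 h3
  exact abs_le.2 ⟨by linarith, by linarith [le_abs_self (r - 1), abs_nonneg (r - 1)]⟩

/-- The bounds inside the window. -/
lemma inside_bounds (hm : 0 < m) {s : ℝ} (he : |s - 1| < winW m) :
    5 / 6 < s ∧ s < 7 / 6 ∧ 5 / 6 < rad m s ∧ |Real.log (rad m s)| ≤ 6 / 5 * |s - 1| ∧
      |rad1 m s| ≤ 7 ∧ |rad2 m s| ≤ 42 / winW m := by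
  have hw := winW_pos hm
  have hw6 := winW_le m
  obtain ⟨ha, hb⟩ := abs_lt.1 he
  have hr := abs_le.1 (abs_rad_sub_one_le m s)
  have habs : |s - 1| < 1 / 6 := lt_of_lt_of_le he hw6
  have hr56 : 5 / 6 < rad m s := by linarith
  refine ⟨by linarith, by linarith, hr56, (abs_log_le hr56.le).trans
    (mul_le_mul_of_nonneg_left (abs_rad_sub_one_le m s) (by norm_num)), ?_, ?_⟩
  all_goals
    set p := posPart' (1 - ((s - 1) / winW m) ^ 2) with hp
    have hp0 := posPart'_nonneg (1 - ((s - 1) / winW m) ^ 2)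
    have hp1 := posPart'_le_one hm (s - 1)
    rw [← hp] at hp0 hp1
    have hd : |(-2 * (s - 1) / winW m ^ 2)| ≤ 2 / winW m := by
      rw [abs_div, abs_mul, abs_of_nonneg (sq_nonneg (winW m)), sq (winW m), abs_neg, abs_two,
        mul_div_mul_comm]
      exact mul_le_of_le_one_right (by positivity) ((div_le_one hw).2 he.le)
    have h1 : |win1 m (s - 1)| ≤ 6 / winW m := by
      rw [win1, ← hp, abs_mul, abs_of_nonneg (by positivity : 0 ≤ 3 * p ^ 2)]
      calc 3 * p ^ 2 * |(-2 * (s - 1) / winW m ^ 2)| ≤ 3 * 1 * (2 / winW m) := by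
            refine mul_le_mul (mul_le_mul_of_nonneg_left (pow_le_one₀ hp0 hp1) (by norm_num)) hd
              (abs_nonneg _) (by norm_num)
        _ = _ := by ring
  · have h2 : |(s - 1) * win1 m (s - 1)| ≤ 6 := by
      rw [abs_mul]
      refine (mul_le_mul he.le h1 (abs_nonneg _) hw.le).trans_eq ?_
      field_simp
    rw [rad1]
    have := abs_le.1 h2
    exact abs_le.2 ⟨by linarith [win_le_one m (s - 1)], by linarith [win_nonneg m (s - 1)]⟩
  · have h2 : |win2 m (s - 1)| ≤ 30 / winW m ^ 2 := by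
      rw [win2, ← hp]
      refine (abs_add_le _ _).trans ?_
      have h3 : |(-2 : ℝ) / winW m ^ 2| = 2 / winW m ^ 2 := by
        rw [abs_div, abs_neg, abs_two, abs_of_nonneg (sq_nonneg (winW m))]
      rw [abs_mul, abs_of_nonneg (by positivity : 0 ≤ 6 * p), abs_pow, abs_mul,
        abs_of_nonneg (by positivity : 0 ≤ 3 * p ^ 2), h3]
      calc 6 * p * |(-2 * (s - 1) / winW m ^ 2)| ^ 2 + 3 * p ^ 2 * (2 / winW m ^ 2)
          ≤ 6 * 1 * (2 / winW m) ^ 2 + 3 * 1 * (2 / winW m ^ 2) := by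
            gcongr
            exact pow_le_one₀ hp0 hp1
        _ = _ := by ring
    rw [rad2]
    refine (abs_sub _ _).trans ?_
    rw [abs_mul, abs_mul, abs_neg, abs_two]
    calc 2 * |win1 m (s - 1)| + |s - 1| * |win2 m (s - 1)|
        ≤ 2 * (6 / winW m) + winW m * (30 / winW m ^ 2) := by gcongr
      _ = _ := by field_simp; ring

/-- The derivative vanishes at one at least linearly. -/
lemma abs_lstep1_le (hm : 0 < m) {s : ℝ} (hs : 0 ≤ s) :
    |lstep1 m s| ≤ 12 * |s ^ 2 - 1| := by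
  have hsq : |s ^ 2 - 1| = |s - 1| * (s + 1) := by
    rw [show s ^ 2 - 1 = (s - 1) * (s + 1) by ring, abs_mul,
      abs_of_nonneg (by linarith : 0 ≤ s + 1)]
  rcases le_or_gt (winW m) |s - 1| with h | h
  · rw [lstep1_outside hm h]
    have h2 : |s * Real.log s| ≤ |s ^ 2 - 1| := by
      rcases hs.eq_or_lt with h0 | h0
      · simp [← h0]
      · have e1 := mul_le_mul_of_nonneg_left (Real.log_le_sub_one_of_pos h0) hs
        have e2 := mul_le_mul_of_nonneg_left (Real.one_sub_inv_le_log_of_pos h0) hs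
        rw [mul_sub, mul_one, mul_inv_cancel₀ h0.ne'] at e2
        rw [hsq]
        refine abs_le.2 ⟨?_, ?_⟩
        · nlinarith [le_abs_self (s - 1), neg_abs_le (s - 1)]
        · nlinarith [le_abs_self (s - 1), abs_nonneg (s - 1)]
    rw [abs_mul, abs_two]
    linarith [abs_nonneg (s ^ 2 - 1)]
  · obtain ⟨h1, h2, h3, h4, h5, -⟩ := inside_bounds hm h
    have h6 : |lstep1 m s| ≤ 12 * |s - 1| := by
      have hK0 := Kfun_nonneg (by linarith : 0 ≤ rad m s)
      have hK : Kfun (rad m s) ≤ |s - 1| / 6 := by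
        refine (Kfun_le_sq (by linarith)).trans ?_
        rw [← sq_abs]
        have e1 := abs_rad_sub_one_le m s
        have e2 : |s - 1| ≤ 1 / 6 := h.le.trans (winW_le m)
        nlinarith [abs_nonneg (rad m s - 1)]
      have hmid : |s * Real.log (rad m s) * rad1 m s| ≤ 7 / 6 * (6 / 5 * |s - 1|) * 7 := by
        rw [abs_mul, abs_mul, abs_of_nonneg hs]
        gcongr
      rw [lstep1]
      have e := abs_le.1 hmid
      have e' := abs_le.1 (le_refl |s - 1|)
      exact abs_le.2 ⟨by linarith, by linarith⟩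
    refine h6.trans (mul_le_mul_of_nonneg_left ?_ (by norm_num))
    rw [hsq]
    exact le_mul_of_one_le_right (abs_nonneg _) (by linarith)

/-- The two second-order terms differ by a bounded amount. -/
lemma abs_lstep2_sub_le (hm : 0 < m) {s : ℝ} (hs : 0 < s) :
    |lstep2 m s - lstep1 m s / s| ≤ 150 := by
  rcases le_or_gt (winW m) |s - 1| with h | h
  · rw [lstep1_outside hm h, lstep2_outside hm hs h]
    rw [show 2 * Real.log s + 2 - 2 * (s * Real.log s) / s = 2 by field_simp; ring]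
    norm_num
  · obtain ⟨h1, h2, h3, h4, h5, h6⟩ := inside_bounds hm h
    have hw := winW_pos hm
    have hl : |Real.log (rad m s)| ≤ 6 / 5 * winW m :=
      h4.trans (mul_le_mul_of_nonneg_left h.le (by norm_num))
    have e1 : |2 * Real.log (rad m s) * rad1 m s| ≤ 3 := by
      rw [abs_mul, abs_mul, abs_two]
      calc 2 * |Real.log (rad m s)| * |rad1 m s| ≤ 2 * (6 / 5 * (1 / 6)) * 7 := by
            gcongr; exact hl.trans (mul_le_mul_of_nonneg_left (winW_le m) (by norm_num))
        _ ≤ 3 := by norm_num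
    have e2 : |s * rad1 m s ^ 2 / rad m s| ≤ 69 := by
      rw [abs_div, abs_mul, abs_of_pos hs, abs_pow, abs_of_pos (by linarith : 0 < rad m s)]
      calc s * |rad1 m s| ^ 2 / rad m s ≤ 7 / 6 * 7 ^ 2 / (5 / 6) := by gcongr
        _ ≤ 69 := by norm_num
    have e3 : |s * Real.log (rad m s) * rad2 m s| ≤ 59 := by
      rw [abs_mul, abs_mul, abs_of_pos hs]
      calc s * |Real.log (rad m s)| * |rad2 m s|
          ≤ 7 / 6 * (6 / 5 * winW m) * (42 / winW m) := by gcongr
        _ ≤ 59 := by field_simp; norm_num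
    have e4 : |lstep1 m s / s| ≤ 9 := by
      rw [abs_div, abs_of_pos hs, div_le_iff₀ hs]
      refine (abs_lstep1_le hm hs.le).trans ?_
      have e5 : |s ^ 2 - 1| ≤ 1 / 2 := abs_le.2 ⟨by nlinarith, by nlinarith⟩
      nlinarith
    rw [lstep2]
    obtain ⟨a1, b1⟩ := abs_le.1 e1
    obtain ⟨a2, b2⟩ := abs_le.1 e2
    obtain ⟨a3, b3⟩ := abs_le.1 e3
    obtain ⟨a4, b4⟩ := abs_le.1 e4
    exact abs_le.2 ⟨by linarith, by linarith⟩

lemma xi_nonneg {s : ℝ} (hs : 0 ≤ s) : 0 ≤ xi s := by
  have h := Kfun_nonneg (sq_nonneg s)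
  have e : xi s = Kfun (s ^ 2) / 2 := by
    rw [xi, Kfun, Real.log_pow]; push_cast; ring
  rw [e]; positivity

lemma lstep_le_xi_add (hm : 0 < m) {s : ℝ} (hs : 0 ≤ s) :
    lstep m s ≤ xi s + 2 * winW m ^ 2 := by
  rw [lstep_eq hm hs]
  rcases le_or_gt (winW m) |s - 1| with h | h
  · rw [(rad_outside hm h).1, Kfun, xi]
    nlinarith [sq_nonneg (winW m)]
  · obtain ⟨h1, h2, h3, -, -, -⟩ := inside_bounds hm h
    have e1 : Kfun (rad m s) ≤ (s - 1) ^ 2 := (Kfun_le_sq (by linarith)).trans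
      (sq_le_sq.2 (abs_rad_sub_one_le m s))
    have e2 : (s - 1) ^ 2 ≤ winW m ^ 2 := sq_le_sq.2 (h.le.trans (le_abs_self _))
    nlinarith [xi_nonneg hs, mul_le_mul h2.le e1 (Kfun_nonneg (by linarith)) (by norm_num)]

lemma continuous_win (m : ℕ) : Continuous (win m) := by unfold win; fun_prop

lemma continuousOn_lstep (hm : 0 < m) : ContinuousOn (lstep m) (Ici 0) := by
  have hr : Continuous (rad m) := by
    unfold rad; have := continuous_win m; fun_prop
  have hK : Continuous Kfun := by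
    unfold Kfun; exact (Real.continuous_mul_log.sub continuous_id).add continuous_const
  have h : Continuous fun s => s * Kfun (rad m s) + (s - 1) ^ 2 / 2 := by
    have := hK.comp hr; fun_prop
  exact h.continuousOn.congr fun s hs => lstep_eq hm hs

lemma measurable_lstep1 (m : ℕ) : Measurable (lstep1 m) := by
  unfold lstep1 Kfun rad rad1 win1 win posPart'
  fun_prop

end Vale.Agent.P237.Sharp
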